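import Crest.Agent.R80.IBP0

/-! Row 80: the integral identity for solutions of the two Lamé systems. -/

set_option autoImplicit false
open MeasureTheory Filter Topology Crest.AnalysisR.VecCalc3
open scoped ContDiff RealInnerProductSpace

namespace Crest.Agent.R80

open Crest.AnalysisR.PDE.Elasticity

namespace Aless

theorem pd_lin {a b : R3 → R3} (ha : ContDiff ℝ 1 a) (hb : ContDiff ℝ 1 b) (t : ℝ) (i j : Fin 3)
    (x : R3) : pderiv (fun y => (a y + t • b y) j) i x =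
      pderiv (fun y => a y j) i x + t * pderiv (fun y => b y j) i x := by
  have h1 := ((contDiff_euclidean.1 ha j).differentiable one_ne_zero x).hasFDerivAt
  have h2 := ((contDiff_euclidean.1 hb j).differentiable one_ne_zero x).hasFDerivAt
  exact congrArg (fun L : R3 →L[ℝ] ℝ => L (EuclideanSpace.single i 1))
    (h1.add (h2.const_mul t)).fderiv

theorem pd_cont {g : R3 → ℝ} (hg : ContDiff ℝ 1 g) (i : Fin 3) : Continuous (pderiv g i) :=
  (hg.continuous_fderiv one_ne_zero).clm_apply continuous_const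

theorem pd_c1 {g : R3 → ℝ} (hg : ContDiff ℝ ∞ g) (i : Fin 3) : ContDiff ℝ 1 (pderiv g i) :=
  (((contDiff_infty_iff_fderiv.1 hg).2).of_le (by exact_mod_cast le_top)).clm_apply contDiff_const

theorem bil_symm (lam mu : R3 → ℝ) (a b : R3 → R3) (x : R3) :
    bilR lam mu a b x = bilR lam mu b a x := by
  simp only [bilR, Fin.sum_univ_three]
  ring

theorem bil_lin (lam mu : R3 → ℝ) (c : R3 → R3) {a b : R3 → R3} (ha : ContDiff ℝ 1 a)
    (hb : ContDiff ℝ 1 b) (t : ℝ) (x : R3) : bilR lam mu c (fun y => a y + t • b y) x =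
      bilR lam mu c a x + t * bilR lam mu c b x := by
  simp only [bilR, div3, symGrad, pd_lin ha hb, Fin.sum_univ_three]
  ring

theorem bil_self (lam mu : R3 → ℝ) (a : R3 → R3) (x : R3) :
    energyDensity lam mu a x = bilR lam mu a a x := by
  simp only [bilR, energyDensity, Fin.sum_univ_three]
  ring

theorem bil_stress (lam mu : R3 → ℝ) (u w : R3 → R3) (x : R3) : bilR lam mu u w x =
    ∑ i, ∑ j, stressR lam mu u i j x * pderiv (fun y => w y i) j x := by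
  simp only [bilR, stressR, div3, symGrad, Fin.sum_univ_three]
  simp only [Fin.isValue, Fin.reduceEq, if_true, if_false]
  ring

theorem bil_nonneg {lam mu : R3 → ℝ} (a : R3 → R3) {x : R3} (h1 : 0 < mu x)
    (h2 : 0 < 3 * lam x + 2 * mu x) : 0 ≤ bilR lam mu a a x := by
  have hd : div3 a x = symGrad a 0 0 x + symGrad a 1 1 x + symGrad a 2 2 x := by
    simp only [div3, symGrad, Fin.sum_univ_three]
    ring
  simp only [bilR, Fin.sum_univ_three, hd]
  generalize symGrad a 0 0 x = p, symGrad a 1 1 x = q, symGrad a 2 2 x = r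
  have e1 := mul_nonneg h2.le (sq_nonneg (p + q + r))
  have e2 := mul_nonneg h1.le (add_nonneg (add_nonneg (sq_nonneg (p - q)) (sq_nonneg (q - r)))
    (sq_nonneg (p - r)))
  have e3 := fun i j => mul_nonneg h1.le (mul_self_nonneg (symGrad a i j x))
  nlinarith [e3 0 1, e3 0 2, e3 1 0, e3 1 2, e3 2 0, e3 2 1]

theorem bil_cont {lam mu : R3 → ℝ} (hl : Continuous lam) (hm : Continuous mu) {a b : R3 → R3}
    (ha : ContDiff ℝ 1 a) (hb : ContDiff ℝ 1 b) : Continuous (bilR lam mu a b) := by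
  have h1 := fun i j => pd_cont (contDiff_euclidean.1 ha j) i
  have h2 := fun i j => pd_cont (contDiff_euclidean.1 hb j) i
  unfold bilR div3 symGrad
  fun_prop

theorem stress_c1 {lam mu : R3 → ℝ} (hl : ContDiff ℝ ∞ lam) (hm : ContDiff ℝ ∞ mu) {u : R3 → R3}
    (hu : ContDiff ℝ ∞ u) (i j : Fin 3) : ContDiff ℝ 1 (stressR lam mu u i j) := by
  have h1 := fun i j => pd_c1 (contDiff_euclidean.1 hu j) i
  have hl' : ContDiff ℝ 1 lam := hl.of_le (by exact_mod_cast le_top)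
  have hm' : ContDiff ℝ 1 mu := hm.of_le (by exact_mod_cast le_top)
  unfold stressR div3 symGrad
  split_ifs <;> fun_prop

/-- The polarised energy. -/
noncomputable def Bi (Ω : Set R3) (lam mu : R3 → ℝ) (a b : R3 → R3) : ℝ :=
  ∫ x in Ω, bilR lam mu a b x

variable {Ω : Set R3} {lam mu : R3 → ℝ}

theorem Bi_symm (a b : R3 → R3) : Bi Ω lam mu a b = Bi Ω lam mu b a := by
  simp only [Bi, bil_symm lam mu a b]

theorem Bi_self (a : R3 → R3) : elasticEnergy Ω lam mu a = Bi Ω lam mu a a := by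
  simp only [Bi, elasticEnergy, bil_self]

theorem Bi_lin (hbdd : Bornology.IsBounded Ω) (hl : ContDiff ℝ ∞ lam) (hm : ContDiff ℝ ∞ mu)
    {a b c : R3 → R3} (hc : ContDiff ℝ 1 c) (ha : ContDiff ℝ 1 a) (hb : ContDiff ℝ 1 b) (t : ℝ) :
    Bi Ω lam mu c (fun y => a y + t • b y) = Bi Ω lam mu c a + t * Bi Ω lam mu c b := by
  have hi : ∀ {a : R3 → R3}, ContDiff ℝ 1 a → IntegrableOn (bilR lam mu c a) Ω := fun ha =>
    ((bil_cont hl.continuous hm.continuous hc ha).continuousOn.integrableOn_compact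
      hbdd.isCompact_closure).mono_set subset_closure
  simp only [Bi, bil_lin lam mu c ha hb]
  rw [integral_add (hi ha) ((hi hb).const_mul t), integral_const_mul]

theorem Bi_sq (hbdd : Bornology.IsBounded Ω) (hl : ContDiff ℝ ∞ lam) (hm : ContDiff ℝ ∞ mu)
    {a b : R3 → R3} (ha : ContDiff ℝ 1 a) (hb : ContDiff ℝ 1 b) (t : ℝ) :
    elasticEnergy Ω lam mu (fun y => a y + t • b y) =
      elasticEnergy Ω lam mu a + 2 * t * Bi Ω lam mu a b + t ^ 2 * elasticEnergy Ω lam mu b := by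
  have hab : ContDiff ℝ 1 fun y => a y + t • b y := ha.add (hb.const_smul t)
  rw [Bi_self, Bi_lin hbdd hl hm hab ha hb, Bi_symm _ a, Bi_symm _ b, Bi_lin hbdd hl hm ha ha hb,
    Bi_lin hbdd hl hm hb ha hb, Bi_symm b a, Bi_self, Bi_self]
  ring

theorem Bi_zero (hopen : IsOpen Ω) (hbdd : Bornology.IsBounded Ω) (hl : ContDiff ℝ ∞ lam)
    (hm : ContDiff ℝ ∞ mu) {u : R3 → R3} (hu : ContDiff ℝ ∞ u)
    (hL : ∀ x ∈ Ω, ∀ i, ∑ j, pderiv (stressR lam mu u i j) j x = 0) {w : R3 → R3}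
    (hw : ContDiff ℝ 1 w) (hw0 : ∀ x ∈ frontier Ω, w x = 0) : Bi Ω lam mu u w = 0 := by
  simp only [Bi, bil_stress]
  exact ibp_tensor Ω hopen hbdd _ (stress_c1 hl hm hu) hL w hw hw0

/-- the pairing with a solution only depends on the boundary values -/
theorem Bi_congr (hopen : IsOpen Ω) (hbdd : Bornology.IsBounded Ω) (hl : ContDiff ℝ ∞ lam)
    (hm : ContDiff ℝ ∞ mu) {u : R3 → R3} (hu : ContDiff ℝ ∞ u)
    (hL : ∀ x ∈ Ω, ∀ i, ∑ j, pderiv (stressR lam mu u i j) j x = 0) {w w' : R3 → R3}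
    (hw : ContDiff ℝ 1 w) (hw' : ContDiff ℝ 1 w') (h : ∀ x ∈ frontier Ω, w x = w' x) :
    Bi Ω lam mu u w = Bi Ω lam mu u w' := by
  have h1 := Bi_zero hopen hbdd hl hm hu hL (hw.add (hw'.const_smul (-1 : ℝ))) fun x hx => by
    rw [h x hx, neg_one_smul, add_neg_cancel]
  rw [Bi_lin hbdd hl hm (hu.of_le (by exact_mod_cast le_top)) hw hw'] at h1
  linarith

end Aless

open Aless in
theorem aless (Ω : Set R3) (hopen : IsOpen Ω) (hbdd : Bornology.IsBounded Ω)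
    (lam₁ mu₁ lam₂ mu₂ : R3 → ℝ) (hl₁ : ContDiff ℝ ∞ lam₁) (hm₁ : ContDiff ℝ ∞ mu₁)
    (hl₂ : ContDiff ℝ ∞ lam₂) (hm₂ : ContDiff ℝ ∞ mu₂)
    (hpos : ∀ x ∈ Ω, 0 < mu₁ x ∧ 0 < 3 * lam₁ x + 2 * mu₁ x)
    (hdata : SameBoundaryData Ω lam₁ mu₁ lam₂ mu₂)
    (u v : R3 → R3) (hu : ContDiff ℝ ∞ u) (hv : ContDiff ℝ ∞ v)
    (hLu : ∀ x ∈ Ω, ∀ i, ∑ j, pderiv (stressR lam₁ mu₁ u i j) j x = 0)
    (hLv : ∀ x ∈ Ω, ∀ i, ∑ j, pderiv (stressR lam₂ mu₂ v i j) j x = 0) :
    ∫ x in Ω, bilR lam₁ mu₁ u v x = ∫ x in Ω, bilR lam₂ mu₂ u v x := by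
  have hu1 : ContDiff ℝ 1 u := hu.of_le (by exact_mod_cast le_top)
  have hv1 : ContDiff ℝ 1 v := hv.of_le (by exact_mod_cast le_top)
  change Bi Ω lam₁ mu₁ u v = Bi Ω lam₂ mu₂ u v
  have key : ∀ t : ℝ, 2 * t * (Bi Ω lam₁ mu₁ u v - Bi Ω lam₂ mu₂ u v) ≤
      t ^ 2 * elasticEnergy Ω lam₂ mu₂ v := fun t => by
    refine le_of_forall_pos_le_add fun ε hε => ?_
    obtain ⟨w₀, ⟨a1, a2⟩, a3⟩ := (hdata u hu1).1 u ⟨hu1, fun _ _ => rfl⟩ (ε / 2) (by positivity)
    have huv : ContDiff ℝ 1 fun y => u y + t • v y := hu1.add (hv1.const_smul t)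
    obtain ⟨w, ⟨b1, b2⟩, b3⟩ := (hdata _ huv).2 (fun y => w₀ y + t • v y)
      ⟨a1.add (hv1.const_smul t), fun x hx => congrArg (· + t • v x) (a2 x hx)⟩ (ε / 2) (by positivity)
    rw [Bi_sq hbdd hl₂ hm₂ a1 hv1, Bi_symm w₀ v, Bi_congr hopen hbdd hl₂ hm₂ hv hLv a1 hu1 a2,
      Bi_symm v u] at b3
    have c1 : ContDiff ℝ 1 fun y => w y + (-1 : ℝ) • u y := b1.add (hu1.const_smul _)
    have c2 := Bi_sq hbdd hl₁ hm₁ hu1 c1 1
    have c3 : (fun y => u y + (1 : ℝ) • (w y + (-1 : ℝ) • u y)) = w := by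
      funext y
      simp
    have c4 := Bi_congr hopen hbdd hl₁ hm₁ hu hLu c1 (hv1.const_smul t) fun x hx => by
      rw [b2 x hx]
      simp
    have c5 := Bi_lin hbdd hl₁ hm₁ hu1 hv1 hv1 (t - 1)
    have c6 : (fun y => v y + (t - 1) • v y) = fun y => t • v y := by
      funext y
      simp [sub_smul]
    have c7 : 0 ≤ elasticEnergy Ω lam₁ mu₁ fun y => w y + (-1 : ℝ) • u y := by
      rw [Bi_self]
      exact setIntegral_nonneg hopen.measurableSet fun x hx =>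
        bil_nonneg _ (hpos x hx).1 (hpos x hx).2
    rw [c3, c4] at c2
    rw [c6] at c5
    rw [c5] at c2
    linarith
  have h := discrim_le_zero (a := elasticEnergy Ω lam₂ mu₂ v)
    (b := -2 * (Bi Ω lam₁ mu₁ u v - Bi Ω lam₂ mu₂ u v)) (c := 0) fun t => by linarith [key t]
  unfold discrim at h
  nlinarith [sq_nonneg (Bi Ω lam₁ mu₁ u v - Bi Ω lam₂ mu₂ u v)]

end Crest.Agent.R80
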