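import Crest.Agent.R80.Basic

/-! Row 80: an invertible fundamental matrix. -/

set_option autoImplicit false
open Filter Topology Matrix

namespace Crest.Agent.R80

namespace DA
variable {O : Type} [CommRing O] [Algebra ℂ O] [TopologicalSpace O] (S : DA O)

theorem FM_map_mul (θ : Fin 3 → ℂ) (X Y : Matrix (Fin 2) (Fin 2) O) :
    (X * Y).map (S.dd θ) = X.map (S.dd θ) * Y + X * Y.map (S.dd θ) := by
  ext a b
  simp only [Matrix.map_apply, Matrix.mul_apply, Matrix.add_apply, map_sum, dd_mul,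
    Finset.sum_add_distrib]

theorem FM_map_one (θ : Fin 3 → ℂ) : (1 : Matrix (Fin 2) (Fin 2) O).map (S.dd θ) = 0 := by
  ext a b
  simp only [Matrix.map_apply, Matrix.one_apply, Matrix.zero_apply]
  split_ifs <;> simp

theorem FM_step (hfo : S.FO) {θ : Fin 3 → ℂ} (hθ : NNull θ) (A : Matrix (Fin 2) (Fin 2) O) :
    ∃ C : ℝ, ∀ t δ : ℝ, 0 ≤ t → t ≤ 1 → 0 ≤ δ → δ ≤ 1 → ∃ E : Matrix (Fin 2) (Fin 2) O,
      E.map (S.dd θ) = A + ((t : ℂ) + δ) • (A * E) - (t : ℂ) • (E * A) ∧
        ∀ a b, S.ρ (E a b) ≤ C := by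
  set s : ℝ := ∑ p : Fin 2 × Fin 2, S.ν (A p.1 p.2) with hs
  have hs1 : ∀ a b, S.ν (A a b) ≤ s := fun a b =>
    Finset.single_le_sum (f := fun p : Fin 2 × Fin 2 => S.ν (A p.1 p.2))
      (fun p _ => apply_nonneg _ _) (Finset.mem_univ (a, b))
  have hs0 : 0 ≤ s := (apply_nonneg _ _).trans (hs1 0 0)
  obtain ⟨C, hC⟩ := hfo (Fin 2 × Fin 2) (3 * s)
  refine ⟨C, fun t δ ht0 ht1 hδ0 hδ1 => ?_⟩
  obtain ⟨ψ, hψ, hρ⟩ := hC θ hθ
    (Matrix.of fun p q => (-((t : ℂ) + δ)) • (if p.2 = q.2 then A p.1 q.1 else 0)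
      + (t : ℂ) • (if p.1 = q.1 then A q.2 p.2 else 0)) (fun p => A p.1 p.2)
    (fun p q => by
      have h1 : S.ν (if p.2 = q.2 then A p.1 q.1 else 0) ≤ s := by
        split_ifs
        · exact hs1 _ _
        · rwa [map_zero]
      have h2 : S.ν (if p.1 = q.1 then A q.2 p.2 else 0) ≤ s := by
        split_ifs
        · exact hs1 _ _
        · rwa [map_zero]
      have h3 : ‖-((t : ℂ) + δ)‖ ≤ 2 := by
        rw [norm_neg, ← Complex.ofReal_add, Complex.norm_real, Real.norm_eq_abs,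
          abs_of_nonneg (by linarith)]
        linarith
      have h4 : ‖(t : ℂ)‖ ≤ 1 := by
        rw [Complex.norm_real, Real.norm_eq_abs, abs_of_nonneg ht0]
        exact ht1
      rw [Matrix.of_apply]
      refine (map_add_le_add _ _ _).trans ?_
      rw [map_smul_eq_mul, map_smul_eq_mul]
      have h5 := mul_le_mul h3 h1 (apply_nonneg _ _) (by norm_num)
      have h6 := mul_le_mul h4 h2 (apply_nonneg _ _) (by norm_num)
      linarith)
    (fun p => by linarith [hs1 p.1 p.2])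
  refine ⟨Matrix.of fun a b => ψ (a, b), ?_, fun a b => hρ (a, b)⟩
  ext a b
  have h := hψ (a, b)
  simp only [Matrix.of_apply, Fintype.sum_prod_type, add_mul, smul_mul_assoc, ite_mul, zero_mul,
    Finset.sum_add_distrib, ← Finset.smul_sum, Finset.sum_ite_eq, Finset.mem_univ, if_true,
    Finset.sum_ite_irrel, Finset.sum_const_zero] at h
  simp only [Matrix.map_apply, Matrix.of_apply, Matrix.sub_apply, Matrix.add_apply,
    Matrix.smul_apply, Matrix.mul_apply]
  rw [← h, neg_smul]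
  simp only [mul_comm (ψ _)]
  abel

theorem fm (hfo : S.FO) {θ : Fin 3 → ℂ} (hθ : NNull θ) (A : Matrix (Fin 2) (Fin 2) O) :
    ∃ Y : Matrix (Fin 2) (Fin 2) O, IsUnit Y.det ∧ Y.map (S.dd θ) = A * Y := by
  obtain ⟨C, hC⟩ := S.FM_step hfo hθ A
  obtain ⟨n, hn⟩ := exists_nat_gt (4 * max C 1)
  have hm1 : 1 ≤ max C 1 := le_max_right _ _
  have hn0 : (0 : ℝ) < n := by linarith
  have hδ1 : (1 : ℝ) / n ≤ 1 := by
    rw [div_le_one hn0]
    linarith
  have hδC : (1 : ℝ) / n * C ≤ 1 / 4 := by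
    have h1 : C ≤ max C 1 := le_max_left _ _
    rw [one_div_mul_eq_div, div_le_iff₀ hn0]
    linarith
  have key : ∀ k : ℕ, k ≤ n → ∃ Y : Matrix (Fin 2) (Fin 2) O, IsUnit Y.det ∧
      Y.map (S.dd θ) = (((k : ℝ) / n : ℝ) : ℂ) • (A * Y) := by
    intro k
    induction k with
    | zero => exact fun _ => ⟨1, by simp, by simp [FM_map_one]⟩
    | succ k ih =>
      intro hk
      obtain ⟨Y, hY, hY'⟩ := ih (Nat.le_of_succ_le hk)
      have hkn : (k : ℝ) / n ≤ 1 := by
        rw [div_le_one hn0]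
        exact_mod_cast Nat.le_of_succ_le hk
      obtain ⟨E', hE', hρ⟩ := hC ((k : ℝ) / n) (1 / n) (by positivity) hkn (by positivity) hδ1
      set E : Matrix (Fin 2) (Fin 2) O := (((1 : ℝ) / n : ℝ) : ℂ) • E' with hE
      have hρE : ∀ a b, S.ρ (E a b) ≤ 1 / 4 := fun a b => by
        rw [hE, Matrix.smul_apply, map_smul_eq_mul, Complex.norm_real, Real.norm_eq_abs,
          abs_of_nonneg (by positivity)]
        exact (mul_le_mul_of_nonneg_left (hρ a b) (by positivity)).trans hδC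
      have hmul : ∀ a b c d, S.ρ (E a b * E c d) ≤ 1 / 16 := fun a b c d => by
        refine (S.ρ_mul _ _).trans ?_
        have h1 := mul_le_mul (hρE a b) (hρE c d) (apply_nonneg _ _) (by norm_num)
        linarith
      have hdet : IsUnit (1 + E).det := by
        have e : (1 + E).det = 1 + (E 0 0 + E 1 1 + E 0 0 * E 1 1 - E 0 1 * E 1 0) := by
          rw [Matrix.det_fin_two]
          simp only [Matrix.add_apply, Matrix.one_apply_eq, Matrix.one_apply_ne (zero_ne_one),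
            Matrix.one_apply_ne (one_ne_zero)]
          ring
        rw [e]
        refine S.unit _ ?_
        have h1 := map_sub_le_add S.ρ (E 0 0 + E 1 1 + E 0 0 * E 1 1) (E 0 1 * E 1 0)
        have h2 := map_add_le_add S.ρ (E 0 0 + E 1 1) (E 0 0 * E 1 1)
        have h3 := map_add_le_add S.ρ (E 0 0) (E 1 1)
        linarith [hρE 0 0, hρE 1 1, hmul 0 0 1 1, hmul 0 1 1 0]
      refine ⟨(1 + E) * Y, by rw [Matrix.det_mul]; exact hdet.mul hY, ?_⟩
      have hEd : (1 + E).map (S.dd θ) = (((1 : ℝ) / n : ℝ) : ℂ) • E'.map (S.dd θ) := by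
        rw [Matrix.map_add _ (map_add _), FM_map_one, zero_add, hE]
        ext a b
        simp only [Matrix.map_apply, Matrix.smul_apply, Derivation.map_smul]
      have hc : ((((k + 1 : ℕ) : ℝ) / n : ℝ) : ℂ)
          = (((k : ℝ) / n : ℝ) : ℂ) + (((1 : ℝ) / n : ℝ) : ℂ) := by
        push_cast
        ring
      rw [FM_map_mul, hEd, hE', hY', hc, hE]
      generalize (((k : ℝ) / n : ℝ) : ℂ) = t
      generalize (((1 : ℝ) / n : ℝ) : ℂ) = δ
      simp only [add_mul, sub_mul, mul_add, one_mul, smul_add, smul_sub, smul_mul_assoc,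
        mul_smul_comm, mul_assoc, smul_smul, add_smul]
      module
  obtain ⟨Y, hY, hY'⟩ := key n le_rfl
  refine ⟨Y, hY, ?_⟩
  rw [hY', div_self hn0.ne']
  simp

end DA

end Crest.Agent.R80
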