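import Crest.Agent.R80.Basic
import Crest.Prelude.Def_VecCalc3

/-! Row 80: orthonormal frames of normalised null vectors. -/

set_option autoImplicit false
open MeasureTheory Filter Topology Crest.AnalysisR.VecCalc3
open scoped ContDiff RealInnerProductSpace

namespace Crest.Agent.R80

theorem NNull.exists_frame {θ : Fin 3 → ℂ} (h : NNull θ) :
    ∃ b : OrthonormalBasis (Fin 3) ℝ R3, ∀ i, θ i = (b 0 i : ℂ) + Complex.I * (b 1 i : ℂ) := by
  obtain ⟨h1, h2⟩ := h
  let u : R3 := WithLp.toLp 2 fun i => (θ i).re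
  let w : R3 := WithLp.toLp 2 fun i => (θ i).im
  have hre := congrArg Complex.re h1
  have him := congrArg Complex.im h1
  simp only [Fin.sum_univ_three, pow_two, Complex.add_re, Complex.mul_re, Complex.add_im,
    Complex.mul_im, Complex.zero_re, Complex.zero_im] at hre him
  simp only [Fin.sum_univ_three, Complex.sq_norm, Complex.normSq_apply] at h2
  have huu : ⟪u, u⟫ = 1 := by
    simp only [u, PiLp.inner_apply, Fin.sum_univ_three]
    simp
    nlinarith
  have hww : ⟪w, w⟫ = 1 := by
    simp only [w, PiLp.inner_apply, Fin.sum_univ_three]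
    simp
    nlinarith
  have huw : ⟪u, w⟫ = 0 := by
    simp only [u, w, PiLp.inner_apply, Fin.sum_univ_three]
    simp
    nlinarith
  have hwu : ⟪w, u⟫ = 0 := by rw [real_inner_comm]; exact huw
  let v : Fin 3 → R3 := ![u, w, 0]
  have hv : Orthonormal ℝ (({0, 1} : Set (Fin 3)).domRestrict v) := by
    rw [orthonormal_iff_ite]
    rintro ⟨i, hi⟩ ⟨j, hj⟩
    rcases hi with rfl | rfl <;> rcases hj with rfl | rfl
    · simpa [v] using huu
    · simpa [v] using huw
    · simpa [v] using hwu
    · simpa [v] using hww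
  obtain ⟨b, hb⟩ := hv.exists_orthonormalBasis_extension_of_card_eq (by simp)
  refine ⟨b, fun i => ?_⟩
  rw [hb 0 (by simp), hb 1 (by simp)]
  apply Complex.ext <;> simp [v, u, w]

theorem NNull.exists_normal {θ : Fin 3 → ℂ} (h : NNull θ) :
    ∃ n : Fin 3 → ℂ, ∑ a, θ a * n a = 0 ∧ ∑ a, (starRingEnd ℂ) (θ a) * n a = 0 ∧
      ∑ a, n a * n a = 1 ∧ ∑ a, (starRingEnd ℂ) (θ a) * θ a = 2 ∧
      ∀ a c, (if a = c then (1 : ℂ) else 0) =
        θ a * (starRingEnd ℂ) (θ c) / 2 + (starRingEnd ℂ) (θ a) * θ c / 2 + n a * n c := by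
  obtain ⟨b, hb⟩ := h.exists_frame
  have hon : ∀ k l : Fin 3, ∑ a, (b k a : ℂ) * (b l a : ℂ) = if k = l then 1 else 0 := by
    intro k l
    have h1 := orthonormal_iff_ite.1 b.orthonormal k l
    have h2 : ∑ a, b k a * b l a = if k = l then 1 else 0 := by
      rw [← h1, PiLp.inner_apply]
      exact Finset.sum_congr rfl fun a _ => by simp [mul_comm]
    have h3 := congrArg (fun t : ℝ => (t : ℂ)) h2
    split_ifs at h3 ⊢ <;> simpa using h3
  have hcomp : ∀ a c : Fin 3, ∑ k, (b k a : ℂ) * (b k c : ℂ) = if a = c then 1 else 0 := by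
    intro a c
    have h1 := b.sum_inner_mul_inner (EuclideanSpace.single a (1 : ℝ))
      (EuclideanSpace.single c (1 : ℝ))
    have h2 : ∑ k, b k a * b k c = if a = c then 1 else 0 := by
      simpa [EuclideanSpace.inner_single_left, EuclideanSpace.inner_single_right,
        PiLp.single_apply, Pi.single_apply, eq_comm (a := c)] using h1
    have h3 := congrArg (fun t : ℝ => (t : ℂ)) h2
    split_ifs at h3 ⊢ <;> simpa using h3
  have hc : ∀ a, (starRingEnd ℂ) (θ a) = (b 0 a : ℂ) - Complex.I * (b 1 a : ℂ) := by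
    intro a
    rw [hb a]
    simp [sub_eq_add_neg]
  have h00 := hon 0 0
  have h11 := hon 1 1
  have h22 := hon 2 2
  have h02 := hon 0 2
  have h12 := hon 1 2
  simp only [Fin.sum_univ_three] at h00 h11 h22 h02 h12
  simp only [if_true, Fin.reduceEq, if_false] at h00 h11 h22 h02 h12
  refine ⟨fun a => (b 2 a : ℂ), ?_, ?_, ?_, ?_, fun a c => ?_⟩
  · simp only [Fin.sum_univ_three, hb]
    linear_combination h02 + Complex.I * h12
  · simp only [Fin.sum_univ_three, hc]
    linear_combination h02 - Complex.I * h12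
  · simp only [Fin.sum_univ_three]
    exact h22
  · simp only [Fin.sum_univ_three, hc]
    simp only [hb]
    linear_combination h00 + h11 - ((b 1 0 : ℂ) ^ 2 + (b 1 1 : ℂ) ^ 2 + (b 1 2 : ℂ) ^ 2) *
      Complex.I_sq
  · rw [← hcomp a c, hc a, hc c, hb a, hb c]
    simp only [Fin.sum_univ_three]
    linear_combination ((b 1 a : ℂ) * (b 1 c : ℂ)) * Complex.I_sq

end Crest.Agent.R80
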