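import Crest.Agent.R80.Basic

/-! Row 80: solvability of the transport systems. -/

set_option autoImplicit false
open Filter Topology Matrix

namespace Crest.Agent.R80

section Bd
variable {O : Type} [CommRing O] [Algebra ℂ O] {T : Type}

/-- A family that is bounded for the seminorm `p`. -/
def SurjBd (p : Seminorm ℂ O) (f : T → O) : Prop := ∃ C : ℝ, ∀ t, p (f t) ≤ C

variable {p : Seminorm ℂ O}

theorem SurjBd.const (x : O) : SurjBd p (fun _ : T => x) := ⟨p x, fun _ => le_rfl⟩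

theorem SurjBd.add {f g : T → O} (hf : SurjBd p f) (hg : SurjBd p g) :
    SurjBd p (fun t => f t + g t) := by
  obtain ⟨C, hC⟩ := hf
  obtain ⟨D, hD⟩ := hg
  exact ⟨C + D, fun t => (map_add_le_add p _ _).trans (add_le_add (hC t) (hD t))⟩

theorem SurjBd.neg {f : T → O} (hf : SurjBd p f) : SurjBd p (fun t => -f t) := by
  obtain ⟨C, hC⟩ := hf
  exact ⟨C, fun t => by rw [map_neg_eq_map]; exact hC t⟩

theorem SurjBd.sub {f g : T → O} (hf : SurjBd p f) (hg : SurjBd p g) :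
    SurjBd p (fun t => f t - g t) := by
  simpa only [sub_eq_add_neg] using hf.add hg.neg

theorem SurjBd.smul {c : T → ℂ} {f : T → O} (K : ℝ) (hc : ∀ t, ‖c t‖ ≤ K) (hf : SurjBd p f) :
    SurjBd p (fun t => c t • f t) := by
  obtain ⟨C, hC⟩ := hf
  refine ⟨K * C, fun t => ?_⟩
  rw [map_smul_eq_mul]
  exact mul_le_mul (hc t) (hC t) (apply_nonneg p _) ((norm_nonneg _).trans (hc t))

theorem SurjBd.sum {ι : Type} (s : Finset ι) {f : ι → T → O} (hf : ∀ i, SurjBd p (f i)) :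
    SurjBd p (fun t => ∑ i ∈ s, f i t) := by
  classical
  induction s using Finset.induction_on with
  | empty => simpa using SurjBd.const (p := p) (T := T) 0
  | insert a s ha ih => simpa only [Finset.sum_insert ha] using (hf a).add ih

theorem SurjBd.ite (q : Prop) [Decidable q] {f g : T → O} (hf : SurjBd p f) (hg : SurjBd p g) :
    SurjBd p (fun t => if q then f t else g t) := by
  by_cases h : q
  · simpa only [h, if_true] using hf
  · simpa only [h, if_false] using hg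

theorem SurjBd.unif {ι : Type} [Fintype ι] {f : ι → T → O} (hf : ∀ i, SurjBd p (f i)) :
    ∃ C : ℝ, ∀ i t, p (f i t) ≤ C := by
  choose C hC using hf
  exact ⟨∑ i, |C i|, fun i t => (hC i t).trans ((le_abs_self _).trans
    (Finset.single_le_sum (f := fun i => |C i|) (fun _ _ => abs_nonneg _) (Finset.mem_univ i)))⟩

end Bd

theorem surj_half_le {θ : Fin 3 → ℂ} (h : NNull θ) (a : Fin 3) : ‖θ a / 2‖ ≤ 1 := by
  have := h.norm_le a
  rw [norm_div]
  simp only [Complex.norm_ofNat]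
  linarith

section Prj
variable {O : Type} [CommRing O] [Algebra ℂ O]

/-- Constant projection onto the constrained vectors. -/
noncomputable def surjPc (θ : Fin 3 → ℂ) : Matrix I4 I4 ℂ := Matrix.of fun i j =>
  match i, j with
  | some a, some b => (if a = b then 1 else 0) - (starRingEnd ℂ (θ a) / 2) * θ b
  | some _, none => 0
  | none, some _ => 0
  | none, none => 1

/-- The projection with entries in `O`. -/
noncomputable def surjPm (O : Type) [CommRing O] [Algebra ℂ O] (θ : Fin 3 → ℂ) :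
    Matrix I4 I4 O := (surjPc θ).map (algebraMap ℂ O)

theorem surjPc_le {θ : Fin 3 → ℂ} (h : NNull θ) (i j : I4) : ‖surjPc θ i j‖ ≤ 3 := by
  rcases i with _ | a <;> rcases j with _ | b
  · simp [surjPc]
  · simp [surjPc]
  · simp [surjPc]
  · simp only [surjPc, Matrix.of_apply]
    refine (norm_sub_le _ _).trans ?_
    have h1 : ‖(if a = b then (1 : ℂ) else 0)‖ ≤ 1 := by split_ifs <;> simp
    have h2 : ‖starRingEnd ℂ (θ a) / 2 * θ b‖ ≤ 2 := by
      rw [norm_mul, norm_div, Complex.norm_conj]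
      have := h.norm_le a
      have := h.norm_le b
      simp only [Complex.norm_ofNat]
      nlinarith [norm_nonneg (θ a), norm_nonneg (θ b)]
    linarith

theorem surjPm_mulVec (θ : Fin 3 → ℂ) (v : I4 → O) (i : I4) :
    (surjPm O θ *ᵥ v) i = ∑ j, surjPc θ i j • v j := by
  simp [surjPm, Matrix.mulVec, dotProduct, Algebra.smul_def]

theorem surjPm_none (θ : Fin 3 → ℂ) (v : I4 → O) : (surjPm O θ *ᵥ v) none = v none := by
  simp [surjPm_mulVec, Fintype.sum_option, surjPc]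

theorem surjPm_some (θ : Fin 3 → ℂ) (v : I4 → O) (a : Fin 3) :
    (surjPm O θ *ᵥ v) (some a) =
      v (some a) - (starRingEnd ℂ (θ a) / 2) • ∑ b, θ b • v (some b) := by
  simp [surjPm_mulVec, Fintype.sum_option, surjPc, sub_smul, Finset.sum_sub_distrib,
    Finset.smul_sum, mul_smul, ite_smul]

theorem surjPm_cons {θ : Fin 3 → ℂ} (h : NNull θ) (v : I4 → O) : ConsV θ (surjPm O θ *ᵥ v) := by
  unfold ConsV
  simp only [surjPm_some, smul_sub, Finset.sum_sub_distrib, smul_smul]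
  rw [← Finset.sum_smul]
  have : ∑ a, θ a * (starRingEnd ℂ (θ a) / 2) = 1 := by
    have h2 : ((∑ a, ‖θ a‖ ^ 2 : ℝ) : ℂ) = 2 := by rw [h.2]; norm_num
    push_cast at h2
    simp only [← mul_div_assoc, Complex.mul_conj', ← Finset.sum_div, h2]
    norm_num
  rw [this, one_smul, sub_self]

theorem surjPm_of_cons {θ : Fin 3 → ℂ} {v : I4 → O} (hv : ConsV θ v) : surjPm O θ *ᵥ v = v := by
  funext i
  rcases i with _ | a
  · exact surjPm_none θ v
  · rw [surjPm_some, show ∑ b, θ b • v (some b) = 0 from hv, smul_zero, sub_zero]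

theorem surj_consV_smul {θ : Fin 3 → ℂ} {c : ℂ} (hc : c ≠ 0) (v : I4 → O) :
    ConsV (c • θ) v ↔ ConsV θ v := by
  unfold ConsV
  simp only [Pi.smul_apply, smul_eq_mul, mul_smul, ← Finset.smul_sum]
  constructor
  · intro h
    have := congrArg (fun x => c⁻¹ • x) h
    simpa [smul_smul, inv_mul_cancel₀ hc] using this
  · intro h
    rw [h, smul_zero]

theorem surj_cons_smul {θ : Fin 3 → ℂ} {c : ℂ} (hc : c ≠ 0) (ψ : Matrix I4 I4 O) :
    Cons (c • θ) ψ ↔ Cons θ ψ :=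
  forall_congr' fun j => surj_consV_smul hc fun i => ψ i j

theorem surj_smul_cancel {c : ℂ} (hc : c ≠ 0) {x y : O} (h : c • x = c • y) : x = y := by
  have := congrArg (fun x => c⁻¹ • x) h
  simpa [smul_smul, inv_mul_cancel₀ hc] using this

omit [Algebra ℂ O] in
theorem surj_mul_col (A ψ : Matrix I4 I4 O) (i j : I4) :
    (A * ψ) i j = (A *ᵥ fun k => ψ k j) i := rfl

end Prj

namespace DA
variable {O : Type} [CommRing O] [Algebra ℂ O] [TopologicalSpace O] (S : DA O)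

theorem surj_A1_bd (p : Seminorm ℂ O) (M : Mod O) {T : Type} {θ : T → Fin 3 → ℂ}
    (h : ∀ t, NNull (θ t)) (i j : I4) : SurjBd p (fun t => S.A1 M (θ t) i j) := by
  rcases i with _ | a <;> rcases j with _ | b <;> simp only [A1, Matrix.of_apply]
  · exact SurjBd.const _
  · exact SurjBd.sum _ fun c => SurjBd.smul 2 (fun t => (h t).norm_le c) (SurjBd.const _)
  · exact (SurjBd.smul 1 (fun t => surj_half_le (h t) a) (SurjBd.const _)).neg
  · exact (SurjBd.ite _ (SurjBd.sum _ fun c =>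
      SurjBd.smul 1 (fun t => surj_half_le (h t) c) (SurjBd.const _)) (SurjBd.const _)).neg.sub
      (SurjBd.smul 1 (fun t => surj_half_le (h t) a) (SurjBd.const _))

theorem surj_A2_bd (p : Seminorm ℂ O) (M : Mod O) {T : Type} {θ : T → Fin 3 → ℂ}
    (h : ∀ t, NNull (θ t)) (i j : I4) : SurjBd p (fun t => S.A2 M (θ t) i j) := by
  rcases i with _ | a <;> rcases j with _ | b <;> simp only [A2, Matrix.of_apply]
  · exact SurjBd.const _
  · exact (SurjBd.smul 1 (fun t => surj_half_le (h t) b) (SurjBd.const _)).neg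
  · exact SurjBd.sum _ fun c => SurjBd.smul 2 (fun t => (h t).norm_le c) (SurjBd.const _)
  · exact SurjBd.smul 1 (fun t => surj_half_le (h t) b) (SurjBd.const _)

theorem surj_A1P_bd (p : Seminorm ℂ O) (M : Mod O) {T : Type} {θ : T → Fin 3 → ℂ}
    (h : ∀ t, NNull (θ t)) (i j : I4) :
    SurjBd p (fun t => (S.A1 M (θ t) * surjPm O (θ t)) i j) := by
  have e : ∀ t, (S.A1 M (θ t) * surjPm O (θ t)) i j =
      ∑ k, surjPc (θ t) k j • S.A1 M (θ t) i k := by
    intro t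
    simp [Matrix.mul_apply, surjPm, Algebra.smul_def, mul_comm]
  simp only [e]
  exact SurjBd.sum _ fun k => SurjBd.smul 3 (fun t => surjPc_le (h t) k j) (S.surj_A1_bd p M h i k)

theorem surj_dd_Pm (θ θ' : Fin 3 → ℂ) (v : I4 → O) (i : I4) :
    S.dd θ ((surjPm O θ' *ᵥ v) i) = (surjPm O θ' *ᵥ fun j => S.dd θ (v j)) i := by
  simp only [surjPm_mulVec, map_sum, Derivation.map_smul]

theorem surj_A1_cons (M : Mod O) {θ : Fin 3 → ℂ} (hθ : Null θ) {v : I4 → O} (hv : ConsV θ v) :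
    ConsV θ (S.A1 M θ *ᵥ v) := by
  have e : ∀ a, (S.A1 M θ *ᵥ v) (some a) = -((∑ c, (θ c / 2) • S.L M c) * v (some a)) -
      (θ a / 2) • (M.k * v none + ∑ b, S.L M b * v (some b)) := by
    intro a
    simp only [A1, Matrix.mulVec, dotProduct, Matrix.of_apply, Fintype.sum_option, sub_mul,
      neg_mul, ite_mul, zero_mul, Finset.sum_sub_distrib, Finset.sum_neg_distrib,
      Finset.sum_ite_eq, Finset.mem_univ, if_true, smul_mul_assoc, smul_add, Finset.smul_sum]
    abel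
  unfold ConsV at hv ⊢
  simp only [e, smul_sub, smul_neg, Finset.sum_sub_distrib, Finset.sum_neg_distrib, smul_smul]
  rw [← Finset.sum_smul]
  have h1 : ∑ a, θ a * (θ a / 2) = 0 := by
    have := hθ.1
    simp only [← mul_div_assoc, ← sq, ← Finset.sum_div, this, zero_div]
  have h2 : ∑ a, θ a • ((∑ c, (θ c / 2) • S.L M c) * v (some a)) = 0 := by
    simp only [← mul_smul_comm, ← Finset.mul_sum, hv, mul_zero]
  rw [h1, h2]
  simp

theorem surj_fo (hfo : S.FO) {θ : Fin 3 → ℂ} (hθ : NNull θ) (ι : Type) [Fintype ι]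
    [DecidableEq ι] (B : Matrix ι ι O) (φ : ι → O) :
    ∃ ψ : ι → O, ∀ i, S.dd θ (ψ i) + ∑ j, B i j * ψ j = φ i := by
  obtain ⟨C₁, h₁⟩ := SurjBd.unif (p := S.ν) (T := Unit) (f := fun ij : ι × ι => fun _ => B ij.1 ij.2)
    fun _ => SurjBd.const _
  obtain ⟨C₂, h₂⟩ := SurjBd.unif (p := S.ν) (T := Unit) (f := fun i : ι => fun _ => φ i)
    fun _ => SurjBd.const _
  obtain ⟨C, hC⟩ := hfo ι (max C₁ C₂)
  obtain ⟨ψ, hψ, -⟩ := hC θ hθ B φ (fun i j => (h₁ (i, j) ()).trans (le_max_left _ _))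
    (fun i => (h₂ i ()).trans (le_max_right _ _))
  exact ⟨ψ, hψ⟩

theorem surjS (hfo : S.FO) {θ : Fin 3 → ℂ} (hθ : Null θ) (b F : O) :
    ∃ u, S.dd θ u + b * u = F := by
  obtain ⟨c, hc, hn⟩ := hθ.exists_nnull
  obtain ⟨ψ, hψ⟩ := S.surj_fo hfo hn Unit (Matrix.of fun _ _ => c • b) (fun _ => c • F)
  refine ⟨ψ (), surj_smul_cancel hc ?_⟩
  have := hψ ()
  simp only [Finset.univ_unique, Matrix.of_apply, Finset.sum_singleton, dd_smul,
    smul_mul_assoc] at this
  rw [smul_add]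
  exact this

theorem surj1 (hfo : S.FO) (M : Mod O) {θ : Fin 3 → ℂ} (hθ : Null θ) (v : I4 → O)
    (hv : ConsV θ v) : ∃ u, ConsV θ u ∧ ∀ i, S.dd θ (u i) - (S.A1 M θ *ᵥ u) i = v i := by
  obtain ⟨c, hc, hn⟩ := hθ.exists_nnull
  set θ' := c • θ with hθ'
  obtain ⟨ψ, hψ⟩ := S.surj_fo hfo hn I4 (-(S.A1 M θ' * surjPm O θ')) (c • v)
  have hu : ConsV θ' (surjPm O θ' *ᵥ ψ) := surjPm_cons hn ψ
  refine ⟨surjPm O θ' *ᵥ ψ, (surj_consV_smul hc _).1 hu, fun i => surj_smul_cancel hc ?_⟩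
  have e1 : (fun j => S.dd θ' (ψ j)) = c • v + S.A1 M θ' *ᵥ (surjPm O θ' *ᵥ ψ) := by
    funext j
    have := hψ j
    rw [Matrix.mulVec_mulVec, Pi.add_apply, ← this]
    simp only [Matrix.mulVec, dotProduct, Matrix.neg_apply, neg_mul, Finset.sum_neg_distrib]
    abel
  have hv' : ConsV θ' (c • v) := by
    have := (surj_consV_smul hc v).2 hv
    unfold ConsV at this ⊢
    simp only [Pi.smul_apply, smul_comm _ c, ← Finset.smul_sum]
    rw [this, smul_zero]
  have e2 := S.surj_dd_Pm θ' θ' ψ i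
  rw [e1, Matrix.mulVec_add, surjPm_of_cons hv', surjPm_of_cons (S.surj_A1_cons M hn.null hu)] at e2
  rw [smul_sub, ← dd_smul, e2, hθ', A1_smul, Matrix.smul_mulVec]
  simp

theorem pop_solve (hfo : S.FO) (M₁ M₂ : Mod O) (M : ℝ) : ∃ C : ℝ, ∀ θ, NNull θ →
    ∀ F : Matrix I4 I4 O, Cons θ F → (∀ i j, S.ν (F i j) ≤ M) →
      ∃ ψ, Cons θ ψ ∧ S.Pop M₁ M₂ θ ψ = F ∧ ∀ i j, S.ρ (ψ i j) ≤ C := by
  let B : (Fin 3 → ℂ) → Matrix (I4 × I4) (I4 × I4) O := fun θ => Matrix.of fun x y =>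
    -(if x.2 = y.2 then (S.A1 M₁ θ * surjPm O θ) x.1 y.1 else 0) -
      (if x.1 = y.1 then S.A2 M₂ θ x.2 y.2 else 0)
  obtain ⟨M₀, hM₀⟩ := SurjBd.unif (p := S.ν) (T := {θ : Fin 3 → ℂ // NNull θ})
    (f := fun xy : (I4 × I4) × (I4 × I4) => fun t => B t.1 xy.1 xy.2) fun xy =>
      (SurjBd.ite _ (S.surj_A1P_bd S.ν M₁ (fun t : {θ : Fin 3 → ℂ // NNull θ} => t.2) _ _)
        (SurjBd.const _)).neg.sub
      (SurjBd.ite _ (S.surj_A2_bd S.ν M₂ (fun t : {θ : Fin 3 → ℂ // NNull θ} => t.2) _ _)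
        (SurjBd.const _))
  obtain ⟨C, hC⟩ := hfo (I4 × I4) (max M₀ M)
  refine ⟨∑ _k : I4, 3 * C, fun θ hθ F hF hν => ?_⟩
  obtain ⟨φ, hφ, hρ⟩ := hC θ hθ (B θ) (fun x => F x.1 x.2)
    (fun x y => (hM₀ (x, y) ⟨θ, hθ⟩).trans (le_max_left _ _))
    (fun x => (hν _ _).trans (le_max_right _ _))
  let ψ : Matrix I4 I4 O := Matrix.of fun i j => φ (i, j)
  have hc : Cons θ (surjPm O θ * ψ) := fun j => surjPm_cons hθ fun k => ψ k j
  have e1 : ψ.map (S.dd θ) = F + S.A1 M₁ θ * (surjPm O θ * ψ) + ψ * (S.A2 M₂ θ)ᵀ := by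
    ext i j
    have := hφ (i, j)
    rw [← Matrix.mul_assoc, Matrix.add_apply, Matrix.add_apply, ← this, Fintype.sum_prod_type]
    simp only [B, ψ, Matrix.of_apply, Matrix.map_apply, sub_mul, neg_mul, ite_mul, zero_mul,
      Finset.sum_sub_distrib, Finset.sum_neg_distrib, Finset.sum_ite_eq, Finset.mem_univ, if_true,
      Finset.sum_ite_irrel, Finset.sum_const_zero]
    rw [Matrix.mul_apply (M := S.A1 M₁ θ * surjPm O θ), Matrix.mul_apply]
    simp only [Matrix.of_apply, Matrix.transpose_apply, mul_comm (S.A2 M₂ θ j _)]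
    abel
  have hP : ∀ X : Matrix I4 I4 O, Cons θ X → surjPm O θ * X = X := by
    intro X hX
    ext i j
    rw [surj_mul_col, surjPm_of_cons (θ := θ) (v := fun k => X k j) (hX j)]
  refine ⟨surjPm O θ * ψ, hc, ?_, fun i j => ?_⟩
  · have e2 : (surjPm O θ * ψ).map (S.dd θ) = surjPm O θ * ψ.map (S.dd θ) := by
      ext i j
      rw [Matrix.map_apply, surj_mul_col, S.surj_dd_Pm]
      rfl
    have hA : Cons θ (S.A1 M₁ θ * (surjPm O θ * ψ)) := fun j =>
      S.surj_A1_cons M₁ hθ.null (hc j)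
    unfold Pop
    rw [e2, e1, Matrix.mul_add, Matrix.mul_add, hP F hF, hP _ hA, Matrix.mul_assoc]
    abel
  · rw [surj_mul_col, surjPm_mulVec]
    refine (Finset.le_sum_of_subadditive S.ρ (map_zero S.ρ).le (map_add_le_add S.ρ) _ _).trans
      (Finset.sum_le_sum fun k _ => ?_)
    rw [map_smul_eq_mul]
    exact mul_le_mul (surjPc_le hθ i k) (hρ (k, j)) (apply_nonneg _ _) (by norm_num)

end DA

end Crest.Agent.R80
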