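import Crest.Agent.R80.AmpP
import Crest.Agent.R80.FM
import Crest.Agent.R80.Surj
import Crest.Agent.R80.Frame

/-! Row 80: three amplitudes forming a basis of the constrained vectors. -/

set_option autoImplicit false
open Filter Topology Matrix

namespace Crest.Agent.R80

namespace DA
variable {O : Type} [CommRing O] [Algebra ℂ O] [TopologicalSpace O] [IsTopologicalRing O]
  [ContinuousSMul ℂ O] (S : DA O)

omit [IsTopologicalRing O] [ContinuousSMul ℂ O] in
theorem amp3_lift (hfo : S.FO) (M : Mod O) {θ : Fin 3 → ℂ} (hθ : Null θ) (s t : O)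
    (hs : S.dd θ s = (-(1 / 2 : ℂ) • (M.g * M.k)) * t)
    (ht : S.dd θ t = (M.h * ∑ a, ∑ c, (θ a * θ c) • S.W M a c) * s
      + (∑ c, (θ c / 2) • S.L M c) * t) :
    ∃ y : I4 → O, y none = s ∧ ∑ a, θ a • y (some a) = t ∧
      ∀ i, S.dd θ (y i) = (S.A2 M θ *ᵥ y) i := by
  have h1 : ∀ a, ∃ u, S.dd θ u = (1 / 2 : ℂ) • (S.L M a * t)
      + (∑ c, θ c • (M.h * S.W M a c)) * s := by
    intro a
    obtain ⟨u, hu⟩ := S.surjS hfo hθ 0 ((1 / 2 : ℂ) • (S.L M a * t)
      + (∑ c, θ c • (M.h * S.W M a c)) * s)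
    exact ⟨u, by simpa using hu⟩
  choose r hr using h1
  obtain ⟨v, hv⟩ := hθ.exists_dual
  set w : O := ∑ a, θ a • r a - t with hw
  have hdw : S.dd θ w = 0 := by
    rw [hw, map_sub, map_sum, ht]
    simp only [Derivation.map_smul, hr]
    simp only [Fin.sum_univ_three, div_eq_mul_inv, Algebra.smul_def, map_mul, one_mul]
    ring
  have hsum : ∑ a, θ a • (r a - v a • w) = t := by
    simp only [smul_sub, Finset.sum_sub_distrib, smul_smul, ← Finset.sum_smul, hv, one_smul, hw]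
    ring
  refine ⟨fun i => match i with | none => s | some a => r a - v a • w, rfl, hsum, ?_⟩
  rintro (_ | a)
  · simp only [A2, Matrix.mulVec, dotProduct, Matrix.of_apply, Fintype.sum_option, hs]
    rw [← hsum]
    simp only [Fin.sum_univ_three, div_eq_mul_inv, Algebra.smul_def, map_mul, one_mul, map_neg]
    ring
  · simp only [A2, Matrix.mulVec, dotProduct, Matrix.of_apply, Fintype.sum_option, map_sub,
      Derivation.map_smul, hdw, smul_zero, sub_zero, hr]
    rw [← hsum]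
    simp only [Fin.sum_univ_three, div_eq_mul_inv, Algebra.smul_def, map_mul, one_mul]
    ring

theorem exists_amps (hfo : S.FO) (hso : S.SO) (M : Mod O) {θ : Fin 3 → ℂ} (hθ : NNull θ) :
    ∃ y : Fin 3 → I4 → O, (∀ a, S.Amp M θ (y a)) ∧
      (∀ v, ConsV θ v → ∃ c : Fin 3 → O, ∀ i, v i = ∑ a, c a * y a i) ∧
      ∀ c : Fin 3 → O, (∀ i, ∑ a, c a * y a i = 0) → c = 0 := by
  obtain ⟨Y, hdet, hY⟩ := S.fm hfo hθ !![0, -(1 / 2 : ℂ) • (M.g * M.k);
    M.h * ∑ a, ∑ c, (θ a * θ c) • S.W M a c, ∑ c, (θ c / 2) • S.L M c]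
  have hl : ∀ b : Fin 2, ∃ y : I4 → O, y none = Y 0 b ∧ ∑ a, θ a • y (some a) = Y 1 b ∧
      ∀ i, S.dd θ (y i) = (S.A2 M θ *ᵥ y) i := by
    intro b
    apply S.amp3_lift hfo M hθ.null
    · have := congrFun (congrFun hY 0) b
      simpa [Matrix.mul_apply, Fin.sum_univ_two] using this
    · have := congrFun (congrFun hY 1) b
      simpa [Matrix.mul_apply, Fin.sum_univ_two] using this
  choose z hz0 hz1 hz using hl
  obtain ⟨n, hn1, hn2, hn3, hn4, hn5⟩ := hθ.exists_normal
  obtain ⟨q, P, hq⟩ := S.ampS hfo hso M hθ n hn1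
  have hp := fun b => S.ampP hfo hso M hθ (z b) (hz b)
  simp only [hz0, hz1] at hp
  obtain ⟨δ, hδ⟩ := hdet.exists_right_inv
  rw [Matrix.det_fin_two] at hδ
  have hgh := M.gh
  have hθ0 := hθ.1
  set ι := algebraMap ℂ O with hι
  have e1 : ∑ a, ι (θ a) * ι (n a) = 0 := by
    simp only [← map_mul, ← map_sum, hn1, map_zero]
  have e2 : ∑ a, ι ((starRingEnd ℂ) (θ a)) * ι (n a) = 0 := by
    simp only [← map_mul, ← map_sum, hn2, map_zero]
  have e3 : ∑ a, ι (n a) * ι (n a) = 1 := by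
    simp only [← map_mul, ← map_sum, hn3, map_one]
  have e4 : ∑ a, ι (2⁻¹) * (ι ((starRingEnd ℂ) (θ a)) * ι (θ a)) = 1 := by
    simp only [← map_mul, ← map_sum, ← Finset.mul_sum, hn4]
    norm_num
  have e5 : ∀ a c, (if a = c then (1 : O) else 0) =
      ι (θ a) * ι ((starRingEnd ℂ) (θ c)) * ι 2⁻¹ + ι ((starRingEnd ℂ) (θ a)) * ι (θ c) * ι 2⁻¹
        + ι (n a) * ι (n c) := by
    intro a c
    have := congrArg ι (hn5 a c)
    simp only [div_eq_mul_inv, map_add, map_mul] at this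
    rw [← this]
    split_ifs <;> simp
  simp only [Fin.sum_univ_three] at e1 e2 e3 e4
  refine ⟨![fun i => match i with
      | some a => θ a • (M.m * Y 0 0)
      | none => M.h * Y 1 0, fun i => match i with
      | some a => θ a • (M.m * Y 0 1)
      | none => M.h * Y 1 1, fun i => match i with
      | some a => n a • M.h + θ a • q
      | none => P], ?_, ?_, ?_⟩
  · intro a
    fin_cases a
    · exact hp 0
    · exact hp 1
    · exact hq
  · intro v hv
    have hv' : ι (θ 0) * v (some 0) + ι (θ 1) * v (some 1) + ι (θ 2) * v (some 2) = 0 := by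
      simpa only [ConsV, Fin.sum_univ_three, Algebra.smul_def] using hv
    set α : O := ι 2⁻¹ * ∑ a, ι ((starRingEnd ℂ) (θ a)) * v (some a) with hα
    set β : O := ∑ a, ι (n a) * v (some a) with hβ
    have hU : ∀ a, v (some a) = ι (θ a) * α + ι (n a) * β := by
      intro a
      have : v (some a) = ∑ c, (if a = c then (1 : O) else 0) * v (some c) := by simp
      rw [this]
      simp only [e5, hα, hβ, Fin.sum_univ_three]
      linear_combination (ι ((starRingEnd ℂ) (θ a)) * ι 2⁻¹) * hv'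
    set u0 : O := M.mu * (α - M.g * β * q) with hu0
    set u1 : O := M.g * (v none - M.g * β * P) with hu1
    refine ⟨![δ * (u0 * Y 1 1 - u1 * Y 0 1), δ * (u1 * Y 0 0 - u0 * Y 1 0), M.g * β], ?_⟩
    rintro (_ | a)
    · simp only [Fin.sum_univ_three, Matrix.cons_val_zero, Matrix.cons_val_one, Matrix.cons_val]
      linear_combination (-(M.h * u1)) * hδ - (v none - M.g * β * P) * hgh - M.h * hu1
    · simp only [Fin.sum_univ_three, Matrix.cons_val_zero, Matrix.cons_val_one, Matrix.cons_val,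
        Algebra.smul_def, ← hι]
      rw [hU a]
      have hmm := M.mu_m
      linear_combination (-(ι (θ a) * M.m * u0)) * hδ - (ι (θ a) * (α - M.g * β * q)) * hmm
        - (ι (θ a) * M.m) * hu0 - (ι (n a) * β) * hgh
  · intro c hc
    have h0 := hc none
    have ha := fun a => hc (some a)
    simp only [Fin.sum_univ_three, Matrix.cons_val_zero, Matrix.cons_val_one, Matrix.cons_val,
      Algebra.smul_def, ← hι] at h0 ha
    have hc2h : c 2 * M.h = 0 := by
      linear_combination ι (n 0) * ha 0 + ι (n 1) * ha 1 + ι (n 2) * ha 2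
        - (c 0 * (M.m * Y 0 0) + c 1 * (M.m * Y 0 1) + c 2 * q) * e1 - c 2 * M.h * e3
    have hc2 : c 2 = 0 := by linear_combination M.g * hc2h - c 2 * hgh
    rw [hc2] at h0 ha
    have hmm := M.mu_m
    have f0 : M.m * (c 0 * Y 0 0 + c 1 * Y 0 1) = 0 := by
      linear_combination ι 2⁻¹ * (ι ((starRingEnd ℂ) (θ 0)) * ha 0
        + ι ((starRingEnd ℂ) (θ 1)) * ha 1 + ι ((starRingEnd ℂ) (θ 2)) * ha 2)
        - (M.m * (c 0 * Y 0 0 + c 1 * Y 0 1)) * e4
    have g0 : c 0 * Y 0 0 + c 1 * Y 0 1 = 0 := by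
      linear_combination M.mu * f0 - (c 0 * Y 0 0 + c 1 * Y 0 1) * hmm
    have g1 : c 0 * Y 1 0 + c 1 * Y 1 1 = 0 := by
      linear_combination M.g * h0 - (c 0 * Y 1 0 + c 1 * Y 1 1) * hgh
    funext a
    fin_cases a
    · show c 0 = 0
      linear_combination δ * Y 1 1 * g0 - δ * Y 0 1 * g1 - c 0 * hδ
    · show c 1 = 0
      linear_combination δ * Y 0 0 * g1 - δ * Y 1 0 * g0 - c 1 * hδ
    · exact hc2

end DA

end Crest.Agent.R80
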