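import Crest.Agent.R80.Basic

/-! Row 80: exact solutions with prescribed leading amplitude. -/

set_option autoImplicit false
open Filter Topology Matrix

namespace Crest.Agent.R80

namespace DA
section aux
variable {O : Type} [CommRing O] [Algebra ℂ O] [TopologicalSpace O] (S : DA O)
  {ι : Type} [Fintype ι]

/-- `opL` as a linear map -/
noncomputable def CGO_op (A : Fin 3 → Matrix ι ι O) (V : Matrix ι ι O) (ζ : Fin 3 → ℂ) :
    (ι → O) →ₗ[ℂ] (ι → O) where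
  toFun := S.opL A V ζ
  map_add' x y := by
    funext i
    simp only [opL, lap, Pi.add_apply, map_add, smul_add, mul_add, Finset.sum_add_distrib]
    ring
  map_smul' c x := by
    funext i
    simp only [opL, lap, Pi.smul_apply, Derivation.map_smul, RingHom.id_apply, smul_add,
      Finset.smul_sum, mul_add, mul_smul_comm, smul_comm c (ζ _)]

theorem CGO_op_apply (A : Fin 3 → Matrix ι ι O) (V : Matrix ι ι O) (ζ : Fin 3 → ℂ) (y : ι → O) :
    S.CGO_op A V ζ y = S.opL A V ζ y := rfl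

theorem CGO_onto (hfo : S.FO) [DecidableEq ι] (A : Fin 3 → Matrix ι ι O) {θ : Fin 3 → ℂ}
    (hθ : NNull θ) (F : ι → O) : ∃ ψ, S.trans A θ ψ = F := by
  set B : Matrix ι ι O := Matrix.of fun i j => ∑ k, (θ k / 2) • A k i j with hB
  set φ : ι → O := fun i => ((1 : ℂ) / 2) • F i with hφ
  obtain ⟨C, hC⟩ := hfo ι (∑ p : ι × ι, S.ν (B p.1 p.2) + ∑ i, S.ν (φ i))
  obtain ⟨ψ, hψ, -⟩ := hC θ hθ B φ (fun i j => by
      have h1 := Finset.single_le_sum (f := fun p : ι × ι => S.ν (B p.1 p.2))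
        (fun p _ => apply_nonneg _ _) (Finset.mem_univ (i, j))
      have h2 : 0 ≤ ∑ i, S.ν (φ i) := Finset.sum_nonneg fun i _ => apply_nonneg _ _
      linarith)
    (fun i => by
      have h1 := Finset.single_le_sum (f := fun i => S.ν (φ i))
        (fun p _ => apply_nonneg _ _) (Finset.mem_univ i)
      have h2 : 0 ≤ ∑ p : ι × ι, S.ν (B p.1 p.2) :=
        Finset.sum_nonneg fun i _ => apply_nonneg _ _
      linarith)
  refine ⟨ψ, funext fun i => ?_⟩
  have h1 := congrArg (fun x => 2 * x) (hψ i)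
  simp only [hφ, two_mul_half_smul, one_smul, mul_add] at h1
  rw [← h1]
  unfold trans
  congr 1
  rw [Finset.sum_comm, Finset.mul_sum]
  refine Finset.sum_congr rfl fun j _ => ?_
  rw [hB, Matrix.of_apply, ← mul_assoc, Finset.mul_sum, Finset.sum_mul]
  refine Finset.sum_congr rfl fun k _ => ?_
  rw [two_mul_half_smul, mul_smul_comm, smul_mul_assoc]

theorem CGO_tele (A : Fin 3 → Matrix ι ι O) (V : Matrix ι ι O) (θ : Fin 3 → ℂ) (y : ℕ → ι → O)
    (h0 : S.trans A θ (y 0) = 0) (hy : ∀ j, S.trans A θ (y (j + 1)) = -S.opL A V 0 (y j))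
    {τ : ℂ} (hτ : τ ≠ 0) (n : ℕ) :
    S.CGO_op A V (τ • θ) (∑ j ∈ Finset.range (n + 1), (τ⁻¹) ^ j • y j)
      = (τ⁻¹) ^ n • S.opL A V 0 (y n) := by
  induction n with
  | zero =>
    simp only [zero_add, Finset.range_one, Finset.sum_singleton, pow_zero, one_smul, CGO_op_apply]
    funext i
    rw [opL_smul, h0]
    simp
  | succ n ih =>
    rw [Finset.sum_range_succ, map_add, ih, map_smul, CGO_op_apply]
    funext i
    simp only [Pi.add_apply, Pi.smul_apply]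
    rw [opL_smul, hy n, smul_add, smul_smul, pow_succ, mul_assoc, inv_mul_cancel₀ hτ, mul_one,
      Pi.neg_apply, smul_neg]
    abel

end aux

variable {O : Type} [CommRing O] [Algebra ℂ O] [TopologicalSpace O] [IsTopologicalRing O]
  [ContinuousSMul ℂ O] (S : DA O)

theorem cgo (hfo : S.FO) (hso : S.SO) {ι : Type} [Fintype ι] [DecidableEq ι]
    (A : Fin 3 → Matrix ι ι O) (V : Matrix ι ι O) {θ : Fin 3 → ℂ} (hθ : NNull θ) (y₀ : ι → O)
    (h0 : S.trans A θ y₀ = 0) :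
    ∃ y₁ : ι → O, S.trans A θ y₁ + S.opL A V 0 y₀ = 0 ∧ ∀ W ∈ 𝓝 y₁, ∀ᶠ τ : ℝ in atTop,
      ∃ z ∈ W, S.opL A V ((τ : ℂ) • θ) (y₀ + (τ : ℂ)⁻¹ • z) = 0 := by
  choose nx hnx using fun x : ι → O => S.CGO_onto hfo A hθ (-S.opL A V 0 x)
  let y : ℕ → ι → O := fun j => nx^[j] y₀
  have hy0 : y 0 = y₀ := rfl
  have hy : ∀ j, S.trans A θ (y (j + 1)) = -S.opL A V 0 (y j) := fun j => by
    simp only [y, Function.iterate_succ_apply']
    exact hnx _
  refine ⟨y 1, by rw [hy 0, hy0, neg_add_cancel], fun W hW => ?_⟩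
  have hc : Tendsto (fun p : (ι → O) × (ι → O) => y 1 + p.1 + p.2) (𝓝 0 ×ˢ 𝓝 0) (𝓝 (y 1)) := by
    have h1 : Continuous fun p : (ι → O) × (ι → O) => y 1 + p.1 + p.2 := by fun_prop
    have h2 := h1.tendsto (0, 0)
    rw [nhds_prod_eq] at h2
    simpa using h2
  obtain ⟨W₁, hW₁, W₂, hW₂, hWW⟩ := Filter.mem_prod_iff.1 (hc hW)
  obtain ⟨N, hN⟩ := hso ι A V θ hθ W₂ hW₂
  have hinv : Tendsto (fun τ : ℝ => (τ : ℂ)⁻¹) atTop (𝓝 0) := by
    have h1 := (Complex.continuous_ofReal.tendsto 0).comp tendsto_inv_atTop_zero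
    simpa [Function.comp_def] using h1
  have hmid : Tendsto (fun τ : ℝ => ∑ j ∈ Finset.range N, ((τ : ℂ)⁻¹) ^ (j + 1) • y (j + 2))
      atTop (𝓝 0) := by
    have h1 : Continuous fun c : ℂ => ∑ j ∈ Finset.range N, c ^ (j + 1) • y (j + 2) := by
      fun_prop
    have h2 := (h1.tendsto 0).comp hinv
    simpa [Function.comp_def] using h2
  filter_upwards [hN (-S.opL A V 0 (y (N + 1))), hmid hW₁, eventually_gt_atTop 0] with τ ha hm hτ
  obtain ⟨a, ha, haW⟩ := ha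
  have hτ' : (τ : ℂ) ≠ 0 := by exact_mod_cast hτ.ne'
  refine ⟨_, hWW (Set.mk_mem_prod hm haW), ?_⟩
  have e : y₀ + (τ : ℂ)⁻¹ • (y 1 + ∑ j ∈ Finset.range N, ((τ : ℂ)⁻¹) ^ (j + 1) • y (j + 2)
      + ((τ : ℂ) ^ N)⁻¹ • a)
      = ∑ j ∈ Finset.range (N + 1 + 1), ((τ : ℂ)⁻¹) ^ j • y j + ((τ : ℂ)⁻¹) ^ (N + 1) • a := by
    rw [Finset.sum_range_succ', Finset.sum_range_succ', smul_add, smul_add, Finset.smul_sum,
      smul_smul, ← inv_pow, ← pow_succ']
    simp only [smul_smul, ← pow_succ', zero_add, pow_one, pow_zero, one_smul, hy0]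
    abel
  change S.CGO_op A V _ (y₀ + (τ : ℂ)⁻¹ • (y 1 + ∑ j ∈ Finset.range N,
    ((τ : ℂ)⁻¹) ^ (j + 1) • y (j + 2) + ((τ : ℂ) ^ N)⁻¹ • a)) = 0
  rw [e, map_add, S.CGO_tele A V θ y h0 hy hτ', map_smul, CGO_op_apply, ha, smul_neg,
    add_neg_cancel]

end DA

end Crest.Agent.R80
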