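import Crest.Agent.R80.Ike
import Crest.Agent.R80.CGO

/-! Row 80: the two kinds of amplitudes. -/

set_option autoImplicit false
open Filter Topology Matrix

namespace Crest.Agent.R80

theorem AmpP_lim {X Y : Type} [TopologicalSpace X] [TopologicalSpace Y] (Φ : ℂ × X → Y)
    (hΦ : Continuous Φ) (y₁ : X) (Q : ℝ → X → Prop) (R : ℝ → Y → Prop)
    (h : ∀ W ∈ 𝓝 y₁, ∀ᶠ τ : ℝ in atTop, ∃ z ∈ W, Q τ z)
    {q : Y} (hq : Φ (0, y₁) = q)
    (hQR : ∀ τ : ℝ, τ ≠ 0 → ∀ z, Q τ z → R τ (Φ ((τ : ℂ)⁻¹, z))) :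
    ∀ W ∈ 𝓝 q, ∀ᶠ τ : ℝ in atTop, ∃ p ∈ W, R τ p := by
  intro W hW
  rw [← hq] at hW
  obtain ⟨U, hU, V, hV, hUV⟩ := mem_nhds_prod_iff.1 (hΦ.continuousAt.preimage_mem_nhds hW)
  have h1 : Tendsto (fun τ : ℝ => (τ : ℂ)⁻¹) atTop (𝓝 0) := by
    have := (Complex.continuous_ofReal.tendsto 0).comp tendsto_inv_atTop_zero
    simpa [Function.comp_def] using this
  filter_upwards [h V hV, h1.eventually hU, eventually_gt_atTop (0 : ℝ)] with τ h2 h3 h4
  obtain ⟨z, hz, hQ⟩ := h2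
  exact ⟨_, hUV (Set.mk_mem_prod h3 hz), hQR τ h4.ne' z hQ⟩

theorem AmpP_half {O : Type} [CommRing O] [Algebra ℂ O] : 2 * algebraMap ℂ O 2⁻¹ = 1 := by
  rw [show (2 : O) = algebraMap ℂ O 2 from (map_ofNat _ 2).symm, ← map_mul]
  norm_num

theorem AmpP_dot {O : Type} [CommRing O] [Algebra ℂ O] {θ n : Fin 3 → ℂ}
    (h : ∑ a, θ a * n a = 0) :
    algebraMap ℂ O (θ 0) * algebraMap ℂ O (n 0) + algebraMap ℂ O (θ 1) * algebraMap ℂ O (n 1)
      + algebraMap ℂ O (θ 2) * algebraMap ℂ O (n 2) = 0 := by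
  rw [← map_mul, ← map_mul, ← map_mul, ← map_add, ← map_add, ← Fin.sum_univ_three
    (fun a => θ a * n a), h, map_zero]

namespace DA
variable {O : Type} [CommRing O] [Algebra ℂ O] [TopologicalSpace O] (S : DA O)

theorem AmpP_A2n (M : Mod O) (θ : Fin 3 → ℂ) (y : I4 → O) :
    (S.A2 M θ *ᵥ y) none = -(algebraMap ℂ O 2⁻¹ * (M.g * M.k) * ∑ a, θ a • y (some a)) := by
  simp only [A2, Matrix.mulVec, dotProduct, Matrix.of_apply, Fintype.sum_option,
    Fin.sum_univ_three, Algebra.smul_def, div_eq_mul_inv, map_mul]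
  ring

theorem AmpP_A2s (M : Mod O) (θ : Fin 3 → ℂ) (y : I4 → O) (a : Fin 3) :
    (S.A2 M θ *ᵥ y) (some a) = algebraMap ℂ O 2⁻¹ * S.L M a * ∑ b, θ b • y (some b)
      + M.h * (∑ c, θ c • S.W M a c) * y none := by
  simp only [A2, Matrix.mulVec, dotProduct, Matrix.of_apply, Fintype.sum_option,
    Fin.sum_univ_three, Algebra.smul_def, div_eq_mul_inv, map_mul]
  ring

theorem AmpP_A1n (M : Mod O) (θ : Fin 3 → ℂ) (y : I4 → O) :
    (S.A1 M θ *ᵥ y) none = ∑ b, (∑ c, θ c • S.W M b c) * y (some b) := by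
  simp only [A1, Matrix.mulVec, dotProduct, Matrix.of_apply, Fintype.sum_option, zero_mul,
    zero_add]

theorem AmpP_A1s (M : Mod O) (θ : Fin 3 → ℂ) (y : I4 → O) (a : Fin 3) :
    (S.A1 M θ *ᵥ y) (some a) = -(algebraMap ℂ O 2⁻¹ * (∑ c, θ c • S.L M c) * y (some a))
      - algebraMap ℂ O 2⁻¹ * algebraMap ℂ O (θ a) * (∑ b, S.L M b * y (some b) + M.k * y none) := by
  simp only [A1, Matrix.mulVec, dotProduct, Matrix.of_apply, Fintype.sum_option, sub_mul, neg_mul,
    ite_mul, zero_mul, Finset.sum_sub_distrib, Finset.sum_neg_distrib, Finset.sum_ite_eq,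
    Finset.mem_univ, if_true]
  simp only [Fin.sum_univ_three, Algebra.smul_def, div_eq_mul_inv, map_mul]
  ring

theorem AmpP_ddm (M : Mod O) (θ : Fin 3 → ℂ) :
    S.dd θ M.m = -(M.m * ∑ c, θ c • S.L M c) := by
  simp only [dd_apply, d_m, Fin.sum_univ_three, Algebra.smul_def]
  ring

theorem AmpP_dh (M : Mod O) (a : Fin 3) :
    S.d a M.h = -(algebraMap ℂ O 2⁻¹ * M.h * S.L M a) := by
  linear_combination algebraMap ℂ O 2⁻¹ * S.two_d_h M a - S.d a M.h * AmpP_half (O := O)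

theorem AmpP_dg (M : Mod O) (a : Fin 3) :
    S.d a M.g = algebraMap ℂ O 2⁻¹ * M.g * S.L M a := by
  linear_combination algebraMap ℂ O 2⁻¹ * S.two_d_g M a - S.d a M.g * AmpP_half (O := O)

theorem AmpP_ddh (M : Mod O) (θ : Fin 3 → ℂ) :
    S.dd θ M.h = -(algebraMap ℂ O 2⁻¹ * M.h * ∑ c, θ c • S.L M c) := by
  simp only [dd_apply, AmpP_dh, Fin.sum_univ_three, Algebra.smul_def]
  ring

theorem AmpP_ddg (M : Mod O) (a b : Fin 3) :
    S.d a (S.d b M.g) = algebraMap ℂ O 2⁻¹ * M.g *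
      (S.d a (S.L M b) + algebraMap ℂ O 2⁻¹ * S.L M a * S.L M b) := by
  rw [S.AmpP_dg M b, d_mul, d_mul, Derivation.map_algebraMap, S.AmpP_dg M a]
  ring

theorem AmpP_sum_ike (M : Mod O) (θ : Fin 3 → ℂ) (y : I4 → O) :
    ∑ a, θ a • S.ike M 0 y a =
      M.h * ∑ a, θ a • y (some a) + M.m * S.dd θ (y none) - y none * S.dd θ M.m := by
  simp only [ike, dd_apply, Fin.sum_univ_three, Pi.zero_apply, Algebra.smul_def, map_zero]
  ring

theorem AmpP_cont_ike [IsTopologicalRing O] (M : Mod O) (a : Fin 3) :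
    Continuous fun y : I4 → O => S.ike M 0 y a := by
  have := S.cont a
  simp only [ike, Pi.zero_apply, zero_smul]
  fun_prop

end DA

namespace DA
variable {O : Type} [CommRing O] [Algebra ℂ O] [TopologicalSpace O] [IsTopologicalRing O]
  [ContinuousSMul ℂ O] (S : DA O)

/-- Pressure type: U = θ m s, P = h θ·r for a solution (r, s) of the second transport system. -/
theorem ampP (hfo : S.FO) (hso : S.SO) (M : Mod O) {θ : Fin 3 → ℂ} (hθ : NNull θ) (y : I4 → O)
    (hy : ∀ i, S.dd θ (y i) = (S.A2 M θ *ᵥ y) i) :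
    S.Amp M θ fun i => match i with
      | some a => θ a • (M.m * y none)
      | none => M.h * ∑ a, θ a • y (some a) := by
  have hθθ : ∑ a, θ a * θ a = 0 := by simpa only [sq] using hθ.1
  have hu := AmpP_half (O := O)
  have h2 := AmpP_dot (O := O) hθθ
  have hgh := M.gh
  have hs := hy none
  rw [AmpP_A2n] at hs
  refine ⟨?_, ?_, ?_⟩
  · simp only [ConsV, Fin.sum_univ_three, Algebra.smul_def]
    linear_combination (M.m * y none) * h2
  · rintro (_ | a)
    · have hr : S.dd θ (∑ a, θ a • y (some a)) = ∑ a, θ a • (S.A2 M θ *ᵥ y) (some a) := by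
        simp only [map_sum, Derivation.map_smul, hy]
      simp only [AmpP_A1n]
      rw [dd_mul, hr, AmpP_ddh]
      simp only [AmpP_A2s, Fin.sum_univ_three, Algebra.smul_def, Mod.m]
      ring
    · simp only [AmpP_A1s]
      rw [Derivation.map_smul, dd_mul, hs, AmpP_ddm]
      generalize ∑ a, θ a • y (some a) = R
      simp only [Fin.sum_univ_three, Algebra.smul_def, Mod.m]
      linear_combination (algebraMap ℂ O (θ a) * (M.h * M.h) * y none *
        (algebraMap ℂ O (θ 0) * S.L M 0 + algebraMap ℂ O (θ 1) * S.L M 1 +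
          algebraMap ℂ O (θ 2) * S.L M 2)) * hu
        - (algebraMap ℂ O (θ a) * algebraMap ℂ O 2⁻¹ * M.k * M.h * R) * hgh
  · have h0 : S.trans (S.ikeA M) θ y = 0 := by
      funext i
      rw [trans_ike, hy, sub_self, mul_zero, Pi.zero_apply]
    obtain ⟨y₁, -, hy₁⟩ := S.cgo hfo hso (S.ikeA M) (S.ikeV M) hθ y h0
    have hc := S.AmpP_cont_ike M
    refine AmpP_lim (fun p : ℂ × (I4 → O) =>
      ((fun a => θ a • (M.m * (y + p.1 • p.2) none) + p.1 • S.ike M 0 (y + p.1 • p.2) a,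
        ∑ a, θ a • S.ike M 0 (y + p.1 • p.2) a) : (Fin 3 → O) × O)) (by fun_prop) y₁ _
      (fun τ p => (τ : ℂ) • ∑ a, θ a • p.1 a = p.2 ∧ S.Lop M ((τ : ℂ) • θ) p.1 = 0) hy₁ ?_ ?_
    · simp only [zero_smul, add_zero, Prod.mk.injEq, true_and, AmpP_sum_ike, div,
        Derivation.map_smul]
      rw [← dd_apply, dd_mul, hs]
      generalize ∑ a, θ a • y (some a) = R
      simp only [Mod.m, Mod.k]
      linear_combination (-(M.h * M.h * M.g * (1 - M.σ') * R)) * hu - (M.h * (1 - M.σ') * R) * hgh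
    · intro τ hτ z hz
      have hτ' : (τ : ℂ) ≠ 0 := by exact_mod_cast hτ
      generalize y + (τ : ℂ)⁻¹ • z = w at hz ⊢
      have hε : algebraMap ℂ O τ * algebraMap ℂ O (τ : ℂ)⁻¹ = 1 := by
        rw [← map_mul, mul_inv_cancel₀ hτ', map_one]
      refine ⟨?_, ?_⟩
      · simp only [Fin.sum_univ_three, Algebra.smul_def]
        linear_combination (algebraMap ℂ O τ * M.m * w none) * h2 +
          (algebraMap ℂ O (θ 0) * S.ike M 0 w 0 + algebraMap ℂ O (θ 1) * S.ike M 0 w 1 +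
            algebraMap ℂ O (θ 2) * S.ike M 0 w 2) * hε
      · have e : (fun a => θ a • (M.m * w none) + (τ : ℂ)⁻¹ • S.ike M 0 w a) =
            (τ : ℂ)⁻¹ • S.ike M ((τ : ℂ) • θ) w := by
          funext a
          simp only [ike, Pi.smul_apply, Pi.zero_apply, smul_eq_mul]
          simp only [Algebra.smul_def, map_mul, map_zero]
          linear_combination (-(algebraMap ℂ O (θ a) * M.m * w none)) * hε
        simp only
        rw [e, Lop_smul, S.ike_solves M (hθ.null.smul hτ').1 w hz, smul_zero]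

/-- Shear type: U = h n + θ q for a constant vector n with θ·n = 0. -/
theorem ampS (hfo : S.FO) (hso : S.SO) (M : Mod O) {θ : Fin 3 → ℂ} (hθ : NNull θ)
    (n : Fin 3 → ℂ) (hn : ∑ a, θ a * n a = 0) :
    ∃ q P : O, S.Amp M θ fun i => match i with
      | some a => n a • M.h + θ a • q
      | none => P := by
  have hθθ : ∑ a, θ a * θ a = 0 := by simpa only [sq] using hθ.1
  have hu := AmpP_half (O := O)
  have h2 := AmpP_dot (O := O) hθθ
  have h3 := AmpP_dot (O := O) hn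
  have hgh := M.gh
  let y₀ : I4 → O := fun i => match i with
    | some a => algebraMap ℂ O (n a)
    | none => 0
  have hR0 : ∑ a, θ a • y₀ (some a) = 0 := by
    simp only [y₀, Fin.sum_univ_three, Algebra.smul_def]
    exact h3
  have h0 : S.trans (S.ikeA M) θ y₀ = 0 := by
    funext i
    rw [trans_ike, Pi.zero_apply]
    rcases i with _ | a
    · rw [AmpP_A2n, hR0]
      simp [y₀]
    · rw [AmpP_A2s, hR0]
      simp [y₀]
  have hd0 : ∀ k j, S.d k (y₀ j) = 0 := by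
    rintro k (_ | a) <;> simp [y₀]
  have hop : ∀ i, S.opL (S.ikeA M) (S.ikeV M) 0 y₀ i = ∑ j, S.ikeV M i j * y₀ j := by
    intro i
    simp [opL, lap, dd_zero, hd0]
  obtain ⟨y, hy, hy₁⟩ := S.cgo hfo hso (S.ikeA M) (S.ikeV M) hθ y₀ h0
  have hs : S.dd θ (y none) = -(algebraMap ℂ O 2⁻¹ * (M.g * M.k) * ∑ a, θ a • y (some a))
      - algebraMap ℂ O 2⁻¹ * algebraMap ℂ O 2⁻¹ * (3 * M.σ' - 1) * M.g * ∑ a, n a • S.L M a := by
    have e := congrFun hy none
    rw [Pi.add_apply, trans_ike, hop, AmpP_A2n, Pi.zero_apply] at e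
    generalize ∑ a, θ a • y (some a) = R at e ⊢
    simp only [ikeV, y₀, Matrix.of_apply, Fintype.sum_option, Fin.sum_univ_three, AmpP_dg,
      Algebra.smul_def] at e ⊢
    linear_combination algebraMap ℂ O 2⁻¹ * e
      - (S.dd θ (y none) + algebraMap ℂ O 2⁻¹ * (M.g * M.k) * R) * hu
  have hr : ∀ a, S.dd θ (y (some a)) = (S.A2 M θ *ᵥ y) (some a)
      + algebraMap ℂ O 2⁻¹ * M.h * S.lap M.g * algebraMap ℂ O (n a)
      + M.h * ∑ b, n b • S.d a (S.d b M.g) := by
    intro a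
    have e := congrFun hy (some a)
    rw [Pi.add_apply, trans_ike, hop, Pi.zero_apply] at e
    simp only [ikeV, y₀, Matrix.of_apply, Fintype.sum_option, sub_mul, neg_mul, ite_mul, zero_mul,
      Finset.sum_sub_distrib, Finset.sum_neg_distrib, Finset.sum_ite_eq, Finset.mem_univ,
      if_true, mul_zero, zero_add] at e
    simp only [Fin.sum_univ_three, Algebra.smul_def] at e ⊢
    linear_combination algebraMap ℂ O 2⁻¹ * e
      - (S.dd θ (y (some a)) - (S.A2 M θ *ᵥ y) (some a) - M.h *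
        (algebraMap ℂ O (n 0) * S.d a (S.d 0 M.g) + algebraMap ℂ O (n 1) * S.d a (S.d 1 M.g) +
          algebraMap ℂ O (n 2) * S.d a (S.d 2 M.g))) * hu
  refine ⟨M.m * y none, M.h * (∑ a, θ a • y (some a) -
    3 * algebraMap ℂ O 2⁻¹ * ∑ a, n a • S.L M a), ?_, ?_, ?_⟩
  · simp only [ConsV, Fin.sum_univ_three, Algebra.smul_def]
    linear_combination (M.m * y none) * h2 + M.h * h3
  · rintro (_ | a)
    · have hR : S.dd θ (∑ a, θ a • y (some a)) = ∑ a, θ a • S.dd θ (y (some a)) := by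
        simp only [map_sum, Derivation.map_smul]
      have hL : S.dd θ (∑ a, n a • S.L M a) = ∑ a, n a • ∑ b, θ b • S.d b (S.L M a) := by
        simp only [map_sum, Derivation.map_smul, dd_apply]
      simp only [AmpP_A1n]
      rw [dd_mul, map_sub, dd_mul, dd_mul, hR, hL, AmpP_ddh, dd_ofNat, Derivation.map_algebraMap]
      simp only [hr, AmpP_A2s, AmpP_ddg]
      have w := S.W_eq M
      have d01 := S.dL_symm M 1 0
      have d02 := S.dL_symm M 2 0
      have d12 := S.dL_symm M 2 1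
      simp only [Fin.sum_univ_three, Algebra.smul_def, Mod.m, w, d01, d02, d12]
      generalize algebraMap ℂ O (θ 0) = t0, algebraMap ℂ O (θ 1) = t1, algebraMap ℂ O (θ 2) = t2,
        algebraMap ℂ O (n 0) = n0, algebraMap ℂ O (n 1) = n1, algebraMap ℂ O (n 2) = n2,
        algebraMap ℂ O 2⁻¹ = u at hu h3 ⊢
      linear_combination ((2 * u + 1) * M.h * (t0 * S.L M 0 + t1 * S.L M 1 + t2 * S.L M 2) *
          (n0 * S.L M 0 + n1 * S.L M 1 + n2 * S.L M 2) - M.h *
          (t0 * (n0 * S.d 0 (S.L M 0) + n1 * S.d 0 (S.L M 1) + n2 * S.d 0 (S.L M 2))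
          + t1 * (n0 * S.d 0 (S.L M 1) + n1 * S.d 1 (S.L M 1) + n2 * S.d 1 (S.L M 2))
          + t2 * (n0 * S.d 0 (S.L M 2) + n1 * S.d 1 (S.L M 2) + n2 * S.d 2 (S.L M 2)))) * hu
        + (u * M.h * M.h * S.lap M.g) * h3
        + (u * M.h *
          (t0 * (n0 * S.d 0 (S.L M 0) + n1 * S.d 0 (S.L M 1) + n2 * S.d 0 (S.L M 2))
          + t1 * (n0 * S.d 0 (S.L M 1) + n1 * S.d 1 (S.L M 1) + n2 * S.d 1 (S.L M 2))
          + t2 * (n0 * S.d 0 (S.L M 2) + n1 * S.d 1 (S.L M 2) + n2 * S.d 2 (S.L M 2)))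
          + u * u * M.h * (t0 * S.L M 0 + t1 * S.L M 1 + t2 * S.L M 2) *
          (n0 * S.L M 0 + n1 * S.L M 1 + n2 * S.L M 2)) * hgh
    · simp only [AmpP_A1s]
      rw [map_add, Derivation.map_smul, Derivation.map_smul, dd_mul, hs, AmpP_ddm, AmpP_ddh]
      generalize ∑ a, θ a • y (some a) = R
      simp only [Fin.sum_univ_three, Algebra.smul_def, Mod.m, Mod.k]
      generalize algebraMap ℂ O (θ a) = ta
      generalize algebraMap ℂ O (θ 0) = t0, algebraMap ℂ O (θ 1) = t1, algebraMap ℂ O (θ 2) = t2,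
        algebraMap ℂ O (n 0) = n0, algebraMap ℂ O (n 1) = n1, algebraMap ℂ O (n 2) = n2,
        algebraMap ℂ O 2⁻¹ = u at hu h3 ⊢
      linear_combination (ta * (M.h * M.h * (t0 * S.L M 0 + t1 * S.L M 1 + t2 * S.L M 2) * y none
          - u * M.h * (n0 * S.L M 0 + n1 * S.L M 1 + n2 * S.L M 2))) * hu
        - (ta * (u * (1 - M.σ') * M.h * R
          + u * u * (3 * M.σ' - 1) * M.h * (n0 * S.L M 0 + n1 * S.L M 1 + n2 * S.L M 2))) * hgh
  · have hc := S.AmpP_cont_ike M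
    refine AmpP_lim (fun p : ℂ × (I4 → O) =>
      ((fun a => n a • M.h + θ a • (M.m * p.2 none) + p.1 • S.ike M 0 p.2 a,
        ∑ a, θ a • S.ike M 0 p.2 a) : (Fin 3 → O) × O)) (by fun_prop) y _
      (fun τ p => (τ : ℂ) • ∑ a, θ a • p.1 a = p.2 ∧ S.Lop M ((τ : ℂ) • θ) p.1 = 0) hy₁ ?_ ?_
    · simp only [zero_smul, add_zero, Prod.mk.injEq, true_and, AmpP_sum_ike, div, map_add,
        Derivation.map_smul, Finset.sum_add_distrib]
      rw [← dd_apply, ← dd_apply, dd_mul, hs, AmpP_ddh]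
      generalize ∑ a, θ a • y (some a) = R
      generalize ∑ a, n a • S.L M a = lam
      simp only [Mod.m, Mod.k]
      generalize algebraMap ℂ O 2⁻¹ = u at hu ⊢
      linear_combination
        (-(M.g * M.h * ((1 - M.σ') * M.h * R + u * (3 * M.σ' - 1) * M.h * lam))) * hu
          - ((1 - M.σ') * M.h * R + u * (3 * M.σ' - 1) * M.h * lam) * hgh
    · intro τ hτ z hz
      have hτ' : (τ : ℂ) ≠ 0 := by exact_mod_cast hτ
      have hε : algebraMap ℂ O τ * algebraMap ℂ O (τ : ℂ)⁻¹ = 1 := by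
        rw [← map_mul, mul_inv_cancel₀ hτ', map_one]
      refine ⟨?_, ?_⟩
      · simp only [Fin.sum_univ_three, Algebra.smul_def]
        linear_combination (algebraMap ℂ O τ * M.m * z none) * h2 + (algebraMap ℂ O τ * M.h) * h3 +
          (algebraMap ℂ O (θ 0) * S.ike M 0 z 0 + algebraMap ℂ O (θ 1) * S.ike M 0 z 1 +
            algebraMap ℂ O (θ 2) * S.ike M 0 z 2) * hε
      · have e : (fun a => n a • M.h + θ a • (M.m * z none) + (τ : ℂ)⁻¹ • S.ike M 0 z a) =
            S.ike M ((τ : ℂ) • θ) (y₀ + (τ : ℂ)⁻¹ • z) := by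
          funext a
          simp only [ike, y₀, Pi.add_apply, Pi.smul_apply, Pi.zero_apply, zero_add,
            Derivation.map_smul, smul_eq_mul]
          simp only [Algebra.smul_def, map_mul, map_zero]
          linear_combination (-(algebraMap ℂ O (θ a) * M.m * z none)) * hε
        simp only
        rw [e, S.ike_solves M (hθ.null.smul hτ').1 _ hz]

end DA

end Crest.Agent.R80
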