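import Crest.Agent.R80.Defs

/-! Row 80: elementary identities in the abstract differential algebra. -/

set_option autoImplicit false
open Filter Topology Matrix

namespace Crest.Agent.R80

theorem NNull.null {θ : Fin 3 → ℂ} (h : NNull θ) : Null θ := by
  refine ⟨h.1, fun h0 => ?_⟩
  have := h.2
  simp [h0] at this

theorem NNull.neg {θ : Fin 3 → ℂ} (h : NNull θ) : NNull (-θ) := by
  refine ⟨by simpa using h.1, by simpa using h.2⟩

theorem NNull.norm_le {θ : Fin 3 → ℂ} (h : NNull θ) (i : Fin 3) : ‖θ i‖ ≤ 2 := by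
  have h1 : ‖θ i‖ ^ 2 ≤ ∑ j, ‖θ j‖ ^ 2 :=
    Finset.single_le_sum (f := fun j => ‖θ j‖ ^ 2) (fun j _ => by positivity) (Finset.mem_univ i)
  rw [h.2] at h1
  nlinarith [norm_nonneg (θ i)]

theorem Null.smul {θ : Fin 3 → ℂ} (h : Null θ) {c : ℂ} (hc : c ≠ 0) : Null (c • θ) := by
  refine ⟨?_, smul_ne_zero hc h.2⟩
  simp only [Pi.smul_apply, smul_eq_mul, mul_pow, ← Finset.mul_sum, h.1, mul_zero]

theorem Null.exists_nnull {θ : Fin 3 → ℂ} (h : Null θ) : ∃ c : ℂ, c ≠ 0 ∧ NNull (c • θ) := by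
  have hpos : 0 < ∑ i, ‖θ i‖ ^ 2 := by
    obtain ⟨i, hi⟩ := Function.ne_iff.1 h.2
    exact Finset.sum_pos' (fun j _ => by positivity)
      ⟨i, Finset.mem_univ i, by have : θ i ≠ 0 := hi; positivity⟩
  set s := ∑ i, ‖θ i‖ ^ 2 with hs
  have hc : 0 < Real.sqrt (2 / s) := Real.sqrt_pos.2 (by positivity)
  refine ⟨(Real.sqrt (2 / s) : ℝ), by exact_mod_cast hc.ne', (h.smul (by exact_mod_cast hc.ne')).1, ?_⟩
  simp only [Pi.smul_apply, smul_eq_mul, norm_mul, mul_pow, ← Finset.mul_sum, Complex.norm_real,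
    Real.norm_eq_abs, sq_abs]
  rw [Real.sq_sqrt (by positivity), ← hs]
  field_simp

theorem Null.exists_dual {θ : Fin 3 → ℂ} (h : Null θ) : ∃ v : Fin 3 → ℂ, ∑ a, θ a * v a = 1 := by
  obtain ⟨i, hi⟩ := Function.ne_iff.1 h.2
  have hi' : θ i ≠ 0 := hi
  refine ⟨Pi.single i (θ i)⁻¹, ?_⟩
  rw [Finset.sum_eq_single i] <;> simp +contextual [Pi.single_apply, hi']

theorem null_θz (z : ℂ) : Null (θz z) := by
  refine ⟨?_, fun h => ?_⟩
  · simp only [θz, Fin.sum_univ_three, Matrix.cons_val_zero, Matrix.cons_val_one, Matrix.cons_val]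
    ring_nf
    simp
  · have h0 := congrFun h 0
    have h2 := congrFun h 2
    simp [θz] at h0 h2
    simp [h2] at h0

section
variable {O : Type} [CommRing O] [Algebra ℂ O]

theorem two_cancel {x y : O} (h : 2 * x = 2 * y) : x = y := by
  have h2 : (algebraMap ℂ O (1 / 2)) * 2 = 1 := by
    rw [show (2 : O) = algebraMap ℂ O 2 from (map_ofNat _ 2).symm, ← map_mul]
    norm_num
  calc x = (algebraMap ℂ O (1 / 2) * 2) * x := by rw [h2, one_mul]
    _ = (algebraMap ℂ O (1 / 2) * 2) * y := by rw [mul_assoc, h, mul_assoc]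
    _ = y := by rw [h2, one_mul]

/-- `(c / 2) • x` doubled. -/
theorem two_mul_half_smul (c : ℂ) (x : O) : 2 * ((c / 2) • x) = c • x := by
  rw [two_mul, ← add_smul]
  congr 1
  ring
end

namespace Mod
variable {O : Type} [CommRing O] (M : Mod O)

theorem mu_m : M.mu * M.m = 1 := by
  have := M.gh
  unfold mu m
  linear_combination (M.g * M.h + 1) * this

theorem k_k' : M.k * M.k' = 1 := M.kk'

theorem lam_two_mu : M.lam + 2 * M.mu = M.σ * M.mu := by
  unfold lam mu
  ring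
end Mod

namespace DA
variable {O : Type} [CommRing O] [Algebra ℂ O] [TopologicalSpace O] (S : DA O)

theorem dd_apply (θ : Fin 3 → ℂ) (f : O) : S.dd θ f = ∑ i, θ i • S.d i f := by
  simp [dd, Fin.sum_univ_three]

theorem dd_d (θ : Fin 3 → ℂ) (i : Fin 3) (f : O) : S.dd θ (S.d i f) = S.d i (S.dd θ f) := by
  simp [dd_apply, Fin.sum_univ_three, S.comm i]

theorem dd_smul (c : ℂ) (θ : Fin 3 → ℂ) (f : O) : S.dd (c • θ) f = c • S.dd θ f := by
  simp [dd_apply, Finset.smul_sum, mul_smul]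

theorem dd_neg (θ : Fin 3 → ℂ) (f : O) : S.dd (-θ) f = -S.dd θ f := by
  simp [dd_apply]

theorem dd_zero (f : O) : S.dd 0 f = 0 := by
  simp [dd_apply]

theorem d_mul (i : Fin 3) (f g : O) : S.d i (f * g) = S.d i f * g + f * S.d i g := by
  rw [Derivation.leibniz, smul_eq_mul, smul_eq_mul]
  ring

theorem dd_mul (θ : Fin 3 → ℂ) (f g : O) : S.dd θ (f * g) = S.dd θ f * g + f * S.dd θ g := by
  rw [Derivation.leibniz, smul_eq_mul, smul_eq_mul]
  ring

theorem d_ofNat (i : Fin 3) (n : ℕ) [n.AtLeastTwo] : S.d i (OfNat.ofNat n : O) = 0 :=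
  (S.d i).map_natCast n

theorem dd_ofNat (θ : Fin 3 → ℂ) (n : ℕ) [n.AtLeastTwo] : S.dd θ (OfNat.ofNat n : O) = 0 :=
  (S.dd θ).map_natCast n

theorem continuous_dd [ContinuousAdd O] [ContinuousSMul ℂ O] (θ : Fin 3 → ℂ) :
    Continuous (S.dd θ) := by
  have : (S.dd θ : O → O) = fun f => ∑ i, θ i • S.d i f := funext (S.dd_apply θ)
  rw [this]
  exact continuous_finsetSum _ fun i _ => (S.cont i).const_smul _

theorem two_d_g (M : Mod O) (a : Fin 3) : 2 * S.d a M.g = M.g * S.L M a := by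
  have := M.gh
  unfold L
  linear_combination (-2 * S.d a M.g) * this

theorem two_d_h (M : Mod O) (a : Fin 3) : 2 * S.d a M.h = -(M.h * S.L M a) := by
  have h0 := M.gh
  have h1 : S.d a (M.g * M.h) = 0 := by rw [h0]; simp
  rw [d_mul] at h1
  unfold L
  linear_combination (2 * M.h) * h1 - (2 * S.d a M.h) * h0

theorem d_mu (M : Mod O) (a : Fin 3) : S.d a M.mu = M.mu * S.L M a := by
  have := S.two_d_g M a
  unfold Mod.mu
  rw [d_mul]
  linear_combination M.g * this

theorem d_m (M : Mod O) (a : Fin 3) : S.d a M.m = -(M.m * S.L M a) := by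
  have := S.two_d_h M a
  unfold Mod.m
  rw [d_mul]
  linear_combination M.h * this

theorem W_eq (M : Mod O) (a b : Fin 3) :
    S.W M a b = -S.d a (S.L M b) + S.L M a * S.L M b := by
  have := M.mu_m
  unfold W
  rw [d_m, map_neg, d_mul, d_m]
  linear_combination (S.L M a * S.L M b - S.d a (S.L M b)) * this

theorem W_symm (M : Mod O) (a b : Fin 3) : S.W M a b = S.W M b a := by
  unfold W
  rw [S.comm]

theorem dL_symm (M : Mod O) (a b : Fin 3) : S.d a (S.L M b) = S.d b (S.L M a) := by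
  have h1 := S.W_eq M a b
  have h2 := S.W_eq M b a
  have h3 := S.W_symm M a b
  linear_combination h1 - h2 - h3

theorem A1_smul (M : Mod O) (c : ℂ) (θ : Fin 3 → ℂ) : S.A1 M (c • θ) = c • S.A1 M θ := by
  ext i j
  rcases i with _ | a <;> rcases j with _ | b
  · simp [A1]
  · simp [A1, Finset.smul_sum, mul_smul]
  · simp [A1, mul_div_assoc, mul_smul]
  · by_cases h : a = b <;>
      simp [A1, h, mul_div_assoc, mul_smul, Finset.smul_sum, smul_sub]

theorem A2_smul (M : Mod O) (c : ℂ) (θ : Fin 3 → ℂ) : S.A2 M (c • θ) = c • S.A2 M θ := by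
  ext i j
  rcases i with _ | a <;> rcases j with _ | b
  · simp [A2]
  · simp [A2, mul_div_assoc, mul_smul]
  · simp [A2, Finset.smul_sum, mul_smul]
  · simp [A2, mul_div_assoc, mul_smul]

theorem Pop_smul (M₁ M₂ : Mod O) (c : ℂ) (θ : Fin 3 → ℂ) (ψ : Matrix I4 I4 O) :
    S.Pop M₁ M₂ (c • θ) ψ = c • S.Pop M₁ M₂ θ ψ := by
  unfold Pop
  rw [A1_smul, A2_smul, Matrix.transpose_smul, Matrix.smul_mul, Matrix.mul_smul, smul_sub, smul_sub]
  congr 2
  ext i j
  simp [dd_smul]

theorem opL_smul {ι : Type} [Fintype ι] (A : Fin 3 → Matrix ι ι O) (V : Matrix ι ι O) (τ : ℂ)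
    (θ : Fin 3 → ℂ) (y : ι → O) (i : ι) :
    S.opL A V (τ • θ) y i = S.opL A V 0 y i + τ • S.trans A θ y i := by
  simp only [opL, trans, dd_smul, dd_zero, Pi.smul_apply, smul_eq_mul, Pi.zero_apply, zero_smul,
    add_zero, mul_zero, mul_add, Finset.sum_add_distrib, smul_add, Finset.smul_sum, mul_smul,
    mul_smul_comm]
  abel

/-- The transport operator of the Ikehata system is 2(∂ - A₂). -/
theorem trans_ike (M : Mod O) (θ : Fin 3 → ℂ) (y : I4 → O) (i : I4) :
    S.trans (S.ikeA M) θ y i = 2 * (S.dd θ (y i) - (S.A2 M θ *ᵥ y) i) := by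
  have e : ∀ (c : ℂ) (x z : O), 2 * ((c / 2) • x * z) = x * (c • z) := by
    intro c x z
    rw [← mul_assoc, two_mul_half_smul, smul_mul_assoc, mul_smul_comm]
  rcases i with _ | a
  · simp only [trans, ikeA, A2, Matrix.mulVec, dotProduct, Matrix.of_apply, Fintype.sum_option,
      Fin.sum_univ_three, mul_sub, mul_add, neg_mul, mul_neg, e]
    simp
    abel
  · simp only [trans, ikeA, A2, Matrix.mulVec, dotProduct, Matrix.of_apply, Fintype.sum_option,
      Fin.sum_univ_three, mul_sub, mul_add, neg_mul, mul_neg, e]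
    simp only [Fin.isValue, ↓reduceIte, neg_mul, Fin.reduceEq, zero_mul, add_zero, zero_add,
      Algebra.smul_def]
    ring

end DA

end Crest.Agent.R80
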