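import Crest.Agent.R80.IBP0
import Crest.Prelude.Def_PlanarDomain

/-! Row 80: boundary determination of μ. -/

set_option autoImplicit false
open MeasureTheory Filter Topology Crest.AnalysisR.VecCalc3
open scoped ContDiff RealInnerProductSpace

namespace Crest.Agent.R80

open Crest.AnalysisR.PDE.Elasticity

/-! ### (a) the singular field -/

theorem bdry_smooth_ext {K U : Set R3} (hK : IsClosed K) (hU : IsOpen U) (hKU : K ⊆ U)
    {f : R3 → R3} (hf : ContDiffOn ℝ ∞ f U) :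
    ∃ g : R3 → R3, ContDiff ℝ ∞ g ∧ ∀ᶠ x in 𝓝ˢ K, g x = f x := by
  obtain ⟨χ, h0, h1, -⟩ := exists_contMDiffMap_zero_one_nhds_of_isClosed (n := ⊤)
    (modelWithCornersSelf ℝ R3)
    hU.isClosed_compl hK (Set.disjoint_left.2 fun x hx hx' => hx (hKU hx'))
  have hχ : ContDiff ℝ ∞ χ := χ.contMDiff.contDiff
  refine ⟨fun x => χ x • f x, contDiff_iff_contDiffAt.2 fun x => ?_,
    h1.mono fun x hx => by simp [hx]⟩
  by_cases hx : x ∈ U
  · exact hχ.contDiffAt.smul (hf.contDiffAt (hU.mem_nhds hx))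
  · have h2 : ∀ᶠ y in 𝓝 x, χ y = 0 := h0.filter_mono (nhds_le_nhdsSet hx)
    exact (contDiffAt_const (c := (0 : R3))).congr_of_eventuallyEq
      (h2.mono fun y hy => by simp [hy])

/-- `f` is differentiable at `x` with partial derivatives `v`. -/
def BdryHP (f : R3 → ℝ) (x : R3) (v : Fin 3 → ℝ) : Prop :=
  DifferentiableAt ℝ f x ∧ ∀ i, pderiv f i x = v i

theorem BdryHP.mul {f g : R3 → ℝ} {x : R3} {v w : Fin 3 → ℝ} (hf : BdryHP f x v)
    (hg : BdryHP g x w) : BdryHP (fun z => f z * g z) x fun i => f x * w i + g x * v i := by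
  refine ⟨hf.1.mul hg.1, fun i => ?_⟩
  simp only
  rw [← hf.2, ← hg.2, pderiv, fderiv_fun_mul hf.1 hg.1]
  simp [pderiv]

theorem BdryHP.sub {f g : R3 → ℝ} {x : R3} {v w : Fin 3 → ℝ} (hf : BdryHP f x v)
    (hg : BdryHP g x w) : BdryHP (fun z => f z - g z) x fun i => v i - w i := by
  refine ⟨hf.1.sub hg.1, fun i => ?_⟩
  simp only
  rw [← hf.2, ← hg.2, pderiv, fderiv_fun_sub hf.1 hg.1]
  simp [pderiv]

theorem BdryHP.const (c : ℝ) (x : R3) : BdryHP (fun _ => c) x fun _ => 0 :=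
  ⟨differentiableAt_const c, fun i => by simp [pderiv]⟩

theorem BdryHP.coord (y x : R3) (j : Fin 3) :
    BdryHP (fun z => z j - y j) x fun i => if i = j then 1 else 0 := by
  have h : HasFDerivAt (fun z : R3 => z j - y j) (EuclideanSpace.proj j : R3 →L[ℝ] ℝ) x :=
    (EuclideanSpace.proj j : R3 →L[ℝ] ℝ).hasFDerivAt.sub_const _
  refine ⟨h.differentiableAt, fun i => ?_⟩
  rw [pderiv, h.fderiv]
  simp [eq_comm]

theorem BdryHP.pow {y x : R3} (hx : x ≠ y) (s : ℝ) :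
    BdryHP (fun z => (‖z - y‖ ^ 2) ^ s) x
      fun i => 2 * s * (‖x - y‖ ^ 2) ^ (s - 1) * (x i - y i) := by
  have h0 : ‖x - y‖ ^ 2 ≠ 0 := pow_ne_zero _ (norm_ne_zero_iff.2 (sub_ne_zero.2 hx))
  have h1 := ((hasFDerivAt_id (𝕜 := ℝ) x).sub_const y).norm_sq
  have h2 := h1.rpow_const (p := s) (Or.inl h0)
  refine ⟨h2.differentiableAt, fun i => ?_⟩
  have h3 := h2.fderiv
  simp only [id] at h3
  rw [pderiv, h3]
  simp [EuclideanSpace.inner_single_right]
  ring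

theorem bdry_pderiv_congr {f g : R3 → ℝ} {x : R3} (h : f =ᶠ[𝓝 x] g) (i : Fin 3) :
    pderiv f i x = pderiv g i x := by
  rw [pderiv, pderiv, h.fderiv_eq]

/-- the gradient of the singular field -/
noncomputable def bdryE (y : R3) (i j : Fin 3) (x : R3) : ℝ :=
  (if i = j then 1 else 0) * (‖x - y‖ ^ 2) ^ (-3 / 2 : ℝ)
    - 3 * ((x i - y i) * ((x j - y j) * (‖x - y‖ ^ 2) ^ (-5 / 2 : ℝ)))

theorem bdry_norm_sq (x y : R3) : ‖x - y‖ ^ 2 = ∑ i, (x i - y i) ^ 2 := by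
  simp [EuclideanSpace.real_norm_sq_eq]

theorem bdry_rpow_succ {y x : R3} (hx : x ≠ y) (s t : ℝ) (h : t = s + 1) :
    (‖x - y‖ ^ 2) ^ t = (‖x - y‖ ^ 2) ^ s * ∑ i, (x i - y i) ^ 2 := by
  have h0 : ‖x - y‖ ^ 2 ≠ 0 := pow_ne_zero _ (norm_ne_zero_iff.2 (sub_ne_zero.2 hx))
  rw [h, Real.rpow_add_one h0, ← bdry_norm_sq]

theorem bdry_pderiv_field {y x : R3} (hx : x ≠ y) (i j : Fin 3) :
    pderiv (fun z => (z j - y j) * (‖z - y‖ ^ 2) ^ (-3 / 2 : ℝ)) i x = bdryE y i j x := by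
  rw [((BdryHP.coord y x j).mul (BdryHP.pow hx (-3 / 2))).2 i, bdryE,
    show (-3 / 2 - 1 : ℝ) = -5 / 2 by norm_num]
  ring

theorem bdryE_symm (y : R3) (i j : Fin 3) (x : R3) : bdryE y i j x = bdryE y j i x := by
  simp only [bdryE, eq_comm (a := i)]
  ring

theorem bdryE_trace {y x : R3} (hx : x ≠ y) : ∑ i, bdryE y i i x = 0 := by
  simp only [bdryE, bdry_rpow_succ hx (-5 / 2) (-3 / 2) (by norm_num), Fin.sum_univ_three,
    if_true]
  ring

theorem bdryE_sq {y x : R3} (hx : x ≠ y) :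
    ∑ i, ∑ j, bdryE y i j x ^ 2 = 6 / ‖x - y‖ ^ 6 := by
  have h0 : 0 < ‖x - y‖ := norm_pos_iff.2 (sub_ne_zero.2 hx)
  have h1 : ((‖x - y‖ ^ 2) ^ (-3 / 2 : ℝ)) ^ 2 = 1 / ‖x - y‖ ^ 6 := by
    rw [← Real.rpow_natCast, ← Real.rpow_mul (by positivity),
      show (-3 / 2 * ((2 : ℕ) : ℝ)) = -((3 : ℕ) : ℝ) by norm_num, Real.rpow_neg (by positivity),
      Real.rpow_natCast]
    field_simp
  have h2 : (6 : ℝ) / ‖x - y‖ ^ 6 = 6 * ((‖x - y‖ ^ 2) ^ (-3 / 2 : ℝ)) ^ 2 := by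
    rw [h1]; ring
  rw [h2]
  simp only [bdryE, bdry_rpow_succ hx (-5 / 2) (-3 / 2) (by norm_num), Fin.sum_univ_three]
  simp
  ring

theorem bdryE_div {y x : R3} (hx : x ≠ y) (i : Fin 3) :
    ∑ j, pderiv (bdryE y i j) j x = 0 := by
  have h : ∀ j, pderiv (bdryE y i j) j x = _ := fun j =>
    (((BdryHP.const (if i = j then 1 else 0) x).mul (BdryHP.pow hx (-3 / 2))).sub
      ((BdryHP.const 3 x).mul ((BdryHP.coord y x i).mul
        ((BdryHP.coord y x j).mul (BdryHP.pow hx (-5 / 2)))))).2 j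
  simp only [h, show (-3 / 2 - 1 : ℝ) = -5 / 2 by norm_num,
    bdry_rpow_succ hx (-5 / 2 - 1) (-5 / 2) (by norm_num), Fin.sum_univ_three]
  fin_cases i <;> simp <;> ring

theorem bdry_field {Ω : Set R3} {y : R3} (hy : y ∉ closure Ω) :
    ∃ u : R3 → R3, ContDiff ℝ ∞ u ∧ ∀ x ∈ Ω, div3 u x = 0 ∧
      (∀ i, ∑ j, pderiv (symGrad u i j) j x = 0) ∧
      ∑ i, ∑ j, symGrad u i j x ^ 2 = 6 / ‖x - y‖ ^ 6 := by
  have hf : ContDiffOn ℝ ∞ (fun z : R3 => (‖z - y‖ ^ 2) ^ (-3 / 2 : ℝ) • (z - y)) {y}ᶜ := by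
    refine ContDiffOn.smul (ContDiffOn.rpow_const_of_ne ?_ ?_) (by fun_prop)
    · exact ((contDiff_id.sub contDiff_const).norm_sq ℝ).contDiffOn
    · intro z hz
      exact pow_ne_zero _ (norm_ne_zero_iff.2 (sub_ne_zero.2 hz))
  obtain ⟨u, hu, he⟩ := bdry_smooth_ext (K := closure Ω) isClosed_closure isOpen_compl_singleton
    (fun x hx (e : x = y) => hy (e ▸ hx)) hf
  refine ⟨u, hu, fun x hx => ?_⟩
  have hxc := subset_closure hx
  have hxy : x ≠ y := fun e => hy (e ▸ hxc)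
  have h1 : ∀ᶠ z in 𝓝 x, ∀ i j, pderiv (fun w => u w j) i z = bdryE y i j z := by
    filter_upwards [(he.filter_mono (nhds_le_nhdsSet hxc)).eventually_nhds,
      isOpen_ne.mem_nhds hxy] with z hz hzy i j
    rw [← bdry_pderiv_field hzy]
    refine bdry_pderiv_congr ?_ i
    filter_upwards [hz] with w hw
    rw [hw]
    simp [mul_comm]
  have h2 : ∀ᶠ z in 𝓝 x, ∀ i j, symGrad u i j z = bdryE y i j z := by
    filter_upwards [h1] with z hz i j
    rw [symGrad, hz, hz, bdryE_symm y j i]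
    ring
  refine ⟨?_, fun i => ?_, ?_⟩
  · rw [div3, ← bdryE_trace hxy]
    exact Finset.sum_congr rfl fun i _ => h1.self_of_nhds i i
  · rw [← bdryE_div hxy i]
    refine Finset.sum_congr rfl fun j _ => bdry_pderiv_congr ?_ j
    filter_upwards [h2] with z hz using hz i j
  · rw [← bdryE_sq hxy]
    simp only [h2.self_of_nhds]

/-! ### (b) the energy inequality -/

theorem bdry_pointwise {l m t : ℝ} (hm : 0 < m) (hl : 0 < 3 * l + 2 * m) (s τ : Fin 3 → Fin 3 → ℝ)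
    (hτ : ∑ i, τ i i = 0) :
    4 * (t * m) * (∑ i, ∑ j, τ i j * s i j) - 2 * (t ^ 2 * m) * (∑ i, ∑ j, τ i j ^ 2)
      ≤ l * (∑ i, s i i) ^ 2 + 2 * m * ∑ i, ∑ j, s i j ^ 2 := by
  have h1 : 0 ≤ 2 * m * ∑ i, ∑ j,
      (s i j - (if i = j then (∑ k, s k k) / 3 else 0) - t * τ i j) ^ 2 := by positivity
  have h2 : 0 ≤ (3 * l + 2 * m) * (∑ i, s i i) ^ 2 := by positivity
  simp only [Fin.sum_univ_three] at h1 h2 hτ ⊢
  have h3 : τ 2 2 = -τ 0 0 - τ 1 1 := by linarith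
  simp at h1
  rw [h3] at h1 ⊢
  nlinarith [h1, h2]

theorem bdry_cont_pderiv {u : R3 → R3} (hu : ContDiff ℝ 1 u) (i j : Fin 3) :
    Continuous (pderiv (fun y => u y j) i) := by
  have h : ContDiff ℝ 1 (fun y => u y j) :=
    (EuclideanSpace.proj j : R3 →L[ℝ] ℝ).contDiff.comp hu
  exact (h.continuous_fderiv one_ne_zero).clm_apply continuous_const

theorem bdry_cont_symGrad {u : R3 → R3} (hu : ContDiff ℝ 1 u) (i j : Fin 3) :
    Continuous (symGrad u i j) :=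
  ((bdry_cont_pderiv hu i j).add (bdry_cont_pderiv hu j i)).div_const 2

theorem bdry_contDiff_symGrad {u : R3 → R3} (hu : ContDiff ℝ ∞ u) (i j : Fin 3) :
    ContDiff ℝ 1 (symGrad u i j) := by
  have h : ∀ i j : Fin 3, ContDiff ℝ 1 (pderiv (fun y => u y j) i) := by
    intro i j
    have h : ContDiff ℝ ∞ (fun y => u y j) :=
      (EuclideanSpace.proj j : R3 →L[ℝ] ℝ).contDiff.comp hu
    exact (h.fderiv_right (m := 1) (by norm_cast)).clm_apply contDiff_const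
  exact ((h i j).add (h j i)).div_const 2

theorem bdry_trace (u : R3 → R3) (x : R3) : div3 u x = ∑ i, symGrad u i i x := by
  simp [div3, symGrad]

theorem bdry_energy {Ω : Set R3} (hopen : IsOpen Ω) (hbdd : Bornology.IsBounded Ω)
    {lam₁ mu₁ lam₂ mu₂ : R3 → ℝ} (hm₁ : Continuous mu₁)
    (hl₂ : Continuous lam₂) (hm₂ : Continuous mu₂)
    (hpos : ∀ x ∈ closure Ω, 0 < mu₂ x ∧ 0 < 3 * lam₂ x + 2 * mu₂ x)
    {u w : R3 → R3} (hu : ContDiff ℝ ∞ u) (hw : IsCompetitor Ω u w)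
    (hdiv : ∀ x ∈ Ω, div3 u x = 0) (hτ : ∀ x ∈ Ω, ∀ i, ∑ j, pderiv (symGrad u i j) j x = 0)
    (hE : elasticEnergy Ω lam₂ mu₂ w < elasticEnergy Ω lam₁ mu₁ u + 1) (m₀ : ℝ) :
    ∫ x in Ω, (2 * m₀ - m₀ ^ 2 / mu₂ x - mu₁ x) * ∑ i, ∑ j, symGrad u i j x ^ 2 < 1 / 2 := by
  have hu1 : ContDiff ℝ 1 u := hu.of_le (by exact_mod_cast le_top)
  have hint : ∀ f : R3 → ℝ, ContinuousOn f (closure Ω) → IntegrableOn f Ω := fun f hf =>
    (hf.integrableOn_compact hbdd.isCompact_closure).mono_set subset_closure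
  have cu := bdry_cont_symGrad hu1
  have cw := bdry_cont_symGrad hw.1
  have cN : Continuous fun x => ∑ i, ∑ j, symGrad u i j x ^ 2 := by fun_prop
  have cM : Continuous fun x => ∑ i, ∑ j, symGrad u i j x * symGrad w i j x := by fun_prop
  have cq : ContinuousOn (fun x => m₀ ^ 2 / mu₂ x) (closure Ω) :=
    continuousOn_const.div hm₂.continuousOn fun x hx => (hpos x hx).1.ne'
  have hibp := ibp_tensor Ω hopen hbdd (symGrad u) (bdry_contDiff_symGrad hu) hτ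
    (fun x => w x - u x) (hw.1.sub hu1) (fun x hx => sub_eq_zero.2 (hw.2 x hx))
  have hibp' : ∫ x in Ω, (∑ i, ∑ j, symGrad u i j x * symGrad w i j x
      - ∑ i, ∑ j, symGrad u i j x ^ 2) = 0 := by
    rw [← hibp]
    refine integral_congr_ae (Eventually.of_forall fun x => ?_)
    have h : ∀ i j, pderiv (fun y => (w y - u y) i) j x
        = pderiv (fun y => w y i) j x - pderiv (fun y => u y i) j x := by
      intro i j
      have dw : DifferentiableAt ℝ (fun y => w y i) x :=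
        (((EuclideanSpace.proj i : R3 →L[ℝ] ℝ).contDiff.comp hw.1).differentiable
          one_ne_zero).differentiableAt
      have du : DifferentiableAt ℝ (fun y => u y i) x :=
        (((EuclideanSpace.proj i : R3 →L[ℝ] ℝ).contDiff.comp hu1).differentiable
          one_ne_zero).differentiableAt
      exact (BdryHP.sub ⟨dw, fun _ => rfl⟩ ⟨du, fun _ => rfl⟩).2 j
    simp only [h, symGrad, Fin.sum_univ_three]
    ring
  have hE₁ : elasticEnergy Ω lam₁ mu₁ u = ∫ x in Ω, 2 * mu₁ x * ∑ i, ∑ j, symGrad u i j x ^ 2 := by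
    refine setIntegral_congr_fun hopen.measurableSet fun x hx => ?_
    simp [energyDensity, hdiv x hx]
  have hE₂ : ∫ x in Ω, (4 * m₀ * (∑ i, ∑ j, symGrad u i j x * symGrad w i j x)
      - 2 * (m₀ ^ 2 / mu₂ x) * ∑ i, ∑ j, symGrad u i j x ^ 2) ≤ elasticEnergy Ω lam₂ mu₂ w := by
    refine setIntegral_mono_on (hint _ ?_) (hint _ ?_) hopen.measurableSet fun x hx => ?_
    · exact (continuous_const.mul cM).continuousOn.sub
        ((continuousOn_const.mul cq).mul cN.continuousOn)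
    · refine Continuous.continuousOn ?_
      unfold energyDensity
      simp only [bdry_trace]
      fun_prop
    · obtain ⟨p₁, p₂⟩ := hpos x (subset_closure hx)
      have h := bdry_pointwise (t := m₀ / mu₂ x) p₁ p₂ (fun i j => symGrad w i j x)
        (fun i j => symGrad u i j x) (by rw [← bdry_trace, hdiv x hx])
      rw [div_mul_cancel₀ _ p₁.ne', show (m₀ / mu₂ x) ^ 2 * mu₂ x = m₀ ^ 2 / mu₂ x by
        field_simp] at h
      rw [energyDensity, bdry_trace]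
      exact h
  have key : ∫ x in Ω, (2 * m₀ - m₀ ^ 2 / mu₂ x - mu₁ x) * ∑ i, ∑ j, symGrad u i j x ^ 2
      = (1 / 2) * (∫ x in Ω, (4 * m₀ * (∑ i, ∑ j, symGrad u i j x * symGrad w i j x)
      - 2 * (m₀ ^ 2 / mu₂ x) * ∑ i, ∑ j, symGrad u i j x ^ 2))
      - (1 / 2) * (∫ x in Ω, 2 * mu₁ x * ∑ i, ∑ j, symGrad u i j x ^ 2)
      - 2 * m₀ * ∫ x in Ω, (∑ i, ∑ j, symGrad u i j x * symGrad w i j x
      - ∑ i, ∑ j, symGrad u i j x ^ 2) := by
    have i₁ : IntegrableOn (fun x => 4 * m₀ * (∑ i, ∑ j, symGrad u i j x * symGrad w i j x)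
        - 2 * (m₀ ^ 2 / mu₂ x) * ∑ i, ∑ j, symGrad u i j x ^ 2) Ω :=
      hint _ ((continuous_const.mul cM).continuousOn.sub
        ((continuousOn_const.mul cq).mul cN.continuousOn))
    have i₂ : IntegrableOn (fun x => 2 * mu₁ x * ∑ i, ∑ j, symGrad u i j x ^ 2) Ω :=
      hint _ ((continuous_const.mul hm₁).mul cN).continuousOn
    have i₃ : IntegrableOn (fun x => ∑ i, ∑ j, symGrad u i j x * symGrad w i j x
        - ∑ i, ∑ j, symGrad u i j x ^ 2) Ω := hint _ (cM.sub cN).continuousOn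
    rw [← integral_const_mul, ← integral_const_mul, ← integral_const_mul,
      ← integral_sub (i₁.const_mul _) (i₂.const_mul _), ← integral_sub _ (i₃.const_mul _)]
    swap
    · exact (i₁.const_mul _).sub (i₂.const_mul _)
    refine integral_congr_ae (Eventually.of_forall fun x => ?_)
    simp only
    ring
  rw [key, hibp', ← hE₁]
  linarith

/-! ### (c) blow-up -/

theorem bdry_geom {Ω : Set R3} (hopen : IsOpen Ω)
    (hbdry : Crest.AnalysisR.PDE.HasSmoothBoundary Ω) {x₀ : R3} (hx : x₀ ∈ frontier Ω) :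
    ∃ (n : R3) (κ s₀ : ℝ), ‖n‖ = 1 ∧ 0 < κ ∧ κ ≤ 1 ∧ 0 < s₀ ∧ ∀ s, 0 < s → s < s₀ →
      x₀ + s • n ∉ closure Ω ∧ Metric.ball (x₀ - s • n) (κ * s) ⊆ Ω := by
  obtain ⟨ρ, hρ, hΩ, hd⟩ := hbdry
  have hcl : closure Ω ⊆ {x | ρ x ≤ 0} :=
    (isClosed_le hρ.continuous continuous_const).closure_subset_iff.2 fun x hx => by
      rw [hΩ] at hx; exact le_of_lt (show ρ x < 0 from hx)
  have h0 : ρ x₀ = 0 := by
    rw [hopen.frontier_eq] at hx
    refine le_antisymm (hcl hx.1) (not_lt.1 fun h => hx.2 ?_)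
    rw [hΩ]; exact h
  set L := fderiv ℝ ρ x₀ with hL
  obtain ⟨n, hn1, hn⟩ : ∃ n : R3, ‖n‖ = 1 ∧ 0 < L n := by
    obtain ⟨v, hv⟩ : ∃ v, L v ≠ 0 := by
      by_contra h
      push Not at h
      exact hd x₀ h0 (ContinuousLinearMap.ext h)
    have hv0 : v ≠ 0 := fun e => hv (by rw [e, map_zero])
    have hvn : 0 < ‖v‖ := norm_pos_iff.2 hv0
    rcases lt_or_gt_of_ne hv with h | h
    · refine ⟨-(‖v‖⁻¹ • v), by simp [norm_smul, hvn.ne'], ?_⟩
      rw [map_neg, map_smul, smul_eq_mul]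
      exact neg_pos.2 (mul_neg_of_pos_of_neg (inv_pos.2 hvn) h)
    · refine ⟨‖v‖⁻¹ • v, by simp [norm_smul, hvn.ne'], ?_⟩
      rw [map_smul, smul_eq_mul]
      exact mul_pos (inv_pos.2 hvn) h
  have hF : HasFDerivAt ρ L x₀ := (hρ.differentiable (by simp)).differentiableAt.hasFDerivAt
  have ho := hF.isLittleO.def (c := L n / 4) (by positivity)
  obtain ⟨ε, hε, hball⟩ := Metric.eventually_nhds_iff.1 ho
  have hLn : 0 ≤ ‖L‖ := norm_nonneg _
  refine ⟨n, min 1 (L n / (4 * (‖L‖ + 1))), ε / 2, hn1, lt_min one_pos (by positivity),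
    min_le_left _ _, by positivity, fun s hs hs' => ⟨fun h => ?_, fun x hx => ?_⟩⟩
  · have h1 : ‖x₀ + s • n - x₀‖ = s := by simp [norm_smul, hn1, hs.le]
    have h2 := hball (y := x₀ + s • n) (by rw [dist_eq_norm, h1]; linarith)
    rw [h1, h0, add_sub_cancel_left, map_smul, smul_eq_mul, Real.norm_eq_abs] at h2
    have h3 : ρ (x₀ + s • n) ≤ 0 := hcl h
    have h4 := (abs_le.1 h2).1
    nlinarith [mul_pos hs hn]
  · rw [Metric.mem_ball, dist_eq_norm] at hx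
    set v := x - (x₀ - s • n) with hv
    have e : x - x₀ = v - s • n := by rw [hv]; abel
    have hv1 : ‖v‖ ≤ s := hx.le.trans (by
      have := min_le_left 1 (L n / (4 * (‖L‖ + 1)))
      nlinarith)
    have hv2 : ‖v‖ ≤ L n / (4 * (‖L‖ + 1)) * s :=
      hx.le.trans (mul_le_mul_of_nonneg_right (min_le_right _ _) hs.le)
    have h1 : ‖x - x₀‖ ≤ 2 * s := by
      rw [e]
      refine (norm_sub_le _ _).trans ?_
      simp only [norm_smul, hn1, Real.norm_eq_abs, abs_of_pos hs]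
      linarith
    have h2 := hball (y := x) (by rw [dist_eq_norm]; linarith)
    rw [h0, Real.norm_eq_abs] at h2
    have h3 := (abs_le.1 h2).2
    have h4 : L (x - x₀) = L v - s * L n := by rw [e, map_sub, map_smul, smul_eq_mul]
    have h5 : L v ≤ L n / 4 * s := by
      have h6 : L v ≤ ‖L‖ * ‖v‖ := (le_abs_self _).trans (L.le_opNorm v)
      have h7 : ‖L‖ * ‖v‖ ≤ (‖L‖ + 1) * (L n / (4 * (‖L‖ + 1)) * s) :=
        mul_le_mul (by linarith) hv2 (norm_nonneg _) (by positivity)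
      have h8 : (‖L‖ + 1) * (L n / (4 * (‖L‖ + 1)) * s) = L n / 4 * s := by field_simp
      linarith
    rw [hΩ]
    change ρ x < 0
    nlinarith [mul_pos hs hn, mul_le_mul_of_nonneg_left h1 (by positivity : 0 ≤ L n / 4)]

theorem bdry_blowup {Ω : Set R3} (hopen : IsOpen Ω) (hbdd : Bornology.IsBounded Ω)
    (hbdry : Crest.AnalysisR.PDE.HasSmoothBoundary Ω) {x₀ : R3} (hx : x₀ ∈ frontier Ω)
    {q : R3 → ℝ} (hq : ContinuousOn q (closure Ω)) (hq0 : 0 < q x₀) :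
    ∃ y ∉ closure Ω, 1 ≤ ∫ x in Ω, q x * (6 / ‖x - y‖ ^ 6) := by
  obtain ⟨n, κ, s₀, hn, hκ, hκ1, hs₀, hgeo⟩ := bdry_geom hopen hbdry hx
  have hxc : x₀ ∈ closure Ω := frontier_subset_closure hx
  obtain ⟨C, hC⟩ := hbdd.isCompact_closure.exists_bound_of_continuousOn hq
  have hC0 : 0 ≤ C := (norm_nonneg _).trans (hC _ hxc)
  obtain ⟨δ, hδ, hδq⟩ : ∃ δ > 0, ∀ x ∈ closure Ω, dist x x₀ < δ → q x₀ / 2 ≤ q x := by
    obtain ⟨δ, hδ, h⟩ := Metric.continuousWithinAt_iff.1 (hq x₀ hxc) (q x₀ / 2) (by positivity)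
    refine ⟨δ, hδ, fun x hx hd => ?_⟩
    have := (abs_lt.1 (by simpa [Real.dist_eq] using h hx hd : |q x - q x₀| < q x₀ / 2)).1
    linarith
  have hfin : volume Ω ≠ ⊤ := hbdd.measure_lt_top.ne
  set v₁ : ℝ := volume.real (Metric.ball (0 : R3) 1) with hv₁
  have hv₁pos : 0 < v₁ :=
    ENNReal.toReal_pos (Metric.measure_ball_pos volume _ one_pos).ne' measure_ball_lt_top.ne
  set B : ℝ := C * (6 / (δ / 2) ^ 6) with hB
  have hB0 : 0 ≤ B := by positivity
  set A : ℝ := q x₀ / 2 * (6 / 3 ^ 6) * κ ^ 3 * v₁ with hA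
  have hA0 : 0 < A := by positivity
  set T : ℝ := 1 + B * volume.real Ω with hT
  have hT0 : 0 < T := by positivity
  obtain ⟨s, hs, hs1, hs2, hs3, hs4⟩ : ∃ s : ℝ, 0 < s ∧ s < s₀ ∧ s < δ / 2 ∧ s ≤ 1 ∧ s ≤ A / T := by
    refine ⟨min (min (s₀ / 2) (δ / 4)) (min 1 (A / T)), by positivity, ?_, ?_, ?_, ?_⟩
    · exact ((min_le_left _ _).trans (min_le_left _ _)).trans_lt (by linarith)
    · exact ((min_le_left _ _).trans (min_le_right _ _)).trans_lt (by linarith)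
    · exact (min_le_right _ _).trans (min_le_left _ _)
    · exact (min_le_right _ _).trans (min_le_right _ _)
  obtain ⟨hy, hball⟩ := hgeo s hs hs1
  refine ⟨x₀ + s • n, hy, ?_⟩
  set y := x₀ + s • n with hydef
  have hsn : ‖s • n‖ = s := by simp [norm_smul, hn, hs.le]
  have hcont : ContinuousOn (fun x => q x * (6 / ‖x - y‖ ^ 6)) (closure Ω) := by
    refine hq.mul (continuousOn_const.div (by fun_prop) fun x hx => ?_)
    exact pow_ne_zero _ (norm_ne_zero_iff.2 (sub_ne_zero.2 fun e => hy (e ▸ hx)))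
  have i₁ : IntegrableOn (fun _ : R3 => q x₀ / 2 * (6 / (3 * s) ^ 6)) Ω := integrableOn_const hfin
  have i₂ : IntegrableOn (fun _ : R3 => B) Ω := integrableOn_const hfin
  have hle : ∫ x in Ω, ((Metric.ball (x₀ - s • n) (κ * s)).indicator
      (fun _ => q x₀ / 2 * (6 / (3 * s) ^ 6)) x - B) ≤ ∫ x in Ω, q x * (6 / ‖x - y‖ ^ 6) := by
    refine setIntegral_mono_on ((i₁.indicator measurableSet_ball).sub i₂)
      ((hcont.integrableOn_compact hbdd.isCompact_closure).mono_set subset_closure)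
      hopen.measurableSet fun x hxΩ => ?_
    have hxc' := subset_closure hxΩ
    have hr : 0 < ‖x - y‖ := norm_pos_iff.2 (sub_ne_zero.2 fun e => hy (e ▸ hxc'))
    by_cases hb : x ∈ Metric.ball (x₀ - s • n) (κ * s)
    · rw [Set.indicator_of_mem hb]
      rw [Metric.mem_ball, dist_eq_norm] at hb
      have hv : ‖x - (x₀ - s • n)‖ < s := hb.trans_le (by nlinarith)
      have h1 : ‖x - x₀‖ < 2 * s := by
        have e : x - x₀ = (x - (x₀ - s • n)) - s • n := by abel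
        rw [e]
        refine (norm_sub_le _ _).trans_lt ?_
        rw [hsn]; linarith
      have h2 : ‖x - y‖ ≤ 3 * s := by
        have e : x - y = (x - x₀) - s • n := by rw [hydef]; abel
        rw [e]
        refine (norm_sub_le _ _).trans ?_
        rw [hsn]; linarith
      have h3 := hδq x hxc' (by rw [dist_eq_norm]; linarith)
      have h4 : (6 : ℝ) / (3 * s) ^ 6 ≤ 6 / ‖x - y‖ ^ 6 := by gcongr
      have h5 : q x₀ / 2 * (6 / (3 * s) ^ 6) ≤ q x * (6 / ‖x - y‖ ^ 6) :=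
        mul_le_mul h3 h4 (by positivity) (by linarith)
      linarith
    · rw [Set.indicator_of_notMem hb, zero_sub]
      by_cases hd : dist x x₀ < δ
      · have h3 := hδq x hxc' hd
        have : 0 ≤ q x * (6 / ‖x - y‖ ^ 6) := mul_nonneg (by linarith) (by positivity)
        linarith
      · have h2 : δ / 2 ≤ ‖x - y‖ := by
          have e : x - x₀ = (x - y) + s • n := by rw [hydef]; abel
          have h := norm_add_le (x - y) (s • n)
          rw [← e, hsn, ← dist_eq_norm] at h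
          linarith
        have h4 : (6 : ℝ) / ‖x - y‖ ^ 6 ≤ 6 / (δ / 2) ^ 6 := by gcongr
        have h5 : -C ≤ q x := (abs_le.1 (hC x hxc')).1
        have h6 : -C * (6 / ‖x - y‖ ^ 6) ≤ q x * (6 / ‖x - y‖ ^ 6) :=
          mul_le_mul_of_nonneg_right h5 (by positivity)
        have h7 : C * (6 / ‖x - y‖ ^ 6) ≤ B := mul_le_mul_of_nonneg_left h4 hC0
        linarith
  refine le_trans ?_ hle
  have hvol : volume.real (Metric.ball (x₀ - s • n) (κ * s)) = (κ * s) ^ 3 * v₁ := by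
    rw [Measure.real, Measure.addHaar_ball_of_pos _ _ (by positivity : 0 < κ * s),
      ENNReal.toReal_mul, ENNReal.toReal_ofReal (by positivity)]
    simp [hv₁, Measure.real]
  rw [integral_sub (i₁.indicator measurableSet_ball) i₂, setIntegral_indicator measurableSet_ball,
    Set.inter_eq_right.2 hball, setIntegral_const, setIntegral_const,
    hvol]
  simp only [smul_eq_mul]
  have e : (κ * s) ^ 3 * v₁ * (q x₀ / 2 * (6 / (3 * s) ^ 6)) = A / s ^ 3 := by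
    rw [hA]; field_simp
  rw [e]
  have h1 : s ^ 3 ≤ s := pow_le_of_le_one hs.le hs3 (by norm_num)
  have h2 : T ≤ A / s ^ 3 := by
    rw [le_div_iff₀ (by positivity)]
    have := (le_div_iff₀ hT0).1 hs4
    nlinarith
  linarith

theorem bdry_not_lt {Ω : Set R3} (hopen : IsOpen Ω) (hbdd : Bornology.IsBounded Ω)
    (hbdry : Crest.AnalysisR.PDE.HasSmoothBoundary Ω)
    {lam₁ mu₁ lam₂ mu₂ : R3 → ℝ} (hm₁ : Continuous mu₁)
    (hl₂ : Continuous lam₂) (hm₂ : Continuous mu₂)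
    (hpos : ∀ x ∈ closure Ω, 0 < mu₂ x ∧ 0 < 3 * lam₂ x + 2 * mu₂ x)
    (hdata : ∀ u : R3 → R3, ContDiff ℝ 1 u → ∃ w, IsCompetitor Ω u w ∧
      elasticEnergy Ω lam₂ mu₂ w < elasticEnergy Ω lam₁ mu₁ u + 1)
    {x₀ : R3} (hx : x₀ ∈ frontier Ω) : ¬ mu₁ x₀ < mu₂ x₀ := by
  intro hlt
  have hxc : x₀ ∈ closure Ω := frontier_subset_closure hx
  have cq : ContinuousOn (fun x => 2 * mu₂ x₀ - mu₂ x₀ ^ 2 / mu₂ x - mu₁ x) (closure Ω) :=
    (continuousOn_const.sub (continuousOn_const.div hm₂.continuousOn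
      fun x hx => (hpos x hx).1.ne')).sub hm₁.continuousOn
  obtain ⟨y, hy, hI⟩ := bdry_blowup hopen hbdd hbdry hx cq (by
    have h := (hpos x₀ hxc).1
    have e : mu₂ x₀ ^ 2 / mu₂ x₀ = mu₂ x₀ := by field_simp
    simp only [e]
    linarith)
  obtain ⟨u, hu, hΩ⟩ := bdry_field hy
  obtain ⟨w, hw, hE⟩ := hdata u (hu.of_le (by exact_mod_cast le_top))
  have h := bdry_energy hopen hbdd hm₁ hl₂ hm₂ hpos hu hw (fun x hx => (hΩ x hx).1)
    (fun x hx => (hΩ x hx).2.1) hE (mu₂ x₀)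
  rw [setIntegral_congr_fun (g := fun x => (2 * mu₂ x₀ - mu₂ x₀ ^ 2 / mu₂ x - mu₁ x) *
    (6 / ‖x - y‖ ^ 6)) hopen.measurableSet (fun x hx => by simp only [(hΩ x hx).2.2])] at h
  linarith

theorem bdry_mu (Ω : Set R3) (hopen : IsOpen Ω) (hbdd : Bornology.IsBounded Ω)
    (hbdry : Crest.AnalysisR.PDE.HasSmoothBoundary Ω)
    (lam₁ mu₁ lam₂ mu₂ : R3 → ℝ) (hl₁ : Continuous lam₁) (hm₁ : Continuous mu₁)
    (hl₂ : Continuous lam₂) (hm₂ : Continuous mu₂)
    (hpos : ∀ x ∈ closure Ω, 0 < mu₁ x ∧ 0 < 3 * lam₁ x + 2 * mu₁ x ∧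
      0 < mu₂ x ∧ 0 < 3 * lam₂ x + 2 * mu₂ x)
    (hdata : SameBoundaryData Ω lam₁ mu₁ lam₂ mu₂) :
    ∀ x ∈ frontier Ω, mu₁ x = mu₂ x := by
  intro x hx
  refine le_antisymm (not_lt.1 ?_) (not_lt.1 ?_)
  · exact bdry_not_lt hopen hbdd hbdry hm₂ hl₁ hm₁
      (fun x hx => ⟨(hpos x hx).1, (hpos x hx).2.1⟩)
      (fun u hu => (hdata u hu).2 u ⟨hu, fun _ _ => rfl⟩ 1 one_pos) hx
  · exact bdry_not_lt hopen hbdd hbdry hm₁ hl₂ hm₂ (fun x hx => (hpos x hx).2.2)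
      (fun u hu => (hdata u hu).1 u ⟨hu, fun _ _ => rfl⟩ 1 one_pos) hx

end Crest.Agent.R80
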