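import Crest.Prelude.Def_Elasticity

/-! Row 80: integration by parts against functions vanishing on the frontier. -/

set_option autoImplicit false
open MeasureTheory Filter Topology Crest.AnalysisR.VecCalc3
open scoped ContDiff RealInnerProductSpace

namespace Crest.Agent.R80

open Crest.AnalysisR.PDE.Elasticity

/-- The stress tensor λ (div u) δ_ij + 2 μ e_ij(u). -/
noncomputable def stressR (lam mu : R3 → ℝ) (u : R3 → R3) (i j : Fin 3) (x : R3) : ℝ :=
  (if i = j then lam x * div3 u x else 0) + 2 * mu x * symGrad u i j x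

/-- The polarised energy density. -/
noncomputable def bilR (lam mu : R3 → ℝ) (u v : R3 → R3) (x : R3) : ℝ :=
  lam x * div3 u x * div3 v x + 2 * mu x * ∑ i, ∑ j, symGrad u i j x * symGrad v i j x

/-- On the zero set of a differentiable function the derivative vanishes almost everywhere. -/
theorem ibp0_null (X : R3 → ℝ) (hX : Differentiable ℝ X) :
    ∀ᵐ x : R3, X x = 0 → fderiv ℝ X x = 0 := by
  set e : R3 := EuclideanSpace.single 0 1 with he
  have he0 : e ≠ 0 := by
    intro h
    have := congrArg (fun y : R3 => y 0) h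
    simp [he] at this
  have hs : MeasurableSet {x : R3 | X x = 0} :=
    (isClosed_eq hX.continuous continuous_const).measurableSet
  have happ : ApproximatesLinearOn (fun x : R3 => X x • e) (0 : R3 →L[ℝ] R3)
      {x : R3 | X x = 0} 0 := by
    intro x hx y hy
    have hx' : X x = 0 := hx
    have hy' : X y = 0 := hy
    simp [hx', hy']
  have h := happ.norm_fderiv_sub_le (volume : Measure R3) hs
    (fun x => (fderiv ℝ X x).smulRight e)
    (fun x _ => ((hX x).hasFDerivAt.smul_const e).hasFDerivWithinAt)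
  rw [ae_restrict_iff' hs] at h
  filter_upwards [h] with x hx hx0
  have h1 := hx hx0
  rw [sub_zero, nonpos_iff_eq_zero, nnnorm_eq_zero] at h1
  ext v
  have h2 := congrArg (fun L : R3 →L[ℝ] R3 => L v) h1
  simp only [ContinuousLinearMap.smulRight_apply, zero_apply,
    smul_eq_zero] at h2
  rcases h2 with h2 | h2
  · simpa using h2
  · exact absurd h2 he0

/-- The extension by zero of a function vanishing on the frontier is globally Lipschitz. -/
theorem ibp0_lip (Ω : Set R3) (hbdd : Bornology.IsBounded Ω) (X : R3 → ℝ)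
    (hX : ContDiff ℝ 1 X) (h0 : ∀ x ∈ frontier Ω, X x = 0) :
    ∃ K, LipschitzWith K (Ω.indicator X) := by
  have hc : IsCompact (closure Ω) := hbdd.isCompact_closure
  obtain ⟨K, hK⟩ : ∃ K, LipschitzOnWith K X (closure Ω) :=
    (hX.locallyLipschitz.locallyLipschitzOn).exists_lipschitzOnWith_of_compact hc
  have key : ∀ x ∈ Ω, ∀ y ∉ Ω, dist (X x) 0 ≤ K * dist x y := by
    intro x hx y hy
    have hne : Ω ≠ Set.univ := by
      rintro rfl
      exact hy (Set.mem_univ _)
    obtain ⟨z, hz, hzd⟩ := exists_mem_frontier_infDist_compl_eq_dist hx hne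
    have h1 : dist x z ≤ dist x y := by
      rw [← hzd]
      exact Metric.infDist_le_dist_of_mem hy
    calc dist (X x) 0 = dist (X x) (X z) := by rw [h0 z hz]
      _ ≤ K * dist x z :=
        hK.dist_le_mul x (subset_closure hx) z (frontier_subset_closure hz)
      _ ≤ K * dist x y := by gcongr
  refine ⟨K, LipschitzWith.of_dist_le_mul fun x y => ?_⟩
  by_cases hx : x ∈ Ω <;> by_cases hy : y ∈ Ω
  · rw [Set.indicator_of_mem hx, Set.indicator_of_mem hy]
    exact hK.dist_le_mul x (subset_closure hx) y (subset_closure hy)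
  · rw [Set.indicator_of_mem hx, Set.indicator_of_notMem hy]
    exact key x hx y hy
  · rw [Set.indicator_of_notMem hx, Set.indicator_of_mem hy, dist_comm, dist_comm x y]
    exact key y hy x hx
  · rw [Set.indicator_of_notMem hx, Set.indicator_of_notMem hy, dist_self]
    positivity

/-- The a.e. derivative of the extension by zero. -/
theorem ibp0_deriv (Ω : Set R3) (hopen : IsOpen Ω) (X : R3 → ℝ)
    (hX : Differentiable ℝ X) (h0 : ∀ x ∈ frontier Ω, X x = 0) :
    ∀ᵐ x : R3, HasFDerivAt (Ω.indicator X) (Ω.indicator (fderiv ℝ X) x) x := by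
  filter_upwards [ibp0_null X hX] with x hx
  by_cases hxΩ : x ∈ Ω
  · rw [Set.indicator_of_mem hxΩ]
    refine (hX x).hasFDerivAt.congr_of_eventuallyEq ?_
    filter_upwards [hopen.mem_nhds hxΩ] with y hy
    exact Set.indicator_of_mem hy _
  · rw [Set.indicator_of_notMem hxΩ]
    by_cases hxc : x ∈ closure Ω
    · have hxf : x ∈ frontier Ω := by
        rw [hopen.frontier_eq]
        exact ⟨hxc, hxΩ⟩
      have hx0 := h0 x hxf
      have hd : HasFDerivAt X (0 : R3 →L[ℝ] ℝ) x := by
        have := (hX x).hasFDerivAt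
        rwa [hx hx0] at this
      rw [hasFDerivAt_iff_isLittleO] at hd ⊢
      refine Asymptotics.IsBigO.trans_isLittleO ?_ hd
      refine Asymptotics.IsBigO.of_bound 1 (Eventually.of_forall fun y => ?_)
      rw [Set.indicator_of_notMem hxΩ, hx0]
      simp only [zero_apply, sub_zero, one_mul]
      exact norm_indicator_le_norm_self _ _
    · refine (hasFDerivAt_const (0 : ℝ) x).congr_of_eventuallyEq ?_
      filter_upwards [isClosed_closure.isOpen_compl.mem_nhds hxc] with y hy
      exact Set.indicator_of_notMem (fun h => hy (subset_closure h)) _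

theorem ibp0 (Ω : Set R3) (hopen : IsOpen Ω) (hbdd : Bornology.IsBounded Ω) (X : R3 → ℝ)
    (hX : ContDiff ℝ 1 X) (h0 : ∀ x ∈ frontier Ω, X x = 0) (i : Fin 3) :
    ∫ x in Ω, pderiv X i x = 0 := by
  obtain ⟨K, hK⟩ := ibp0_lip Ω hbdd X hX h0
  have hc : IsCompact (closure Ω) := hbdd.isCompact_closure
  have hcs : HasCompactSupport (Ω.indicator X) :=
    HasCompactSupport.intro hc fun x hx =>
      Set.indicator_of_notMem (fun h => hx (subset_closure h)) _
  have h1 : LipschitzWith 0 (fun _ : R3 => (1 : ℝ)) := LipschitzWith.const 1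
  have h := LipschitzWith.integral_lineDeriv_mul_eq (μ := (volume : Measure R3)) h1 hK hcs
    (-(EuclideanSpace.single i (1 : ℝ) : R3))
  have hz : ∀ x : R3, lineDeriv ℝ (fun _ : R3 => (1 : ℝ)) x
      (-(EuclideanSpace.single i (1 : ℝ) : R3)) = 0 := by
    intro x
    simp [lineDeriv]
  simp only [hz, zero_mul, integral_zero, neg_neg, mul_one] at h
  rw [← integral_indicator hopen.measurableSet, h]
  refine integral_congr_ae ?_
  filter_upwards [ibp0_deriv Ω hopen X (hX.differentiable one_ne_zero) h0] with x hx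
  rw [(hx.hasLineDerivAt _).lineDeriv]
  by_cases hxΩ : x ∈ Ω
  · rw [Set.indicator_of_mem hxΩ, Set.indicator_of_mem hxΩ]
    rfl
  · rw [Set.indicator_of_notMem hxΩ, Set.indicator_of_notMem hxΩ]
    rfl

theorem ibp0_pderiv_continuous (X : R3 → ℝ) (hX : ContDiff ℝ 1 X) (i : Fin 3) :
    Continuous (pderiv X i) :=
  (hX.continuous_fderiv one_ne_zero).clm_apply continuous_const

theorem ibp_tensor (Ω : Set R3) (hopen : IsOpen Ω) (hbdd : Bornology.IsBounded Ω)
    (τ : Fin 3 → Fin 3 → R3 → ℝ) (hτ : ∀ i j, ContDiff ℝ 1 (τ i j))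
    (hdiv : ∀ x ∈ Ω, ∀ i, ∑ j, pderiv (τ i j) j x = 0)
    (w : R3 → R3) (hw : ContDiff ℝ 1 w) (hw0 : ∀ x ∈ frontier Ω, w x = 0) :
    ∫ x in Ω, ∑ i, ∑ j, τ i j x * pderiv (fun y => w y i) j x = 0 := by
  have hc : IsCompact (closure Ω) := hbdd.isCompact_closure
  have hwi : ∀ i, ContDiff ℝ 1 (fun y => w y i) := fun i =>
    (EuclideanSpace.proj i : R3 →L[ℝ] ℝ).contDiff.comp hw
  have hP : ∀ i j, ContDiff ℝ 1 (fun y => τ i j y * w y i) := fun i j => (hτ i j).mul (hwi i)
  have hI : ∀ i j, ∫ x in Ω, pderiv (fun y => τ i j y * w y i) j x = 0 := fun i j =>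
    ibp0 Ω hopen hbdd _ (hP i j) (fun x hx => by simp [hw0 x hx]) j
  have hint : ∀ i j, IntegrableOn (pderiv (fun y => τ i j y * w y i) j) Ω := fun i j =>
    ((ibp0_pderiv_continuous _ (hP i j) j).continuousOn.integrableOn_compact hc).mono_set
      subset_closure
  have hsum : ∫ x in Ω, ∑ i, ∑ j, pderiv (fun y => τ i j y * w y i) j x = 0 := by
    rw [integral_finsetSum _ fun i _ => integrable_finsetSum _ fun j _ => hint i j]
    refine Finset.sum_eq_zero fun i _ => ?_
    rw [integral_finsetSum _ fun j _ => hint i j]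
    exact Finset.sum_eq_zero fun j _ => hI i j
  rw [← hsum]
  refine setIntegral_congr_fun hopen.measurableSet fun x hx => ?_
  refine Finset.sum_congr rfl fun i _ => ?_
  have hmul : ∀ j, pderiv (fun y => τ i j y * w y i) j x =
      τ i j x * pderiv (fun y => w y i) j x + w x i * pderiv (τ i j) j x := by
    intro j
    unfold pderiv
    rw [fderiv_fun_mul ((hτ i j).differentiable one_ne_zero x)
      ((hwi i).differentiable one_ne_zero x)]
    simp
  simp only [hmul, Finset.sum_add_distrib, ← Finset.mul_sum, hdiv x hx i, mul_zero, add_zero]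

end Crest.Agent.R80
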