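import Crest.Agent.R80.Da
import Crest.Agent.R80.IBP0

/-! Row 80: the moduli as elements of `Ob D`, and the boundary identity. -/

set_option autoImplicit false
open MeasureTheory Filter Topology Crest.AnalysisR.VecCalc3
open scoped ContDiff RealInnerProductSpace

namespace Crest.Agent.R80

/-- `M` represents the real moduli `lam`, `mu` on Ω. -/
def IsMod {D : Dom} (M : Mod (Ob D)) (lam mu : R3 → ℝ) : Prop :=
  ∀ x : D.Ω, M.g.val x = (Real.sqrt (mu x) : ℝ) ∧ M.mu.val x = (mu x : ℝ) ∧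
    M.lam.val x = (lam x : ℝ)

theorem bridge1_ofReal {f : R3 → ℝ} (hf : ContDiff ℝ ∞ f) :
    ContDiff ℝ ∞ fun x => ((f x : ℝ) : ℂ) :=
  Complex.ofRealCLM.contDiff.comp hf

theorem exists_mod (D : Dom) (lam mu : R3 → ℝ) (hl : ContDiff ℝ ∞ lam) (hm : ContDiff ℝ ∞ mu)
    (hpos : ∀ x ∈ closure D.Ω, 0 < mu x ∧ 0 < 3 * lam x + 2 * mu x) :
    ∃ M : Mod (Ob D), IsMod M lam mu := by
  have hsq : ContDiffOn ℝ ∞ (fun x => ((Real.sqrt (mu x) : ℝ) : ℂ)) {x | 0 < mu x} :=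
    Complex.ofRealCLM.contDiff.comp_contDiffOn
      (hm.contDiffOn.sqrt fun x hx => (ne_of_gt hx))
  obtain ⟨G, hG, hGe⟩ := exists_smooth_ext (K := closure D.Ω) (U := {x | 0 < mu x})
    isClosed_closure (isOpen_lt continuous_const hm.continuous) (fun x hx => (hpos x hx).1) hsq
  have hGv : ∀ x ∈ closure D.Ω, G x = ((Real.sqrt (mu x) : ℝ) : ℂ) := fun x hx =>
    hGe.self_of_nhdsSet x hx
  have hA : ContDiff ℝ ∞ fun x => ((lam x + 2 * mu x : ℝ) : ℂ) :=
    bridge1_ofReal (hl.add (contDiff_const.mul hm))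
  have hB : ContDiff ℝ ∞ fun x => ((lam x + mu x : ℝ) : ℂ) := bridge1_ofReal (hl.add hm)
  obtain ⟨h, hh⟩ := (Ob.isUnit_mk (D := D) hG fun x hx => by
    rw [hGv x hx]
    exact_mod_cast (Real.sqrt_pos.2 (hpos x hx).1).ne').exists_right_inv
  obtain ⟨a, ha⟩ := (Ob.isUnit_mk (D := D) hA fun x hx => by
    have h1 := hpos x hx
    have h2 : 0 < lam x + 2 * mu x := by linarith [h1.1, h1.2]
    exact_mod_cast h2.ne').exists_right_inv
  obtain ⟨b, hb⟩ := (Ob.isUnit_mk (D := D) hB fun x hx => by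
    have h1 := hpos x hx
    have h2 : 0 < lam x + mu x := by linarith [h1.1, h1.2]
    exact_mod_cast h2.ne').exists_right_inv
  have hgv : ∀ x : D.Ω, (Ob.mk D G hG).val x = ((Real.sqrt (mu x) : ℝ) : ℂ) := fun x =>
    hGv x (subset_closure x.2)
  have hggv : ∀ x : D.Ω, (Ob.mk D G hG * Ob.mk D G hG).val x = ((mu x : ℝ) : ℂ) := fun x => by
    rw [Ob.val_mul, hgv, ← Complex.ofReal_mul,
      Real.mul_self_sqrt (hpos x (subset_closure x.2)).1.le]
  have hgg : Ob.mk D G hG * Ob.mk D G hG = Ob.mk D _ hA - Ob.mk D _ hB := by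
    refine Ob.ext fun x => ?_
    rw [hggv, Ob.val_sub, Ob.val_mk, Ob.val_mk]
    push_cast
    ring
  have hAv : ∀ x : D.Ω, (Ob.mk D _ hA).val x = ((lam x + 2 * mu x : ℝ) : ℂ) := fun x => rfl
  generalize Ob.mk D G hG = g at *
  generalize Ob.mk D _ hA = A at *
  generalize Ob.mk D _ hB = B at *
  refine ⟨⟨g, h, A * h * h, a * g * g, A * b, hh, ?_, ?_⟩, fun x => ⟨hgv x, hggv x, ?_⟩⟩
  · linear_combination (h * h * g * g) * ha + (g * h + 1) * hh
  · linear_combination (-(a * A * b)) * hgg + (a * A) * hb + (1 - A * b) * ha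
  · have h1 : (A * h * h - 2) * (g * g) = A - 2 * (g * g) := by
      linear_combination A * (g * h + 1) * hh
    change ((A * h * h - 2) * (g * g)).val x = _
    rw [h1, Ob.val_sub, hAv, Ob.val_mul, hggv, Ob.val_ofNat]
    push_cast
    ring

theorem bridge1_pd_re {H : R3 → ℂ} (hH : ContDiff ℝ ∞ H) (i : Fin 3) (x : R3) :
    pderiv (fun y => (H y).re) i x = (pd i H x).re := by
  have h := (Complex.reCLM.hasFDerivAt (x := H x)).comp x (Ob.diff hH x).hasFDerivAt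
  exact congrArg (fun L : R3 →L[ℝ] ℝ => L (EuclideanSpace.single i 1)) h.fderiv

theorem bridge1_pd_im {H : R3 → ℂ} (hH : ContDiff ℝ ∞ H) (i : Fin 3) (x : R3) :
    pderiv (fun y => (H y).im) i x = (pd i H x).im := by
  have h := (Complex.imCLM.hasFDerivAt (x := H x)).comp x (Ob.diff hH x).hasFDerivAt
  exact congrArg (fun L : R3 →L[ℝ] ℝ => L (EuclideanSpace.single i 1)) h.fderiv

theorem bridge1_re {H : R3 → ℂ} (hH : ContDiff ℝ ∞ H) : ContDiff ℝ ∞ fun y => (H y).re :=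
  Complex.reCLM.contDiff.comp hH

theorem bridge1_im {H : R3 → ℂ} (hH : ContDiff ℝ ∞ H) : ContDiff ℝ ∞ fun y => (H y).im :=
  Complex.imCLM.contDiff.comp hH

theorem bridge1_integral_re {D : Dom} {F : R3 → ℂ} (hF : Continuous F) :
    (∫ x in D.Ω, F x).re = ∫ x in D.Ω, (F x).re :=
  (Complex.reCLM.integral_comp_comm (Ob.integrableOn (D := D) hF)).symm

theorem bridge1_integral_im {D : Dom} {F : R3 → ℂ} (hF : Continuous F) :
    (∫ x in D.Ω, F x).im = ∫ x in D.Ω, (F x).im :=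
  (Complex.imCLM.integral_comp_comm (Ob.integrableOn (D := D) hF)).symm

theorem bridge1_ibp (D : Dom) {H : R3 → ℂ} (hH : ContDiff ℝ ∞ H)
    (h0 : ∀ x ∈ frontier D.Ω, H x = 0) (i : Fin 3) : ∫ x in D.Ω, pd i H x = 0 := by
  have h1 : (1 : WithTop ℕ∞) ≤ ∞ := by simp
  apply Complex.ext
  · rw [bridge1_integral_re (contDiff_pd hH i).continuous, Complex.zero_re,
      ← ibp0 D.Ω D.op D.bdd _ ((bridge1_re hH).of_le h1) (fun x hx => by simp [h0 x hx]) i]
    simp only [bridge1_pd_re hH]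
  · rw [bridge1_integral_im (contDiff_pd hH i).continuous, Complex.zero_im,
      ← ibp0 D.Ω D.op D.bdd _ ((bridge1_im hH).of_le h1) (fun x hx => by simp [h0 x hx]) i]
    simp only [bridge1_pd_im hH]

theorem bridge1_g_closure {D : Dom} {M : Mod (Ob D)} {lam mu : R3 → ℝ} (hm : Continuous mu)
    (h : IsMod M lam mu) {x : R3} (hx : x ∈ closure D.Ω) :
    M.g.rep x = ((Real.sqrt (mu x) : ℝ) : ℂ) := by
  have h1 : Set.EqOn M.g.rep (fun x => ((Real.sqrt (mu x) : ℝ) : ℂ)) D.Ω := fun y hy => by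
    rw [Ob.rep_of_mem _ hy]
    exact (h ⟨y, hy⟩).1
  exact h1.closure M.g.rep_smooth.continuous (Complex.continuous_ofReal.comp hm.sqrt) hx

theorem bridge_IBP (D : Dom) (M₁ M₂ : Mod (Ob D)) (lam₁ mu₁ lam₂ mu₂ : R3 → ℝ)
    (hm₁ : Continuous mu₁) (hm₂ : Continuous mu₂) (h₁ : IsMod M₁ lam₁ mu₁)
    (h₂ : IsMod M₂ lam₂ mu₂) (hb : ∀ x ∈ frontier D.Ω, mu₁ x = mu₂ x) : D.da.IBP M₁ M₂ := by
  intro i f
  have hH : ContDiff ℝ ∞ fun x => (M₁.g.rep x - M₂.g.rep x) * f.rep x :=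
    (M₁.g.rep_smooth.sub M₂.g.rep_smooth).mul f.rep_smooth
  have he : (M₁.g - M₂.g) * f = Ob.mk D _ hH := Ob.ext fun x => by
    rw [Ob.val_mk, Ob.rep_val, Ob.rep_val, Ob.rep_val, Ob.val_mul, Ob.val_sub]
  rw [he, Dom.da_d, Dom.da_I, Ob.d_mk, Ob.Int_mk]
  refine bridge1_ibp D hH (fun x hx => ?_) i
  have hc : x ∈ closure D.Ω := frontier_subset_closure hx
  rw [bridge1_g_closure hm₁ h₁ hc, bridge1_g_closure hm₂ h₂ hc, hb x hx, sub_self, zero_mul]

end Crest.Agent.R80
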