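import Crest.Agent.R80.Bridge1
import Crest.Agent.R80.Aless

/-! Row 80: the complex integral identity in `Ob D`. -/

set_option autoImplicit false
open MeasureTheory Filter Topology Crest.AnalysisR.VecCalc3
open scoped ContDiff RealInnerProductSpace

namespace Crest.Agent.R80

open Crest.AnalysisR.PDE.Elasticity

/-- Real part of a vector of `Ob D` as a field on ℝ³. -/
noncomputable def bridge2Re {D : Dom} (u : Fin 3 → Ob D) (x : R3) : R3 :=
  WithLp.toLp 2 fun a => ((u a).rep x).re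

/-- Imaginary part of a vector of `Ob D` as a field on ℝ³. -/
noncomputable def bridge2Im {D : Dom} (u : Fin 3 → Ob D) (x : R3) : R3 :=
  WithLp.toLp 2 fun a => ((u a).rep x).im

theorem bridge2_re_smooth {D : Dom} (u : Fin 3 → Ob D) : ContDiff ℝ ∞ (bridge2Re u) :=
  contDiff_euclidean.2 fun a => bridge1_re (u a).rep_smooth

theorem bridge2_im_smooth {D : Dom} (u : Fin 3 → Ob D) : ContDiff ℝ ∞ (bridge2Im u) :=
  contDiff_euclidean.2 fun a => bridge1_im (u a).rep_smooth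

theorem bridge2_pd_re {D : Dom} (u : Fin 3 → Ob D) (i j : Fin 3) (x : D.Ω) :
    pderiv (fun y => bridge2Re u y j) i x = ((Ob.d D i (u j)).val x).re :=
  bridge1_pd_re (u j).rep_smooth i x

theorem bridge2_pd_im {D : Dom} (u : Fin 3 → Ob D) (i j : Fin 3) (x : D.Ω) :
    pderiv (fun y => bridge2Im u y j) i x = ((Ob.d D i (u j)).val x).im :=
  bridge1_pd_im (u j).rep_smooth i x

theorem bridge2_stress_val {D : Dom} {M : Mod (Ob D)} {lam mu : R3 → ℝ} (h : IsMod M lam mu)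
    (u : Fin 3 → Ob D) (i j : Fin 3) (x : D.Ω) :
    (D.da.stress M 0 u i j).val x =
      (if i = j then (lam x : ℂ) * ∑ a, (Ob.d D a (u a)).val x else 0)
        + (mu x : ℂ) * ((Ob.d D i (u j)).val x + (Ob.d D j (u i)).val x) := by
  unfold DA.stress DA.div
  by_cases hij : i = j
  · rw [if_pos hij, if_pos hij]
    simp only [Pi.zero_apply, zero_smul, Finset.sum_const_zero, add_zero, Ob.val_add, Ob.val_mul,
      Ob.val_sum, Dom.da_d, (h x).2.1, (h x).2.2]
  · rw [if_neg hij, if_neg hij]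
    simp only [Pi.zero_apply, zero_smul, add_zero, Ob.val_add, Ob.val_mul, Ob.val_zero,
      Dom.da_d, (h x).2.1]

theorem bridge2_stress_re {D : Dom} {M : Mod (Ob D)} {lam mu : R3 → ℝ} (h : IsMod M lam mu)
    (u : Fin 3 → Ob D) (i j : Fin 3) (x : D.Ω) :
    stressR lam mu (bridge2Re u) i j x = ((D.da.stress M 0 u i j).val x).re := by
  rw [bridge2_stress_val h]
  unfold stressR div3 symGrad
  simp only [bridge2_pd_re]
  by_cases hij : i = j
  · rw [if_pos hij, if_pos hij]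
    simp only [Complex.add_re, Complex.re_ofReal_mul, Complex.re_sum]
    ring
  · rw [if_neg hij, if_neg hij]
    simp only [Complex.add_re, Complex.re_ofReal_mul, Complex.zero_re]
    ring

theorem bridge2_stress_im {D : Dom} {M : Mod (Ob D)} {lam mu : R3 → ℝ} (h : IsMod M lam mu)
    (u : Fin 3 → Ob D) (i j : Fin 3) (x : D.Ω) :
    stressR lam mu (bridge2Im u) i j x = ((D.da.stress M 0 u i j).val x).im := by
  rw [bridge2_stress_val h]
  unfold stressR div3 symGrad
  simp only [bridge2_pd_im]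
  by_cases hij : i = j
  · rw [if_pos hij, if_pos hij]
    simp only [Complex.add_im, Complex.im_ofReal_mul, Complex.im_sum]
    ring
  · rw [if_neg hij, if_neg hij]
    simp only [Complex.add_im, Complex.im_ofReal_mul, Complex.zero_im]
    ring

theorem bridge2_pderiv_congr {D : Dom} {F G : R3 → ℝ} (h : ∀ x ∈ D.Ω, F x = G x) (i : Fin 3)
    {x : R3} (hx : x ∈ D.Ω) : pderiv F i x = pderiv G i x := by
  have : F =ᶠ[𝓝 x] G := Filter.eventuallyEq_of_mem (D.op.mem_nhds hx) h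
  unfold pderiv
  rw [this.fderiv_eq]

theorem bridge2_Lop_val {D : Dom} {M : Mod (Ob D)} {u : Fin 3 → Ob D}
    (hu : D.da.Lop M 0 u = 0) (i : Fin 3) (x : D.Ω) :
    ∑ j, pd j (D.da.stress M 0 u i j).rep x = 0 := by
  have h := congrArg (fun f : Ob D => f.val x) (congrFun hu i)
  unfold DA.Lop at h
  simpa only [Pi.zero_apply, zero_smul, add_zero, Ob.val_sum, Dom.da_d, Ob.val_d,
    Ob.val_zero] using h

theorem bridge2_div_re {D : Dom} {M : Mod (Ob D)} {lam mu : R3 → ℝ} (h : IsMod M lam mu)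
    {u : Fin 3 → Ob D} (hu : D.da.Lop M 0 u = 0) :
    ∀ x ∈ D.Ω, ∀ i, ∑ j, pderiv (stressR lam mu (bridge2Re u) i j) j x = 0 := by
  intro x hx i
  have h1 : ∀ j, pderiv (stressR lam mu (bridge2Re u) i j) j x
      = (pd j (D.da.stress M 0 u i j).rep x).re := fun j => by
    rw [← bridge1_pd_re (Ob.rep_smooth _)]
    refine bridge2_pderiv_congr (fun y hy => ?_) j hx
    rw [Ob.rep_of_mem _ hy]
    exact bridge2_stress_re h u i j ⟨y, hy⟩
  simp only [h1]
  rw [← Complex.re_sum, bridge2_Lop_val hu i ⟨x, hx⟩, Complex.zero_re]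

theorem bridge2_div_im {D : Dom} {M : Mod (Ob D)} {lam mu : R3 → ℝ} (h : IsMod M lam mu)
    {u : Fin 3 → Ob D} (hu : D.da.Lop M 0 u = 0) :
    ∀ x ∈ D.Ω, ∀ i, ∑ j, pderiv (stressR lam mu (bridge2Im u) i j) j x = 0 := by
  intro x hx i
  have h1 : ∀ j, pderiv (stressR lam mu (bridge2Im u) i j) j x
      = (pd j (D.da.stress M 0 u i j).rep x).im := fun j => by
    rw [← bridge1_pd_im (Ob.rep_smooth _)]
    refine bridge2_pderiv_congr (fun y hy => ?_) j hx
    rw [Ob.rep_of_mem _ hy]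
    exact bridge2_stress_im h u i j ⟨y, hy⟩
  simp only [h1]
  rw [← Complex.im_sum, bridge2_Lop_val hu i ⟨x, hx⟩, Complex.zero_im]

theorem bridge2_alg (l m : ℝ) (P Q : Fin 3 → Fin 3 → ℂ) :
    ∑ i, ∑ j, ((if i = j then (l : ℂ) * ∑ a, P a a else 0) + (m : ℂ) * (P i j + P j i)) * Q i j
      = (l : ℂ) * (∑ a, P a a) * (∑ a, Q a a)
        + 2 * (m : ℂ) * ∑ i, ∑ j, (P i j + P j i) / 2 * ((Q i j + Q j i) / 2) := by
  simp only [Fin.sum_univ_three, Fin.isValue, if_true, Fin.reduceEq, if_false, zero_ne_one,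
    one_ne_zero]
  ring

theorem bridge2_alg_re (l m : ℝ) (P Q : Fin 3 → Fin 3 → ℂ) :
    ((l : ℂ) * (∑ a, P a a) * (∑ a, Q a a)
        + 2 * (m : ℂ) * ∑ i, ∑ j, (P i j + P j i) / 2 * ((Q i j + Q j i) / 2)).re
      = (l * (∑ a, (P a a).re) * (∑ a, (Q a a).re)
          + 2 * m * ∑ i, ∑ j, ((P i j).re + (P j i).re) / 2 * (((Q i j).re + (Q j i).re) / 2))
        - (l * (∑ a, (P a a).im) * (∑ a, (Q a a).im)
          + 2 * m * ∑ i, ∑ j, ((P i j).im + (P j i).im) / 2 * (((Q i j).im + (Q j i).im) / 2)) := by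
  simp only [Fin.sum_univ_three, Complex.add_re, Complex.add_im, Complex.mul_re, Complex.mul_im,
    Complex.ofReal_re, Complex.ofReal_im, Complex.div_ofNat_re, Complex.div_ofNat_im,
    Complex.re_ofNat, Complex.im_ofNat]
  ring

theorem bridge2_alg_im (l m : ℝ) (P Q : Fin 3 → Fin 3 → ℂ) :
    ((l : ℂ) * (∑ a, P a a) * (∑ a, Q a a)
        + 2 * (m : ℂ) * ∑ i, ∑ j, (P i j + P j i) / 2 * ((Q i j + Q j i) / 2)).im
      = (l * (∑ a, (P a a).re) * (∑ a, (Q a a).im)
          + 2 * m * ∑ i, ∑ j, ((P i j).re + (P j i).re) / 2 * (((Q i j).im + (Q j i).im) / 2))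
        + (l * (∑ a, (P a a).im) * (∑ a, (Q a a).re)
          + 2 * m * ∑ i, ∑ j, ((P i j).im + (P j i).im) / 2 * (((Q i j).re + (Q j i).re) / 2)) := by
  simp only [Fin.sum_univ_three, Complex.add_re, Complex.add_im, Complex.mul_re, Complex.mul_im,
    Complex.ofReal_re, Complex.ofReal_im, Complex.div_ofNat_re, Complex.div_ofNat_im,
    Complex.re_ofNat, Complex.im_ofNat]
  ring

theorem bridge2_B_val {D : Dom} {M : Mod (Ob D)} {lam mu : R3 → ℝ} (h : IsMod M lam mu)
    (u v : Fin 3 → Ob D) (x : D.Ω) :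
    (D.da.B M u v).val x =
      (lam x : ℂ) * (∑ a, (Ob.d D a (u a)).val x) * (∑ a, (Ob.d D a (v a)).val x)
        + 2 * (mu x : ℂ) * ∑ i, ∑ j, ((Ob.d D i (u j)).val x + (Ob.d D j (u i)).val x) / 2
          * (((Ob.d D i (v j)).val x + (Ob.d D j (v i)).val x) / 2) := by
  rw [← bridge2_alg (lam x) (mu x) (fun i j => (Ob.d D i (u j)).val x)
    (fun i j => (Ob.d D i (v j)).val x)]
  unfold DA.B
  simp only [Ob.val_sum, Ob.val_mul, bridge2_stress_val h, Dom.da_d]

theorem bridge2_B_re {D : Dom} {M : Mod (Ob D)} {lam mu : R3 → ℝ} (h : IsMod M lam mu)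
    (u v : Fin 3 → Ob D) (x : D.Ω) :
    ((D.da.B M u v).val x).re = bilR lam mu (bridge2Re u) (bridge2Re v) x
      - bilR lam mu (bridge2Im u) (bridge2Im v) x := by
  rw [bridge2_B_val h]
  unfold bilR div3 symGrad
  simp only [bridge2_pd_re, bridge2_pd_im]
  exact bridge2_alg_re (lam x) (mu x) (fun i j => (Ob.d D i (u j)).val x)
    (fun i j => (Ob.d D i (v j)).val x)

theorem bridge2_B_im {D : Dom} {M : Mod (Ob D)} {lam mu : R3 → ℝ} (h : IsMod M lam mu)
    (u v : Fin 3 → Ob D) (x : D.Ω) :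
    ((D.da.B M u v).val x).im = bilR lam mu (bridge2Re u) (bridge2Im v) x
      + bilR lam mu (bridge2Im u) (bridge2Re v) x := by
  rw [bridge2_B_val h]
  unfold bilR div3 symGrad
  simp only [bridge2_pd_re, bridge2_pd_im]
  exact bridge2_alg_im (lam x) (mu x) (fun i j => (Ob.d D i (u j)).val x)
    (fun i j => (Ob.d D i (v j)).val x)

theorem bridge2_bil_comm (lam mu : R3 → ℝ) (u v : R3 → R3) (x : R3) :
    bilR lam mu u v x = bilR lam mu v u x := by
  unfold bilR
  simp only [Fin.sum_univ_three]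
  ring

theorem bridge2_cont_pderiv {u : R3 → R3} (hu : ContDiff ℝ ∞ u) (i j : Fin 3) :
    Continuous (pderiv (fun y => u y j) i) :=
  ((contDiff_euclidean.1 hu j).continuous_fderiv (by simp)).clm_apply continuous_const

theorem bridge2_bil_int (D : Dom) {lam mu : R3 → ℝ} (hl : Continuous lam) (hm : Continuous mu)
    {u v : R3 → R3} (hu : ContDiff ℝ ∞ u) (hv : ContDiff ℝ ∞ v) :
    IntegrableOn (bilR lam mu u v) D.Ω := by
  have hd : ∀ {w : R3 → R3}, ContDiff ℝ ∞ w → Continuous (div3 w) := fun hw =>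
    continuous_finsetSum _ fun i _ => bridge2_cont_pderiv hw i i
  have hs : ∀ {w : R3 → R3}, ContDiff ℝ ∞ w → ∀ i j, Continuous (symGrad w i j) := fun hw i j =>
    ((bridge2_cont_pderiv hw i j).add (bridge2_cont_pderiv hw j i)).div_const 2
  have hc : Continuous (bilR lam mu u v) :=
    ((hl.mul (hd hu)).mul (hd hv)).add ((continuous_const.mul hm).mul
      (continuous_finsetSum _ fun i _ => continuous_finsetSum _ fun j _ =>
        (hs hu i j).mul (hs hv i j)))
  exact (hc.continuousOn.integrableOn_compact D.bdd.isCompact_closure).mono_set subset_closure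

theorem bridge2_int_re {D : Dom} {M : Mod (Ob D)} {lam mu : R3 → ℝ} (hl : Continuous lam)
    (hm : Continuous mu) (h : IsMod M lam mu) (u v : Fin 3 → Ob D) :
    (Ob.Int D (D.da.B M u v)).re = (∫ x in D.Ω, bilR lam mu (bridge2Re u) (bridge2Re v) x)
      - ∫ x in D.Ω, bilR lam mu (bridge2Im u) (bridge2Im v) x := by
  rw [← integral_sub (bridge2_bil_int D hl hm (bridge2_re_smooth u) (bridge2_re_smooth v))
    (bridge2_bil_int D hl hm (bridge2_im_smooth u) (bridge2_im_smooth v))]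
  refine (bridge1_integral_re (D := D) (D.da.B M u v).rep_smooth.continuous).trans ?_
  refine setIntegral_congr_fun D.op.measurableSet fun x hx => ?_
  simp only [Ob.rep_of_mem _ hx]
  exact bridge2_B_re h u v ⟨x, hx⟩

theorem bridge2_int_im {D : Dom} {M : Mod (Ob D)} {lam mu : R3 → ℝ} (hl : Continuous lam)
    (hm : Continuous mu) (h : IsMod M lam mu) (u v : Fin 3 → Ob D) :
    (Ob.Int D (D.da.B M u v)).im = (∫ x in D.Ω, bilR lam mu (bridge2Re u) (bridge2Im v) x)
      + ∫ x in D.Ω, bilR lam mu (bridge2Im u) (bridge2Re v) x := by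
  rw [← integral_add (bridge2_bil_int D hl hm (bridge2_re_smooth u) (bridge2_im_smooth v))
    (bridge2_bil_int D hl hm (bridge2_im_smooth u) (bridge2_re_smooth v))]
  refine (bridge1_integral_im (D := D) (D.da.B M u v).rep_smooth.continuous).trans ?_
  refine setIntegral_congr_fun D.op.measurableSet fun x hx => ?_
  simp only [Ob.rep_of_mem _ hx]
  exact bridge2_B_im h u v ⟨x, hx⟩

theorem bridge_ID (D : Dom) (M₁ M₂ : Mod (Ob D)) (lam₁ mu₁ lam₂ mu₂ : R3 → ℝ)
    (hl₁ : ContDiff ℝ ∞ lam₁) (hm₁ : ContDiff ℝ ∞ mu₁)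
    (hl₂ : ContDiff ℝ ∞ lam₂) (hm₂ : ContDiff ℝ ∞ mu₂)
    (hpos : ∀ x ∈ D.Ω, 0 < mu₁ x ∧ 0 < 3 * lam₁ x + 2 * mu₁ x)
    (hdata : SameBoundaryData D.Ω lam₁ mu₁ lam₂ mu₂)
    (h₁ : IsMod M₁ lam₁ mu₁) (h₂ : IsMod M₂ lam₂ mu₂) : D.da.ID M₁ M₂ := by
  intro u v hu hv
  have A := aless D.Ω D.op D.bdd lam₁ mu₁ lam₂ mu₂ hl₁ hm₁ hl₂ hm₂ hpos hdata
  have a1 := A _ _ (bridge2_re_smooth u) (bridge2_re_smooth v) (bridge2_div_re h₁ hu)
    (bridge2_div_re h₂ hv)
  have a2 := A _ _ (bridge2_im_smooth u) (bridge2_im_smooth v) (bridge2_div_im h₁ hu)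
    (bridge2_div_im h₂ hv)
  have a3 := A _ _ (bridge2_re_smooth u) (bridge2_im_smooth v) (bridge2_div_re h₁ hu)
    (bridge2_div_im h₂ hv)
  have a4 := A _ _ (bridge2_im_smooth u) (bridge2_re_smooth v) (bridge2_div_im h₁ hu)
    (bridge2_div_re h₂ hv)
  rw [Dom.da_I, map_sub, sub_eq_zero]
  apply Complex.ext
  · rw [bridge2_int_re hl₁.continuous hm₁.continuous h₁,
      bridge2_int_re hl₂.continuous hm₂.continuous h₂, a1, a2]
    simp only [bridge2_bil_comm lam₂ mu₂ (bridge2Re u), bridge2_bil_comm lam₂ mu₂ (bridge2Im u)]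
  · rw [bridge2_int_im hl₁.continuous hm₁.continuous h₁,
      bridge2_int_im hl₂.continuous hm₂.continuous h₂, a3, a4, add_comm]
    simp only [bridge2_bil_comm lam₂ mu₂ (bridge2Re u), bridge2_bil_comm lam₂ mu₂ (bridge2Im u)]

end Crest.Agent.R80
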