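import Crest.Agent.R80.Basic

/-! Row 80: conjugation by exponentials. -/

set_option autoImplicit false
open Filter Topology Matrix

namespace Crest.Agent.R80

namespace DA
variable {O : Type} [CommRing O] [Algebra ℂ O] [TopologicalSpace O] (S : DA O)

theorem d_conj {E : O} {ζ : Fin 3 → ℂ} (hE : ∀ i, S.d i E = ζ i • E) (i : Fin 3) (f : O) :
    S.d i (E * f) = E * (S.d i f + ζ i • f) := by
  rw [d_mul, hE, mul_add, smul_mul_assoc, mul_smul_comm, add_comm]

theorem d_inv_exp {E E' : O} {ζ : Fin 3 → ℂ} (hEE : E * E' = 1) (hE : ∀ i, S.d i E = ζ i • E)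
    (i : Fin 3) : S.d i E' = (-ζ) i • E' := by
  have h := S.d_conj hE i E'
  rw [hEE, Derivation.map_one_eq_zero] at h
  have h2 : E' * (E * (S.d i E' + ζ i • E')) = 0 := by rw [← h, mul_zero]
  rw [← mul_assoc, mul_comm E', hEE, one_mul] at h2
  rw [Pi.neg_apply, neg_smul]
  exact eq_neg_of_add_eq_zero_left h2

theorem stress_conj {E : O} {ζ : Fin 3 → ℂ} (hE : ∀ i, S.d i E = ζ i • E) (M : Mod O)
    (u : Fin 3 → O) (i j : Fin 3) :
    S.stress M 0 (fun a => E * u a) i j = E * S.stress M ζ u i j := by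
  simp only [stress, div, S.d_conj hE, Pi.zero_apply, zero_smul, Fin.sum_univ_three]
  split_ifs <;> ring

theorem Lop_conj {E : O} {ζ : Fin 3 → ℂ} (hE : ∀ i, S.d i E = ζ i • E) (M : Mod O)
    (u : Fin 3 → O) (i : Fin 3) :
    S.Lop M 0 (fun a => E * u a) i = E * S.Lop M ζ u i := by
  simp only [Lop, S.stress_conj hE, S.d_conj hE, Pi.zero_apply, zero_smul, add_zero, Finset.mul_sum]

theorem stress_smul (M : Mod O) (ζ : Fin 3 → ℂ) (c : ℂ) (u : Fin 3 → O) (i j : Fin 3) :
    S.stress M ζ (c • u) i j = c • S.stress M ζ u i j := by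
  simp only [stress, div, Pi.smul_apply, Derivation.map_smul, Fin.sum_univ_three]
  simp only [Algebra.smul_def]
  split_ifs <;> ring

theorem Lop_smul (M : Mod O) (ζ : Fin 3 → ℂ) (c : ℂ) (u : Fin 3 → O) :
    S.Lop M ζ (c • u) = c • S.Lop M ζ u := by
  funext i
  simp only [Lop, stress_smul, Derivation.map_smul, Pi.smul_apply, Finset.smul_sum, smul_add,
    smul_comm c]

theorem stress_symm (M : Mod O) (ζ : Fin 3 → ℂ) (u : Fin 3 → O) (i j : Fin 3) :
    S.stress M ζ u i j = S.stress M ζ u j i := by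
  unfold stress
  by_cases h : i = j
  · subst h
    rfl
  · rw [if_neg h, if_neg (Ne.symm h)]
    ring

end DA

end Crest.Agent.R80
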