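import Crest.Agent.R80.TwAlg

/-! Row 80: convolution of symbols. -/

set_option autoImplicit false
open MeasureTheory Filter Topology Crest.AnalysisR.VecCalc3
open scoped ContDiff RealInnerProductSpace

namespace Crest.Agent.R80

private theorem Conv_le_div {z : ℝ} {w c : ℝ} (hw : 0 < w) (h : w * z ≤ c) : z ≤ c * w⁻¹ := by
  rw [← div_eq_mul_inv, le_div_iff₀ hw, mul_comm]; exact h

/-- Pointwise weighted bound for the convolution integrand. -/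
private theorem Conv_pt {u v : ℝ × ℝ → ℂ} {A B : ℝ} (s : ℕ)
    (hu : ∀ η, (1 + ‖η‖) ^ (s + 3) * ‖u η‖ ≤ A) (hv : ∀ η, (1 + ‖η‖) ^ s * ‖v η‖ ≤ B)
    (ξ η : ℝ × ℝ) :
    (1 + ‖ξ‖) ^ s * ‖u η * v (ξ - η)‖ ≤ A * B * ((1 + ‖η‖) ^ 3)⁻¹ := by
  have h1 : 1 + ‖ξ‖ ≤ (1 + ‖η‖) * (1 + ‖ξ - η‖) := by
    have : ‖ξ‖ ≤ ‖η‖ + ‖ξ - η‖ := by
      calc ‖ξ‖ = ‖η + (ξ - η)‖ := by simp
        _ ≤ _ := norm_add_le _ _
    nlinarith [norm_nonneg η, norm_nonneg (ξ - η), mul_nonneg (norm_nonneg η) (norm_nonneg (ξ - η))]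
  have h2 : (1 + ‖ξ‖) ^ s ≤ (1 + ‖η‖) ^ s * (1 + ‖ξ - η‖) ^ s := by
    rw [← mul_pow]; exact pow_le_pow_left₀ (by positivity) h1 s
  have hA : 0 ≤ A := le_trans (by positivity) (hu η)
  have h3 : (1 + ‖η‖) ^ s * ‖u η‖ ≤ A * ((1 + ‖η‖) ^ 3)⁻¹ := by
    refine Conv_le_div (by positivity) ?_
    calc (1 + ‖η‖) ^ 3 * ((1 + ‖η‖) ^ s * ‖u η‖) = (1 + ‖η‖) ^ (s + 3) * ‖u η‖ := by ring
      _ ≤ A := hu η
  calc (1 + ‖ξ‖) ^ s * ‖u η * v (ξ - η)‖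
      ≤ ((1 + ‖η‖) ^ s * (1 + ‖ξ - η‖) ^ s) * (‖u η‖ * ‖v (ξ - η)‖) := by
        rw [norm_mul]; exact mul_le_mul_of_nonneg_right h2 (by positivity)
    _ = ((1 + ‖η‖) ^ s * ‖u η‖) * ((1 + ‖ξ - η‖) ^ s * ‖v (ξ - η)‖) := by ring
    _ ≤ (A * ((1 + ‖η‖) ^ 3)⁻¹) * B :=
        mul_le_mul h3 (hv _) (by positivity) (by positivity)
    _ = _ := by ring

private theorem Conv_cont {a b : Sym} (ha : Cts a) (hb : Cts b) :
    Continuous fun z : (ℝ × (ℝ × ℝ)) × (ℝ × ℝ) => a z.1.1 z.2 * b z.1.1 (z.1.2 - z.2) := by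
  have h1 : Continuous fun z : (ℝ × (ℝ × ℝ)) × (ℝ × ℝ) => a z.1.1 z.2 :=
    ha.comp (f := fun z : (ℝ × (ℝ × ℝ)) × (ℝ × ℝ) => (z.1.1, z.2)) (by fun_prop)
  have h2 : Continuous fun z : (ℝ × (ℝ × ℝ)) × (ℝ × ℝ) => b z.1.1 (z.1.2 - z.2) :=
    hb.comp (f := fun z : (ℝ × (ℝ × ℝ)) × (ℝ × ℝ) => (z.1.1, z.1.2 - z.2)) (by fun_prop)
  exact h1.mul h2

private theorem Conv_cont_eta {a b : Sym} (ha : Cts a) (hb : Cts b) (t : ℝ) (ξ : ℝ × ℝ) :
    Continuous fun η : ℝ × ℝ => a t η * b t (ξ - η) :=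
  (Conv_cont ha hb).comp (f := fun η : ℝ × ℝ => ((t, ξ), η)) (by fun_prop)

/-- Uniform dominating bound. -/
private theorem Conv_dom {T : Set ℝ} {p q : ℕ} {β F : ℝ → Sym} (hβ : Rap T q β) (hF : Rap T p F)
    (s : ℕ) (R : ℝ) : ∃ C : ℝ, ∀ τ ∈ T, ∀ t ξ η, |t| ≤ R →
      (1 + ‖ξ‖) ^ s * ‖β τ t η * F τ t (ξ - η)‖ ≤ C * τ ^ (p + q) * ((1 + ‖η‖) ^ 3)⁻¹ := by
  obtain ⟨C₁, h₁⟩ := hβ.2 (s + 3) R
  obtain ⟨C₂, h₂⟩ := hF.2 s R
  refine ⟨C₁ * C₂, fun τ hτ t ξ η ht => ?_⟩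
  have := Conv_pt s (fun η => h₁ τ hτ t η ht) (fun η => h₂ τ hτ t η ht) ξ η
  calc _ ≤ _ := this
    _ = _ := by ring

private theorem Conv_int {T : Set ℝ} {p q : ℕ} {β F : ℝ → Sym} (hβ : Rap T q β) (hF : Rap T p F)
    {τ : ℝ} (hτ : τ ∈ T) (t : ℝ) (ξ : ℝ × ℝ) :
    Integrable fun η => β τ t η * F τ t (ξ - η) := by
  obtain ⟨C, hC⟩ := Conv_dom hβ hF 0 |t|
  refine Integrable.mono' (integrable_w3.const_mul (C * τ ^ (p + q)))
    (Conv_cont_eta (hβ.1 τ hτ) (hF.1 τ hτ) t ξ).aestronglyMeasurable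
    (Eventually.of_forall fun η => ?_)
  simpa using hC τ hτ t ξ η le_rfl

private theorem Conv_rap {T : Set ℝ} {p q : ℕ} {β F : ℝ → Sym} (hβ : Rap T q β)
    (hF : Rap T p F) : Rap T (p + q) fun τ => conv (β τ) (F τ) := by
  refine ⟨fun τ hτ => ?_, fun s R => ?_⟩
  · refine continuous_iff_continuousAt.2 fun z₀ => ?_
    obtain ⟨C, hC⟩ := Conv_dom hβ hF 0 (|z₀.1| + 1)
    refine continuousAt_of_dominated (F := fun (z : ℝ × (ℝ × ℝ)) η => β τ z.1 η * F τ z.1 (z.2 - η))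
      (bound := fun η => C * τ ^ (p + q) * ((1 + ‖η‖) ^ 3)⁻¹)
      (Eventually.of_forall fun z =>
        (Conv_cont_eta (hβ.1 τ hτ) (hF.1 τ hτ) z.1 z.2).aestronglyMeasurable) ?_
      (integrable_w3.const_mul _) (Eventually.of_forall fun η => ?_)
    · have : ∀ᶠ z : ℝ × (ℝ × ℝ) in 𝓝 z₀, |z.1| < |z₀.1| + 1 :=
        (continuous_abs.comp continuous_fst).continuousAt.eventually_lt continuousAt_const
          (by simp)
      filter_upwards [this] with z hz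
      refine Eventually.of_forall fun η => ?_
      simpa using hC τ hτ z.1 z.2 η hz.le
    · exact ((Conv_cont (hβ.1 τ hτ) (hF.1 τ hτ)).comp
        (f := fun z : ℝ × (ℝ × ℝ) => (z, η)) (by fun_prop)).continuousAt
  · obtain ⟨C, hC⟩ := Conv_dom hβ hF s R
    refine ⟨C * c3, fun τ hτ t ξ ht => ?_⟩
    have hw : (0 : ℝ) < (1 + ‖ξ‖) ^ s := by positivity
    have h1 : ‖conv (β τ) (F τ) t ξ‖ ≤
        ∫ η : ℝ × ℝ, C * τ ^ (p + q) * ((1 + ‖ξ‖) ^ s)⁻¹ * ((1 + ‖η‖) ^ 3)⁻¹ := by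
      refine norm_integral_le_of_norm_le (integrable_w3.const_mul _)
        (Eventually.of_forall fun η => ?_)
      have := Conv_le_div hw (hC τ hτ t ξ η ht)
      calc _ ≤ _ := this
        _ = _ := by ring
    rw [integral_const_mul] at h1
    calc (1 + ‖ξ‖) ^ s * ‖conv (β τ) (F τ) t ξ‖
        ≤ (1 + ‖ξ‖) ^ s * (C * τ ^ (p + q) * ((1 + ‖ξ‖) ^ s)⁻¹ * c3) :=
          mul_le_mul_of_nonneg_left h1 hw.le
      _ = C * c3 * τ ^ (p + q) := by field_simp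

private theorem Conv_deriv {T : Set ℝ} {p q p' q' : ℕ} {β F β' F' : ℝ → Sym} (hβ : Rap T q β)
    (hF : Rap T p F) (hβ' : Rap T q' β') (hF' : Rap T p' F')
    (hdβ : ∀ τ ∈ T, ∀ t ξ, HasDerivAt (fun r => β τ r ξ) (β' τ t ξ) t)
    (hdF : ∀ τ ∈ T, ∀ t ξ, HasDerivAt (fun r => F τ r ξ) (F' τ t ξ) t)
    {τ : ℝ} (hτ : τ ∈ T) (t : ℝ) (ξ : ℝ × ℝ) :
    HasDerivAt (fun r => conv (β τ) (F τ) r ξ)
      (conv (β' τ) (F τ) t ξ + conv (β τ) (F' τ) t ξ) t := by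
  obtain ⟨C₁, h₁⟩ := Conv_dom hβ' hF 0 (|t| + 1)
  obtain ⟨C₂, h₂⟩ := Conv_dom hβ hF' 0 (|t| + 1)
  have hs : {r : ℝ | |r| < |t| + 1} ∈ 𝓝 t :=
    continuous_abs.continuousAt.eventually_lt continuousAt_const (by simp)
  have key := hasDerivAt_integral_of_dominated_loc_of_deriv_le (μ := (volume : Measure (ℝ × ℝ)))
    (F := fun r η => β τ r η * F τ r (ξ - η))
    (F' := fun r η => β' τ r η * F τ r (ξ - η) + β τ r η * F' τ r (ξ - η))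
    (bound := fun η => (C₁ * τ ^ (p + q') + C₂ * τ ^ (p' + q)) * ((1 + ‖η‖) ^ 3)⁻¹) hs
    (Eventually.of_forall fun r =>
      (Conv_cont_eta (hβ.1 τ hτ) (hF.1 τ hτ) r ξ).aestronglyMeasurable)
    (Conv_int hβ hF hτ t ξ)
    ((Conv_cont_eta (hβ'.1 τ hτ) (hF.1 τ hτ) t ξ).add
      (Conv_cont_eta (hβ.1 τ hτ) (hF'.1 τ hτ) t ξ)).aestronglyMeasurable
    (Eventually.of_forall fun η r hr => by
      have a1 := h₁ τ hτ r ξ η (le_of_lt hr)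
      have a2 := h₂ τ hτ r ξ η (le_of_lt hr)
      simp only [pow_zero, one_mul] at a1 a2
      calc _ ≤ _ := norm_add_le _ _
        _ ≤ _ := add_le_add a1 a2
        _ = _ := by ring)
    (integrable_w3.const_mul _)
    (Eventually.of_forall fun η r _ => (hdβ τ hτ r η).mul (hdF τ hτ r (ξ - η)))
  have := key.2
  rw [integral_add (Conv_int hβ' hF hτ t ξ) (Conv_int hβ hF' hτ t ξ)] at this
  exact this

theorem Tw.conv {T : Set ℝ} (hT : ∀ τ ∈ T, 1 ≤ τ) {n p q : ℕ} {β F : ℝ → Sym}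
    (hβ : Tw T n q β) (hF : Tw T n p F) : Tw T n (p + q) fun τ => conv (β τ) (F τ) := by
  induction n generalizing p q β F with
  | zero => exact Conv_rap hβ hF
  | succ n ih =>
    have hβ0 := hβ.of_le (Nat.le_succ n)
    have hF0 := hF.of_le (Nat.le_succ n)
    obtain ⟨hβr, β', hdβ, hβ'⟩ := hβ
    obtain ⟨hFr, F', hdF, hF'⟩ := hF
    refine ⟨Conv_rap hβr hFr,
      fun τ t ξ => R80.conv (β' τ) (F τ) t ξ + R80.conv (β τ) (F' τ) t ξ,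
      fun τ hτ t ξ => Conv_deriv hβr hFr hβ'.rap hF'.rap hdβ hdF hτ t ξ, ?_⟩
    have e1 := ih hβ' hF0
    have e2 := ih hβ0 hF'
    rw [show p + 1 + q = p + q + 1 by ring] at e2
    rw [show p + (q + 1) = p + q + 1 by ring] at e1
    exact e1.add e2

theorem synS_conv {u v : ℝ × ℝ → ℂ} (hu : Integrable u) (hv : Integrable v) (y : ℝ × ℝ) :
    synS (fun ξ => ∫ η, u η * v (ξ - η)) y = synS u y * synS v y := by
  set e : ℝ × ℝ → ℂ := fun ξ => Complex.exp (Complex.I * ((ξ.1 * y.1 + ξ.2 * y.2 : ℝ) : ℂ))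
    with he
  have hec : Continuous e := by rw [he]; fun_prop
  have hen : ∀ ξ, ‖e ξ‖ ≤ 1 := fun ξ => by
    rw [he]; simp only; rw [Complex.norm_exp_I_mul_ofReal]
  have hU : Integrable fun ξ => u ξ * e ξ :=
    hu.mul_bdd hec.aestronglyMeasurable (Eventually.of_forall hen)
  have hV : Integrable fun ξ => v ξ * e ξ :=
    hv.mul_bdd hec.aestronglyMeasurable (Eventually.of_forall hen)
  have hadd : ∀ ξ η : ℝ × ℝ, e ξ = e η * e (ξ - η) := fun ξ η => by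
    rw [he]; simp only
    rw [← Complex.exp_add]; congr 1
    simp only [Prod.fst_sub, Prod.snd_sub]; push_cast; ring
  have key := integral_convolution (ContinuousLinearMap.mul ℂ ℂ) hU hV
  simp only [ContinuousLinearMap.mul_apply'] at key
  show ∫ ξ, (∫ η, u η * v (ξ - η)) * e ξ = (∫ ξ, u ξ * e ξ) * ∫ ξ, v ξ * e ξ
  rw [← key]
  refine integral_congr_ae (Eventually.of_forall fun ξ => ?_)
  simp only [convolution_def, ContinuousLinearMap.mul_apply']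
  rw [← integral_mul_const]
  refine integral_congr_ae (Eventually.of_forall fun η => ?_)
  simp only
  rw [hadd ξ η]; ring

end Crest.Agent.R80
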