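import Crest.Agent.R80.Ob

/-! Row 80. `Ob D` as an abstract differential algebra `D.da`. -/

set_option autoImplicit false
open MeasureTheory Filter Topology Crest.AnalysisR.VecCalc3
open scoped ContDiff RealInnerProductSpace BoundedContinuousFunction Manifold

namespace Crest.Agent.R80

/-- Cut-off extension: a function smooth on an open neighbourhood of a closed set agrees near
that set with a globally smooth function. -/
theorem exists_smooth_ext {E F : Type*} [NormedAddCommGroup E] [NormedSpace ℝ E]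
    [FiniteDimensional ℝ E] [NormedAddCommGroup F] [NormedSpace ℝ F] {K U : Set E}
    (hK : IsClosed K) (hU : IsOpen U) (hKU : K ⊆ U) {f : E → F} (hf : ContDiffOn ℝ ∞ f U) :
    ∃ g : E → F, ContDiff ℝ ∞ g ∧ ∀ᶠ x in 𝓝ˢ K, g x = f x := by
  obtain ⟨χ, h0, h1, -⟩ := exists_contMDiffMap_zero_one_nhds_of_isClosed (n := ⊤) 𝓘(ℝ, E)
    hU.isClosed_compl hK (Set.disjoint_left.2 fun x hx hx' => hx (hKU hx'))
  have hχ : ContDiff ℝ ∞ χ := χ.contMDiff.contDiff
  refine ⟨fun x => χ x • f x, contDiff_iff_contDiffAt.2 fun x => ?_, h1.mono fun x hx => by simp [hx]⟩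
  by_cases hx : x ∈ U
  · exact hχ.contDiffAt.smul (hf.contDiffAt (hU.mem_nhds hx))
  · have h2 : ∀ᶠ y in 𝓝 x, χ y = 0 := h0.filter_mono (nhds_le_nhdsSet hx)
    exact (contDiffAt_const (c := (0 : F))).congr_of_eventuallyEq (h2.mono fun y hy => by simp [hy])

namespace Ob
variable {D : Dom}

/-- A smooth function without zeros on the closure is a unit. -/
theorem isUnit_mk {F : R3 → ℂ} (hF : ContDiff ℝ ∞ F) (h : ∀ x ∈ closure D.Ω, F x ≠ 0) :
    IsUnit (mk D F hF) := by
  obtain ⟨G, hG, hGF⟩ := exists_smooth_ext (K := closure D.Ω) (U := {x | F x ≠ 0})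
    isClosed_closure (isOpen_ne_fun hF.continuous continuous_const) h
    (f := fun x => (F x)⁻¹) (hF.contDiffOn.inv fun x hx => hx)
  refine IsUnit.of_mul_eq_one (mk D G hG) (ext fun x => ?_)
  have hx : (x : R3) ∈ closure D.Ω := subset_closure x.2
  have := hGF.self_of_nhdsSet x hx
  simp [this, h x hx]

theorem isUnit_one_add (f : Ob D) (hf : sup D f < 1) : IsUnit (1 + f) := by
  have hs : ContDiff ℝ ∞ fun x => 1 + f.rep x := contDiff_const.add f.rep_smooth
  have h1 : 1 + f = mk D _ hs := ext fun x => by simp [rep_val]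
  rw [h1]
  refine isUnit_mk hs fun x hx h0 => ?_
  have h2 : ‖f.rep x‖ ≤ sup D f := by
    refine (isClosed_le f.rep_smooth.continuous.norm continuous_const).closure_subset_iff.2 ?_ hx
    intro y hy
    simp only [Set.mem_ofPred_eq, rep_of_mem _ hy]
    exact f.norm_val_le _
  have h3 : f.rep x = -1 := by linear_combination h0
  rw [h3] at h2
  simp at h2
  linarith

theorem eq_zero_of_Int (f : Ob D) (h : ∀ F, Int D (f * F) = 0) : f = 0 := by
  have hc : ContDiff ℝ ∞ fun x => (starRingEnd ℂ) (f.rep x) :=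
    Complex.conjCLE.contDiff.comp f.rep_smooth
  have h1 := h (mk D _ hc)
  have h2 : f * mk D _ hc = mk D (fun x => f.rep x * (starRingEnd ℂ) (f.rep x))
      (f.rep_smooth.mul hc) := ext fun x => by simp [rep_val]
  rw [h2, Int_mk] at h1
  simp only [Complex.mul_conj, Complex.normSq_eq_norm_sq] at h1
  rw [integral_complex_ofReal, Complex.ofReal_eq_zero] at h1
  have hcont : Continuous fun x => ‖f.rep x‖ ^ 2 := f.rep_smooth.continuous.norm.pow 2
  have hint : IntegrableOn (fun x => ‖f.rep x‖ ^ 2) D.Ω :=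
    (hcont.continuousOn.integrableOn_compact D.bdd.isCompact_closure).mono_set subset_closure
  have h3 := (setIntegral_eq_zero_iff_of_nonneg_ae (Eventually.of_forall fun x => by positivity)
    hint).1 h1
  have h4 := Measure.eqOn_open_of_ae_eq h3 D.op hcont.continuousOn continuousOn_const
  refine ext fun x => ?_
  have := h4 x.2
  simp only [Pi.zero_apply, ne_eq, OfNat.ofNat_ne_zero, not_false_eq_true, pow_eq_zero_iff,
    norm_eq_zero] at this
  rw [← rep_val, this, val_zero]

/-- The linear form x ↦ ζ·x. -/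
noncomputable def lin (ζ : Fin 3 → ℂ) : R3 →L[ℝ] ℂ :=
  ∑ a, ζ a • Complex.ofRealCLM.comp (EuclideanSpace.proj a)

theorem exists_exp (ζ : Fin 3 → ℂ) : ∃ E E' : Ob D, E * E' = 1 ∧ ∀ i, d D i E = ζ i • E := by
  have h1 : ContDiff ℝ ∞ fun x => Complex.exp (lin ζ x) := (lin ζ).contDiff.cexp
  have h2 : ContDiff ℝ ∞ fun x => Complex.exp (-lin ζ x) := (lin ζ).contDiff.neg.cexp
  refine ⟨mk D _ h1, mk D _ h2, ext fun x => by simp [← Complex.exp_add], fun i => ?_⟩
  rw [d_mk]
  refine ext fun x => ?_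
  have h3 := ((lin ζ).hasFDerivAt (x := (x : R3))).cexp
  simp only [val_mk, val_smul, pd, h3.fderiv]
  fin_cases i <;> simp [lin, Fin.sum_univ_three, mul_comm]

end Ob

/-- The concrete differential algebra of the domain. -/
noncomputable def Dom.da (D : Dom) : DA (Ob D) where
  d := Ob.d D
  comm := Ob.d_comm
  cont := Ob.continuous_d
  I := Ob.Int D
  contI := Ob.continuous_Int
  ρ := Ob.sup D
  ν := Ob.nu D
  ρ_mul f g := by
    simp only [Ob.sup_apply, map_mul]
    exact norm_mul_le _ _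
  I_le := ⟨(volume D.Ω).toReal, ENNReal.toReal_nonneg, Ob.norm_Int_le⟩
  unit := Ob.isUnit_one_add
  nd := Ob.eq_zero_of_Int
  ex := Ob.exists_exp

@[simp] theorem Dom.da_d (D : Dom) : D.da.d = Ob.d D := rfl
@[simp] theorem Dom.da_I (D : Dom) : D.da.I = Ob.Int D := rfl
@[simp] theorem Dom.da_ρ (D : Dom) : D.da.ρ = Ob.sup D := rfl
@[simp] theorem Dom.da_ν (D : Dom) : D.da.ν = Ob.nu D := rfl

end Crest.Agent.R80
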