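import Mathlib

/-!
Row 80 (elastic inverse boundary problem). Abstract part: a commutative differential algebra `O`
(model: smooth functions on the closed domain), the Lamé system, the Ikehata reduction, the two
transport systems and the statements that connect the pieces.
-/

set_option autoImplicit false
open Filter Topology Matrix

namespace Crest.Agent.R80

/-- Index of a pair (vector, scalar): `some a` is the vector slot `a`, `none` the scalar slot. -/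
abbrev I4 := Option (Fin 3)

/-- Normalised null vector: θ·θ = 0 and |θ|² = 2. -/
def NNull (θ : Fin 3 → ℂ) : Prop := ∑ i, θ i ^ 2 = 0 ∧ ∑ i, ‖θ i‖ ^ 2 = 2

/-- Nonzero null vector. -/
def Null (θ : Fin 3 → ℂ) : Prop := ∑ i, θ i ^ 2 = 0 ∧ θ ≠ 0

/-- Differential algebra with three commuting derivations, an integral and two seminorms
(`ρ` is the sup norm, `ν` a Fourier-side norm). -/
structure DA (O : Type) [CommRing O] [Algebra ℂ O] [TopologicalSpace O] where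
  d : Fin 3 → Derivation ℂ O O
  comm : ∀ i j f, d i (d j f) = d j (d i f)
  cont : ∀ i, Continuous (d i)
  I : O →ₗ[ℂ] ℂ
  contI : Continuous I
  ρ : Seminorm ℂ O
  ν : Seminorm ℂ O
  ρ_mul : ∀ f g, ρ (f * g) ≤ ρ f * ρ g
  I_le : ∃ C : ℝ, 0 ≤ C ∧ ∀ f, ‖I f‖ ≤ C * ρ f
  unit : ∀ f, ρ f < 1 → IsUnit (1 + f)
  nd : ∀ f, (∀ F, I (f * F) = 0) → f = 0
  ex : ∀ ζ : Fin 3 → ℂ, ∃ E E' : O, E * E' = 1 ∧ ∀ i, d i E = ζ i • E

/-- Lamé moduli in `O`: μ = g², h = 1/g, σ = (λ+2μ)/μ, σ' = 1/σ, k' = 1/(1-σ'). -/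
structure Mod (O : Type) [CommRing O] where
  g : O
  h : O
  σ : O
  σ' : O
  k' : O
  gh : g * h = 1
  σσ' : σ * σ' = 1
  kk' : (1 - σ') * k' = 1

namespace Mod
variable {O : Type} [CommRing O] (M : Mod O)
/-- μ -/
def mu : O := M.g * M.g
/-- λ -/
def lam : O := (M.σ - 2) * (M.g * M.g)
/-- k = (λ+μ)/(λ+2μ) -/
def k : O := 1 - M.σ'
/-- m = 1/μ -/
def m : O := M.h * M.h
end Mod

namespace DA
variable {O : Type} [CommRing O] [Algebra ℂ O] [TopologicalSpace O] (S : DA O)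

/-- ∂ = θ·∇ -/
noncomputable def dd (θ : Fin 3 → ℂ) : Derivation ℂ O O := ∑ i, θ i • S.d i

/-- Laplacian -/
noncomputable def lap (f : O) : O := ∑ i, S.d i (S.d i f)

/-- divergence -/
noncomputable def div (u : Fin 3 → O) : O := ∑ i, S.d i (u i)

/-- First-order solver with bounds uniform over normalised null vectors. -/
def FO : Prop :=
  ∀ (ι : Type) [Fintype ι] [DecidableEq ι] (M : ℝ), ∃ C : ℝ, ∀ θ, NNull θ →
    ∀ (B : Matrix ι ι O) (φ : ι → O), (∀ i j, S.ν (B i j) ≤ M) → (∀ i, S.ν (φ i) ≤ M) →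
      ∃ ψ : ι → O, (∀ i, S.dd θ (ψ i) + ∑ j, B i j * ψ j = φ i) ∧ ∀ i, S.ρ (ψ i) ≤ C

section
variable {ι : Type} [Fintype ι]

/-- The operator Δ + A·∇ + V conjugated by exp(ζ·x), ζ null. -/
noncomputable def opL (A : Fin 3 → Matrix ι ι O) (V : Matrix ι ι O) (ζ : Fin 3 → ℂ) (y : ι → O)
    (i : ι) : O :=
  S.lap (y i) + 2 * S.dd ζ (y i) + ∑ k, ∑ j, A k i j * (S.d k (y j) + ζ k • y j)
    + ∑ j, V i j * y j

/-- The transport operator 2∂ + A·θ. -/
noncomputable def trans (A : Fin 3 → Matrix ι ι O) (θ : Fin 3 → ℂ) (y : ι → O) (i : ι) : O :=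
  2 * S.dd θ (y i) + ∑ k, ∑ j, A k i j * (θ k • y j)
end

/-- Second-order solver with polynomial bounds in τ (exponent independent of the source). -/
def SO : Prop :=
  ∀ (ι : Type) [Fintype ι] [DecidableEq ι] (A : Fin 3 → Matrix ι ι O) (V : Matrix ι ι O)
    (θ : Fin 3 → ℂ), NNull θ → ∀ W ∈ 𝓝 (0 : ι → O), ∃ N : ℕ, ∀ f : ι → O,
      ∀ᶠ τ : ℝ in atTop, ∃ a : ι → O, S.opL A V ((τ : ℂ) • θ) a = f ∧ ((τ : ℂ) ^ N)⁻¹ • a ∈ W

/-- L a = ∂ₐ log μ -/
noncomputable def L (M : Mod O) (a : Fin 3) : O := 2 * M.h * S.d a M.g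

/-- W a b = μ ∂ₐ∂_b (1/μ) -/
noncomputable def W (M : Mod O) (a b : Fin 3) : O := M.mu * S.d a (S.d b M.m)

/-- Stress tensor of exp(ζ·x) u, divided by exp(ζ·x). -/
noncomputable def stress (M : Mod O) (ζ : Fin 3 → ℂ) (u : Fin 3 → O) (i j : Fin 3) : O :=
  (if i = j then M.lam * (S.div u + ∑ a, ζ a • u a) else 0)
    + M.mu * (S.d i (u j) + ζ i • u j + S.d j (u i) + ζ j • u i)

/-- Lamé operator conjugated by exp(ζ·x). -/
noncomputable def Lop (M : Mod O) (ζ : Fin 3 → ℂ) (u : Fin 3 → O) (i : Fin 3) : O :=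
  ∑ j, (S.d j (S.stress M ζ u i j) + ζ j • S.stress M ζ u i j)

/-- Energy density bilinear form σ(u) : ∇v. -/
noncomputable def B (M : Mod O) (u v : Fin 3 → O) : O :=
  ∑ i, ∑ j, S.stress M 0 u i j * S.d i (v j)

/-- The integral identity coming from equal boundary data. -/
def ID (M₁ M₂ : Mod O) : Prop :=
  ∀ u v : Fin 3 → O, S.Lop M₁ 0 u = 0 → S.Lop M₂ 0 v = 0 → S.I (S.B M₁ u v - S.B M₂ v u) = 0

/-- g₁ - g₂ vanishes on the boundary: derivatives of its multiples integrate to zero. -/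
def IBP (M₁ M₂ : Mod O) : Prop := ∀ i f, S.I (S.d i ((M₁.g - M₂.g) * f)) = 0

/-- First-order coefficients of the Ikehata system. -/
noncomputable def ikeA (M : Mod O) (c : Fin 3) : Matrix I4 I4 O := Matrix.of fun i j =>
  match i, j with
  | some a, some b => if c = b then -S.L M a else 0
  | some a, none => -(2 * M.h * S.W M a c)
  | none, some b => if c = b then M.g * M.k else 0
  | none, none => 0

/-- Zero-order coefficients of the Ikehata system. -/
noncomputable def ikeV (M : Mod O) : Matrix I4 I4 O := Matrix.of fun i j =>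
  match i, j with
  | some a, some b => -(if a = b then M.h * S.lap M.g else 0) - 2 * M.h * S.d a (S.d b M.g)
  | some a, none => -(2 * M.h * ∑ c, S.d c (S.W M a c))
  | none, some b => (3 * M.σ' - 1) * S.d b M.g
  | none, none => -((1 - 2 * M.σ') * M.mu * S.lap M.m)

/-- Ikehata's displacement h w + m ∇f - f ∇m for (w, f) = exp(ζ·x) y, divided by exp(ζ·x). -/
noncomputable def ike (M : Mod O) (ζ : Fin 3 → ℂ) (y : I4 → O) (i : Fin 3) : O :=
  M.h * y (some i) + M.m * (S.d i (y none) + ζ i • y none) - y none * S.d i M.m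

/-- First transport system, on (U, P) with θ·U = 0. -/
noncomputable def A1 (M : Mod O) (θ : Fin 3 → ℂ) : Matrix I4 I4 O := Matrix.of fun i j =>
  match i, j with
  | some a, some b => -(if a = b then ∑ c, (θ c / 2) • S.L M c else 0) - (θ a / 2) • S.L M b
  | some a, none => -((θ a / 2) • M.k)
  | none, some b => ∑ c, θ c • S.W M b c
  | none, none => 0

/-- Second transport system (Ikehata's), on (r, s). -/
noncomputable def A2 (M : Mod O) (θ : Fin 3 → ℂ) : Matrix I4 I4 O := Matrix.of fun i j =>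
  match i, j with
  | some a, some b => (θ b / 2) • S.L M a
  | some a, none => ∑ c, θ c • (M.h * S.W M a c)
  | none, some b => -((θ b / 2) • (M.g * M.k))
  | none, none => 0

/-- The bilinear current j, as a linear function of the tensor ψ. -/
noncomputable def jf (M₁ M₂ : Mod O) (ψ : Matrix I4 I4 O) : O :=
  M₁.g * ∑ a, ψ (some a) (some a)
    - M₁.g * M₂.h * (ψ none none + ∑ a, (S.L M₁ a - S.L M₂ a) * ψ (some a) none)

/-- The tensor transport operator ψ ↦ ∂ψ - A₁ψ - ψA₂ᵀ. -/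
noncomputable def Pop (M₁ M₂ : Mod O) (θ : Fin 3 → ℂ) (ψ : Matrix I4 I4 O) : Matrix I4 I4 O :=
  ψ.map (S.dd θ) - S.A1 M₁ θ * ψ - ψ * (S.A2 M₂ θ)ᵀ

end DA

section
variable {O : Type} [CommRing O] [Algebra ℂ O]

/-- θ·U = 0 for the vector part of `v`. -/
def ConsV (θ : Fin 3 → ℂ) (v : I4 → O) : Prop := ∑ a, θ a • v (some a) = 0

/-- θ·U = 0 in the first slot of the tensor ψ. -/
def Cons (θ : Fin 3 → ℂ) (ψ : Matrix I4 I4 O) : Prop := ∀ c, ∑ a, θ a • ψ (some a) c = 0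

/-- constant vector ⊗ function vector -/
def tens (v : I4 → ℂ) (y : I4 → O) : Matrix I4 I4 O := Matrix.of fun i j => v i • y j
end

/-- (0, 1) -/
def eP : I4 → ℂ := fun i => match i with | none => 1 | some _ => 0

/-- (u, 0) -/
def eU (u : Fin 3 → ℂ) : I4 → ℂ := fun i => match i with | none => 0 | some a => u a

/-- Holomorphic parametrisation of the null cone. -/
noncomputable def θz (z : ℂ) : Fin 3 → ℂ := ![1 - z ^ 2, Complex.I * (1 + z ^ 2), 2 * z]

/-- First frame vector of θ(z)^⊥. -/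
noncomputable def e0 (z : ℂ) : Fin 3 → ℂ := ![1, Complex.I, z]

/-- Second frame vector of θ(z)^⊥; θ = e0 + z e1. -/
noncomputable def e1 (z : ℂ) : Fin 3 → ℂ := ![-z, Complex.I * z, 1]

namespace DA
variable {O : Type} [CommRing O] [Algebra ℂ O] [TopologicalSpace O] (S : DA O)

/-- The key identity for the direction θ. -/
def KEY (M₁ M₂ : Mod O) (θ : Fin 3 → ℂ) : Prop :=
  ∀ ψ, Cons θ ψ → S.Pop M₁ M₂ θ ψ = 0 → S.I (S.dd θ (S.jf M₁ M₂ ψ)) = 0

/-- `y = (U, P)` solves the first transport system and is the leading amplitude of exact solutions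
exp(τθ·x) a of the Lamé system: a → U and τθ·a → P/σ - div U. -/
def Amp (M : Mod O) (θ : Fin 3 → ℂ) (y : I4 → O) : Prop :=
  ConsV θ y ∧ (∀ i, S.dd θ (y i) = (S.A1 M θ *ᵥ y) i) ∧
    ∀ W ∈ 𝓝 ((fun a => y (some a), M.σ' * y none - S.div fun a => y (some a)) : (Fin 3 → O) × O),
      ∀ᶠ τ : ℝ in atTop, ∃ p ∈ W, (τ : ℂ) • ∑ a, θ a • p.1 a = p.2 ∧
        S.Lop M ((τ : ℂ) • θ) p.1 = 0

/-- The functionals G θ. -/
structure GData (M₁ M₂ : Mod O) (G : (Fin 3 → ℂ) → Matrix I4 I4 O →ₗ[ℂ] ℂ) : Prop where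
  eq : ∀ θ, Null θ → ∀ ψ, Cons θ ψ → G θ (S.Pop M₁ M₂ θ ψ) = S.I (S.dd θ (S.jf M₁ M₂ ψ))
  surj : ∀ θ, Null θ → ∀ F, Cons θ F → ∃ ψ, Cons θ ψ ∧ S.Pop M₁ M₂ θ ψ = F
  bound : ∀ M : ℝ, ∃ C : ℝ, ∀ θ, Null θ → ∀ F, Cons θ F →
    (∀ i j, S.ν (F i j) ≤ M ∧ S.ρ (F i j) ≤ M) → ‖G θ F‖ ≤ C

end DA

/-- What Liouville's theorem gives for the functionals along θ(z). -/
structure Liou {O : Type} [CommRing O] [Algebra ℂ O]
    (G : (Fin 3 → ℂ) → Matrix I4 I4 O →ₗ[ℂ] ℂ) : Prop where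
  cst : ∀ (y : I4 → O) (z : ℂ), G (θz z) (tens eP y) = G (θz 0) (tens eP y)
  lin0 : ∀ y : I4 → O, ∃ a b : ℂ, ∀ z, G (θz z) (tens (eU (e0 z)) y) = a + b * z
  lin1 : ∀ y : I4 → O, ∃ a b : ℂ, ∀ z, G (θz z) (tens (eU (e1 z)) y) = a + b * z

end Crest.Agent.R80
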