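import Crest.Agent.R80.TwAlg

/-! Row 80: partial Fourier representation in an orthonormal frame. -/

set_option autoImplicit false
open MeasureTheory Filter Topology Crest.AnalysisR.VecCalc3
open scoped ContDiff RealInnerProductSpace

namespace Crest.Agent.R80

/-- The frequency with coordinates (s, ξ) in the frame `b`. -/
noncomputable def repEta (b : OrthonormalBasis (Fin 3) ℝ R3) (p : ℝ × ℝ × ℝ) : R3 :=
  p.1 • b 0 + p.2.1 • b 1 + p.2.2 • b 2

theorem rep_eta_eq (b : OrthonormalBasis (Fin 3) ℝ R3) (p : ℝ × ℝ × ℝ) :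
    repEta b p = b.repr.symm (WithLp.toLp 2 ![p.1, p.2.1, p.2.2]) := by
  rw [← b.sum_repr_symm]
  simp [repEta, Fin.sum_univ_three]

theorem rep_norm_sq (b : OrthonormalBasis (Fin 3) ℝ R3) (p : ℝ × ℝ × ℝ) :
    ‖repEta b p‖ ^ 2 = p.1 ^ 2 + p.2.1 ^ 2 + p.2.2 ^ 2 := by
  rw [rep_eta_eq, LinearIsometryEquiv.norm_map, EuclideanSpace.real_norm_sq_eq]
  simp [Fin.sum_univ_three]

theorem rep_fst_le (b : OrthonormalBasis (Fin 3) ℝ R3) (p : ℝ × ℝ × ℝ) :
    |p.1| ≤ ‖repEta b p‖ :=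
  abs_le_of_sq_le_sq' (by rw [rep_norm_sq]; nlinarith [sq_nonneg p.2.1, sq_nonneg p.2.2])
    (norm_nonneg _) |> abs_le.2

theorem rep_snd_le (b : OrthonormalBasis (Fin 3) ℝ R3) (p : ℝ × ℝ × ℝ) :
    ‖p.2‖ ≤ ‖repEta b p‖ := by
  rw [Prod.norm_def, Real.norm_eq_abs, Real.norm_eq_abs]
  refine max_le (abs_le.2 (abs_le_of_sq_le_sq' ?_ (norm_nonneg _)))
    (abs_le.2 (abs_le_of_sq_le_sq' ?_ (norm_nonneg _))) <;> rw [rep_norm_sq] <;>
    nlinarith [sq_nonneg p.1, sq_nonneg p.2.1, sq_nonneg p.2.2]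

theorem rep_cont (b : OrthonormalBasis (Fin 3) ℝ R3) : Continuous (repEta b) := by
  unfold repEta
  fun_prop

theorem rep_mp (b : OrthonormalBasis (Fin 3) ℝ R3) : MeasurePreserving (repEta b) := by
  have h1 := (volume_preserving_piFinSuccAbove (fun _ : Fin 3 => ℝ) 0).symm
  have h2 : MeasurePreserving (Prod.map id (MeasurableEquiv.finTwoArrow (α := ℝ)).symm :
      ℝ × ℝ × ℝ → ℝ × (Fin 2 → ℝ)) :=
    (MeasurePreserving.id volume).prod (volume_preserving_finTwoArrow ℝ).symm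
  have h3 := b.measurePreserving_repr_symm.comp
    ((PiLp.volume_preserving_toLp (Fin 3)).comp (h1.comp h2))
  have e : repEta b = b.repr.symm ∘ WithLp.toLp 2 ∘
      (MeasurableEquiv.piFinSuccAbove (fun _ : Fin 3 => ℝ) 0).symm ∘
        Prod.map id (MeasurableEquiv.finTwoArrow (α := ℝ)).symm := by
    ext1 p
    rw [rep_eta_eq]
    simp only [Function.comp_apply]
    congr 2
    ext i
    fin_cases i <;> rfl
  rw [e]
  exact h3

theorem rep_me (b : OrthonormalBasis (Fin 3) ℝ R3) : MeasurableEmbedding (repEta b) := by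
  refine (rep_cont b).measurableEmbedding fun p q hpq => ?_
  rw [rep_eta_eq, rep_eta_eq] at hpq
  have h := WithLp.toLp_injective 2 (b.repr.symm.injective hpq)
  exact Prod.ext (congrFun h 0) (Prod.ext (congrFun h 1) (congrFun h 2))

/-- The integrand of the k-th t-derivative. -/
noncomputable def repInt (b : OrthonormalBasis (Fin 3) ℝ R3) (G : R3 → ℂ) (k : ℕ) (t : ℝ)
    (ξ : ℝ × ℝ) (s : ℝ) : ℂ :=
  (Complex.I * s) ^ k * G (repEta b (s, ξ)) * Complex.exp (Complex.I * s * t)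

theorem rep_bound (b : OrthonormalBasis (Fin 3) ℝ R3) {G : R3 → ℂ} {C : ℝ} (r k : ℕ)
    (h : ∀ η, (1 + ‖η‖) ^ (r + k + 2) * ‖G η‖ ≤ C) (t : ℝ) (ξ : ℝ × ℝ) (s : ℝ) :
    (1 + ‖ξ‖) ^ r * ‖repInt b G k t ξ s‖ ≤ C * (1 + s ^ 2)⁻¹ := by
  have h1 : |s| ≤ ‖repEta b (s, ξ)‖ := rep_fst_le b (s, ξ)
  have h2 : ‖ξ‖ ≤ ‖repEta b (s, ξ)‖ := rep_snd_le b (s, ξ)
  have he : ‖Complex.exp (Complex.I * s * t)‖ = 1 := by
    rw [mul_assoc, ← Complex.ofReal_mul, mul_comm, Complex.norm_exp_ofReal_mul_I]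
  have h3 : 1 + s ^ 2 ≤ (1 + ‖repEta b (s, ξ)‖) ^ 2 := by
    nlinarith [sq_abs s, abs_nonneg s]
  rw [← div_eq_mul_inv, le_div_iff₀ (by positivity)]
  refine le_trans ?_ (h (repEta b (s, ξ)))
  simp only [repInt, norm_mul, he, norm_pow, Complex.norm_I, Complex.norm_real, Real.norm_eq_abs,
    one_mul, mul_one, pow_add]
  calc (1 + ‖ξ‖) ^ r * (|s| ^ k * ‖G (repEta b (s, ξ))‖) * (1 + s ^ 2)
      ≤ (1 + ‖repEta b (s, ξ)‖) ^ r * ((1 + ‖repEta b (s, ξ)‖) ^ k * ‖G (repEta b (s, ξ))‖) *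
        (1 + ‖repEta b (s, ξ)‖) ^ 2 := by
        gcongr
        linarith
    _ = _ := by ring

theorem rep_bound0 (b : OrthonormalBasis (Fin 3) ℝ R3) {G : R3 → ℂ}
    (h : ∀ s : ℕ, ∃ C : ℝ, ∀ η, (1 + ‖η‖) ^ s * ‖G η‖ ≤ C) (k : ℕ) :
    ∃ C : ℝ, ∀ t ξ s, ‖repInt b G k t ξ s‖ ≤ C * (1 + s ^ 2)⁻¹ := by
  obtain ⟨C, hC⟩ := h (0 + k + 2)
  exact ⟨C, fun t ξ s => by simpa using rep_bound b 0 k hC t ξ s⟩

theorem rep_cont_int (b : OrthonormalBasis (Fin 3) ℝ R3) {G : R3 → ℂ} (hG : Continuous G)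
    (k : ℕ) (s : ℝ) : Continuous fun q : ℝ × ℝ × ℝ => repInt b G k q.1 q.2 s := by
  have := rep_cont b
  unfold repInt
  fun_prop

theorem rep_cont_s (b : OrthonormalBasis (Fin 3) ℝ R3) {G : R3 → ℂ} (hG : Continuous G)
    (k : ℕ) (t : ℝ) (ξ : ℝ × ℝ) : Continuous (repInt b G k t ξ) := by
  have := rep_cont b
  unfold repInt
  fun_prop

theorem rep_int_bound (b : OrthonormalBasis (Fin 3) ℝ R3) {G : R3 → ℂ} {C : ℝ} (r k : ℕ)
    (h : ∀ η, (1 + ‖η‖) ^ (r + k + 2) * ‖G η‖ ≤ C) (t : ℝ) (ξ : ℝ × ℝ) :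
    (1 + ‖ξ‖) ^ r * ‖∫ s, repInt b G k t ξ s‖ ≤ 4 * C := by
  have hC : 0 ≤ C := le_trans (by positivity) (h 0)
  have hp : (0 : ℝ) < (1 + ‖ξ‖) ^ r := by positivity
  have h1 := norm_integral_le_of_norm_le (μ := volume) (f := repInt b G k t ξ)
    (integrable_inv_one_add_sq.const_mul (C / (1 + ‖ξ‖) ^ r)) (Eventually.of_forall fun s => by
      rw [div_mul_eq_mul_div, le_div_iff₀' hp]
      exact rep_bound b r k h t ξ s)
  rw [integral_const_mul, integral_univ_inv_one_add_sq, div_mul_eq_mul_div, le_div_iff₀' hp] at h1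
  nlinarith [Real.pi_le_four]

theorem rep_tw (b : OrthonormalBasis (Fin 3) ℝ R3) {G : R3 → ℂ} (hG : Continuous G)
    (h : ∀ s : ℕ, ∃ C : ℝ, ∀ η, (1 + ‖η‖) ^ s * ‖G η‖ ≤ C) (n : ℕ) :
    ∀ k p, Tw {1} n p fun _ t ξ => ∫ s, repInt b G k t ξ s := by
  have hR : ∀ k p, Rap {1} p fun _ t ξ => ∫ s, repInt b G k t ξ s := by
    intro k p
    refine ⟨fun _ _ => ?_, fun r R => ?_⟩
    · obtain ⟨C, hC⟩ := rep_bound0 b h k
      refine continuous_of_dominated (bound := fun s => C * (1 + s ^ 2)⁻¹)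
        (fun q => (rep_cont_s b hG k q.1 q.2).aestronglyMeasurable)
        (fun q => Eventually.of_forall (hC q.1 q.2)) (integrable_inv_one_add_sq.const_mul C)
        (Eventually.of_forall (rep_cont_int b hG k))
    · obtain ⟨C, hC⟩ := h (r + k + 2)
      refine ⟨4 * C, fun τ hτ t ξ _ => ?_⟩
      rw [Set.mem_singleton_iff.1 hτ, one_pow, mul_one]
      exact rep_int_bound b r k hC t ξ
  induction n with
  | zero => exact hR
  | succ n ih =>
    intro k p
    refine ⟨hR k p, fun _ t ξ => ∫ s, repInt b G (k + 1) t ξ s, fun _ _ t ξ => ?_, ih _ _⟩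
    obtain ⟨C, hC⟩ := rep_bound0 b h k
    obtain ⟨C', hC'⟩ := rep_bound0 b h (k + 1)
    refine (hasDerivAt_integral_of_dominated_loc_of_deriv_le (μ := volume) (s := Set.univ)
      (F := fun r s => repInt b G k r ξ s) (F' := fun r s => repInt b G (k + 1) r ξ s)
      (bound := fun s => C' * (1 + s ^ 2)⁻¹) univ_mem
      (Eventually.of_forall fun r => (rep_cont_s b hG k r ξ).aestronglyMeasurable)
      ((integrable_inv_one_add_sq.const_mul C).mono' (rep_cont_s b hG k t ξ).aestronglyMeasurable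
        (Eventually.of_forall (hC t ξ)))
      (rep_cont_s b hG (k + 1) t ξ).aestronglyMeasurable
      (Eventually.of_forall fun s r _ => hC' r ξ s) (integrable_inv_one_add_sq.const_mul C')
      (Eventually.of_forall fun s r _ => ?_)).2
    have h1 : HasDerivAt (fun r : ℝ => Complex.I * s * (r : ℂ)) (Complex.I * s * 1) r :=
      (Complex.ofRealCLM.hasDerivAt (x := r)).const_mul _
    refine (h1.cexp.const_mul ((Complex.I * s) ^ k * G (repEta b (s, ξ)))).congr_deriv ?_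
    unfold repInt
    ring

theorem exists_sym (b : OrthonormalBasis (Fin 3) ℝ R3) {Ω : Set R3} {F G : R3 → ℂ} {M : ℝ}
    (h : FRep Ω F G M) : ∃ β : Sym, Nice β ∧ (∀ t ξ, (1 + ‖ξ‖) ^ 6 * ‖β t ξ‖ ≤ 4 * M) ∧
      ∀ x ∈ Ω, Syn b β x = F x := by
  obtain ⟨hG, h2, h3, h4⟩ := h
  refine ⟨fun t ξ => ∫ s, repInt b G 0 t ξ s, fun n => rep_tw b hG h2 n 0 0,
    fun t ξ => rep_int_bound b 6 0 h3 t ξ, fun x hx => ?_⟩
  have hi : Integrable fun η => G η * Complex.exp (Complex.I * ((⟪η, x⟫ : ℝ) : ℂ)) := by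
    have h1 := (integrable_one_add_norm (E := R3) (μ := volume) (r := 8)
      (by simp; norm_num)).const_mul M
    refine h1.mono' (Continuous.aestronglyMeasurable (by fun_prop))
      (Eventually.of_forall fun η => ?_)
    have h2 : (0 : ℝ) < 1 + ‖η‖ := by positivity
    rw [norm_mul, mul_comm Complex.I, Complex.norm_exp_ofReal_mul_I, mul_one, Real.rpow_neg h2.le,
      ← div_eq_mul_inv, le_div_iff₀ (by positivity), mul_comm]
    exact_mod_cast h3 η
  have hi' : Integrable (fun p => G (repEta b p) *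
      Complex.exp (Complex.I * ((⟪repEta b p, x⟫ : ℝ) : ℂ))) (volume.prod volume) :=
    ((rep_mp b).integrable_comp_emb (rep_me b)).2 hi
  rw [h4 x hx, ← (rep_mp b).integral_comp (rep_me b), Measure.volume_eq_prod,
    integral_prod_symm _ hi']
  unfold Syn synS
  refine integral_congr_ae (Eventually.of_forall fun ξ => ?_)
  simp only
  rw [← integral_mul_const]
  refine integral_congr_ae (Eventually.of_forall fun s => ?_)
  simp only [repInt, pow_zero, one_mul, mul_assoc, ← Complex.exp_add, repEta, inner_add_left,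
    real_inner_smul_left]
  congr 2
  push_cast
  ring

end Crest.Agent.R80
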