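import Crest.Agent.R80.TwAlg

/-! Row 80: synthesis of symbols: linearity, derivatives, bounds. -/

set_option autoImplicit false
open MeasureTheory Filter Topology Crest.AnalysisR.VecCalc3
open scoped ContDiff RealInnerProductSpace

namespace Crest.Agent.R80

private noncomputable def SynL_e (y ξ : ℝ × ℝ) : ℂ :=
  Complex.exp (Complex.I * ((ξ.1 * y.1 + ξ.2 * y.2 : ℝ) : ℂ))

private theorem SynL_e_cont : Continuous fun z : (ℝ × ℝ) × (ℝ × ℝ) => SynL_e z.1 z.2 := by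
  unfold SynL_e; fun_prop

private theorem SynL_e_cont' (y : ℝ × ℝ) : Continuous (SynL_e y) := by
  unfold SynL_e; fun_prop

private theorem SynL_e_norm (y ξ : ℝ × ℝ) : ‖SynL_e y ξ‖ = 1 := by
  unfold SynL_e; rw [Complex.norm_exp_I_mul_ofReal]

private theorem SynL_int {u : ℝ × ℝ → ℂ} (hu : Integrable u) (y : ℝ × ℝ) :
    Integrable fun ξ => u ξ * SynL_e y ξ :=
  hu.mul_bdd (c := 1) (SynL_e_cont' y).aestronglyMeasurable
    (Eventually.of_forall fun ξ => (SynL_e_norm y ξ).le)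

private theorem SynL_def (u : ℝ × ℝ → ℂ) (y : ℝ × ℝ) : synS u y = ∫ ξ, u ξ * SynL_e y ξ := rfl

private theorem SynL_le_div {z : ℝ} {w c : ℝ} (hw : 0 < w) (h : w * z ≤ c) : z ≤ c * w⁻¹ := by
  rw [← div_eq_mul_inv, le_div_iff₀ hw, mul_comm]; exact h

theorem synS_add {u v : ℝ × ℝ → ℂ} (hu : Integrable u) (hv : Integrable v) (y : ℝ × ℝ) :
    synS (fun ξ => u ξ + v ξ) y = synS u y + synS v y := by
  simp only [SynL_def, add_mul]
  exact integral_add (SynL_int hu y) (SynL_int hv y)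

theorem synS_const_mul (c : ℂ) (u : ℝ × ℝ → ℂ) (y : ℝ × ℝ) :
    synS (fun ξ => c * u ξ) y = c * synS u y := by
  simp only [SynL_def, mul_assoc]
  exact integral_const_mul c _

theorem synS_sum {ι : Type*} (s : Finset ι) {u : ι → ℝ × ℝ → ℂ} (hu : ∀ i ∈ s, Integrable (u i))
    (y : ℝ × ℝ) : synS (fun ξ => ∑ i ∈ s, u i ξ) y = ∑ i ∈ s, synS (u i) y := by
  simp only [SynL_def, Finset.sum_mul]
  exact integral_finsetSum s fun i hi => SynL_int (hu i hi) y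

theorem synS_norm_le {u : ℝ × ℝ → ℂ} {c : ℝ} (h : ∀ ξ, (1 + ‖ξ‖) ^ 3 * ‖u ξ‖ ≤ c) (y : ℝ × ℝ) :
    ‖synS u y‖ ≤ c * c3 := by
  rw [SynL_def, c3, ← integral_const_mul]
  refine norm_integral_le_of_norm_le (integrable_w3.const_mul c) (Eventually.of_forall fun ξ => ?_)
  rw [norm_mul, SynL_e_norm, mul_one]
  exact SynL_le_div (by positivity) (h ξ)

/-- The symbol of the i-th partial derivative of `Syn b a`, where `a'` is the t-derivative. -/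
noncomputable def dSym (b : Fin 3 → R3) (i : Fin 3) (a a' : Sym) : Sym := fun t ξ =>
  (b 0 i : ℂ) * a' t ξ + Complex.I * ((ξ.1 * b 1 i + ξ.2 * b 2 i : ℝ) : ℂ) * a t ξ

/-- The derivative (in x) of the integrand of `Syn`. -/
private noncomputable def SynL_D (b : Fin 3 → R3) (a a' : Sym) (x : R3) (ξ : ℝ × ℝ) :
    R3 →L[ℝ] ℂ :=
  (innerSL ℝ (b 0)).smulRight (a' ⟪b 0, x⟫ ξ * SynL_e (⟪b 1, x⟫, ⟪b 2, x⟫) ξ) +
    (innerSL ℝ (b 1)).smulRight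
      (Complex.I * ξ.1 * a ⟪b 0, x⟫ ξ * SynL_e (⟪b 1, x⟫, ⟪b 2, x⟫) ξ) +
    (innerSL ℝ (b 2)).smulRight
      (Complex.I * ξ.2 * a ⟪b 0, x⟫ ξ * SynL_e (⟪b 1, x⟫, ⟪b 2, x⟫) ξ)

private theorem SynL_hasF (b : Fin 3 → R3) {a a' : Sym}
    (hd : ∀ t ξ, HasDerivAt (fun r => a r ξ) (a' t ξ) t) (x : R3) (ξ : ℝ × ℝ) :
    HasFDerivAt (fun x : R3 => a ⟪b 0, x⟫ ξ * SynL_e (⟪b 1, x⟫, ⟪b 2, x⟫) ξ)
      (SynL_D b a a' x ξ) x := by
  have h0 : ∀ j, HasFDerivAt (fun x : R3 => (⟪b j, x⟫ : ℝ)) (innerSL ℝ (b j)) x := fun j =>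
    (innerSL ℝ (b j)).hasFDerivAt
  have h1 : HasFDerivAt (fun x : R3 => a ⟪b 0, x⟫ ξ)
      ((innerSL ℝ (b 0)).smulRight (a' ⟪b 0, x⟫ ξ)) x := by
    have := (hd ⟪b 0, x⟫ ξ).hasFDerivAt.comp x (h0 0)
    refine this.congr_fderiv ?_
    ext v; simp
  have h2 : HasFDerivAt (fun x : R3 => (ξ.1 * ⟪b 1, x⟫ + ξ.2 * ⟪b 2, x⟫ : ℝ))
      (ξ.1 • innerSL ℝ (b 1) + ξ.2 • innerSL ℝ (b 2)) x :=
    ((h0 1).const_mul ξ.1).add ((h0 2).const_mul ξ.2)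
  have h3 : ∀ r : ℝ, HasDerivAt (fun r : ℝ => Complex.exp (Complex.I * (r : ℂ)))
      (Complex.exp (Complex.I * (r : ℂ)) * Complex.I) r := fun r => by
    have := ((hasDerivAt_id (r : ℂ)).const_mul Complex.I).cexp.comp_ofReal
    simpa using this
  have h4 := (h3 (ξ.1 * ⟪b 1, x⟫ + ξ.2 * ⟪b 2, x⟫)).hasFDerivAt.comp x h2
  have h5 := h1.mul h4
  refine HasFDerivAt.congr_fderiv h5 ?_
  ext v
  simp [SynL_D, SynL_e]
  ring

private theorem SynL_D_apply (b : Fin 3 → R3) (a a' : Sym) (x : R3) (ξ : ℝ × ℝ) (i : Fin 3) :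
    SynL_D b a a' x ξ (EuclideanSpace.single i 1) =
      dSym b i a a' ⟪b 0, x⟫ ξ * SynL_e (⟪b 1, x⟫, ⟪b 2, x⟫) ξ := by
  simp [SynL_D, dSym, EuclideanSpace.inner_single_right]
  ring

private theorem SynL_D_cont (b : Fin 3 → R3) {a a' : Sym} (ha : Cts a) (ha' : Cts a') (x : R3) :
    Continuous fun ξ => SynL_D b a a' x ξ := by
  have h1 : Continuous fun ξ : ℝ × ℝ => a ⟪b 0, x⟫ ξ :=
    ha.comp (f := fun ξ : ℝ × ℝ => ((⟪b 0, x⟫ : ℝ), ξ)) (by fun_prop)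
  have h2 : Continuous fun ξ : ℝ × ℝ => a' ⟪b 0, x⟫ ξ :=
    ha'.comp (f := fun ξ : ℝ × ℝ => ((⟪b 0, x⟫ : ℝ), ξ)) (by fun_prop)
  have h3 := SynL_e_cont' (⟪b 1, x⟫, ⟪b 2, x⟫)
  have h4 : ∀ (j : Fin 3) {g : ℝ × ℝ → ℂ}, Continuous g →
      Continuous fun ξ => (innerSL ℝ (b j)).smulRight (g ξ) := fun j g hg =>
    (ContinuousLinearMap.smulRightL ℝ R3 ℂ (innerSL ℝ (b j))).continuous.comp hg
  unfold SynL_D
  exact ((h4 0 (h2.mul h3)).add (h4 1 (by fun_prop))).add (h4 2 (by fun_prop))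

private theorem SynL_D_norm (b : Fin 3 → R3) (a a' : Sym) (x : R3) (ξ : ℝ × ℝ) :
    ‖SynL_D b a a' x ξ‖ ≤
      ‖b 0‖ * ‖a' ⟪b 0, x⟫ ξ‖ + (‖b 1‖ + ‖b 2‖) * ((1 + ‖ξ‖) * ‖a ⟪b 0, x⟫ ξ‖) := by
  have h1 : ‖ξ.1‖ ≤ 1 + ‖ξ‖ := (norm_fst_le ξ).trans (by linarith)
  have h2 : ‖ξ.2‖ ≤ 1 + ‖ξ‖ := (norm_snd_le ξ).trans (by linarith)
  unfold SynL_D
  refine (norm_add₃_le).trans ?_
  simp only [ContinuousLinearMap.norm_smulRight_apply, innerSL_apply_norm, norm_mul, SynL_e_norm,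
    Complex.norm_I, Complex.norm_real, one_mul, mul_one]
  have a1 := mul_le_mul_of_nonneg_left
    (mul_le_mul_of_nonneg_right h1 (norm_nonneg (a ⟪b 0, x⟫ ξ))) (norm_nonneg (b 1))
  have a2 := mul_le_mul_of_nonneg_left
    (mul_le_mul_of_nonneg_right h2 (norm_nonneg (a ⟪b 0, x⟫ ξ))) (norm_nonneg (b 2))
  linarith

private theorem SynL_inner_le (v x : R3) {R : ℝ} (hx : ‖x‖ ≤ R) : |(⟪v, x⟫ : ℝ)| ≤ ‖v‖ * R :=
  (abs_real_inner_le_norm v x).trans (mul_le_mul_of_nonneg_left hx (norm_nonneg v))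

private theorem SynL_hasFDerivAt (b : Fin 3 → R3) {a a' : Sym} (ha : Nice a)
    (hd : ∀ t ξ, HasDerivAt (fun r => a r ξ) (a' t ξ) t) (x : R3) :
    Integrable (SynL_D b a a' x) ∧ HasFDerivAt (Syn b a) (∫ ξ, SynL_D b a a' x ξ) x := by
  have hr : Rap {1} 0 fun _ => a := (ha 0).rap
  have hr' : Rap {1} (0 + 1) fun _ => a' :=
    (Tw.deriv (n := 0) (G := fun _ => a') (ha 1) fun _ _ t ξ => hd t ξ).rap
  have h1 : (1 : ℝ) ∈ ({1} : Set ℝ) := rfl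
  have hc : Cts a := hr.1 1 h1
  have hc' : Cts a' := hr'.1 1 h1
  obtain ⟨C₁, hC₁⟩ := hr.2 4 (‖b 0‖ * (‖x‖ + 1))
  obtain ⟨C₂, hC₂⟩ := hr'.2 3 (‖b 0‖ * (‖x‖ + 1))
  have hb : ∀ ξ : ℝ × ℝ, ∀ z ∈ Metric.ball x 1, ‖SynL_D b a a' z ξ‖ ≤
      (‖b 0‖ * C₂ + (‖b 1‖ + ‖b 2‖) * C₁) * ((1 + ‖ξ‖) ^ 3)⁻¹ := by
    intro ξ z hz
    have hz' : ‖z‖ ≤ ‖x‖ + 1 := by
      have : ‖z - x‖ < 1 := by simpa [dist_eq_norm] using hz
      calc ‖z‖ = ‖x + (z - x)‖ := by simp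
        _ ≤ ‖x‖ + ‖z - x‖ := norm_add_le _ _
        _ ≤ _ := by linarith
    have ht := SynL_inner_le (b 0) z hz'
    have a1 := hC₁ 1 h1 _ ξ ht
    have a2 := hC₂ 1 h1 _ ξ ht
    simp only [one_pow, mul_one] at a1 a2
    have b1 : (1 + ‖ξ‖) * ‖a ⟪b 0, z⟫ ξ‖ ≤ C₁ * ((1 + ‖ξ‖) ^ 3)⁻¹ := by
      refine SynL_le_div (by positivity) ?_
      calc _ = (1 + ‖ξ‖) ^ 4 * ‖a ⟪b 0, z⟫ ξ‖ := by ring
        _ ≤ _ := a1
    have b2 := SynL_le_div (by positivity) a2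
    refine (SynL_D_norm b a a' z ξ).trans ?_
    have c1 := mul_le_mul_of_nonneg_left b1 (add_nonneg (norm_nonneg (b 1)) (norm_nonneg (b 2)))
    have c2 := mul_le_mul_of_nonneg_left b2 (norm_nonneg (b 0))
    linarith
  have hmeas : ∀ z : R3, AEStronglyMeasurable
      (fun ξ => a ⟪b 0, z⟫ ξ * SynL_e (⟪b 1, z⟫, ⟪b 2, z⟫) ξ) volume := fun z =>
    (SynL_int (hr.integrable h1 _) _).aestronglyMeasurable
  refine ⟨Integrable.mono' (integrable_w3.const_mul _)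
    (SynL_D_cont b hc hc' x).aestronglyMeasurable
    (Eventually.of_forall fun ξ => hb ξ x (Metric.mem_ball_self one_pos)), ?_⟩
  exact hasFDerivAt_integral_of_dominated_of_fderiv_le (μ := (volume : Measure (ℝ × ℝ)))
    (F := fun (z : R3) ξ => a ⟪b 0, z⟫ ξ * SynL_e (⟪b 1, z⟫, ⟪b 2, z⟫) ξ)
    (F' := fun z ξ => SynL_D b a a' z ξ) (Metric.ball_mem_nhds x one_pos)
    (Eventually.of_forall hmeas) (SynL_int (hr.integrable h1 _) _)
    (SynL_D_cont b hc hc' x).aestronglyMeasurable (Eventually.of_forall hb)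
    (integrable_w3.const_mul _) (Eventually.of_forall fun ξ z _ => SynL_hasF b hd z ξ)

theorem pd_syn (b : Fin 3 → R3) {a a' : Sym} (ha : Nice a)
    (hd : ∀ t ξ, HasDerivAt (fun r => a r ξ) (a' t ξ) t) (i : Fin 3) (x : R3) :
    pd i (Syn b a) x = Syn b (dSym b i a a') x := by
  obtain ⟨hi, hF⟩ := SynL_hasFDerivAt b ha hd x
  rw [pd, hF.fderiv, ContinuousLinearMap.integral_apply hi]
  simp only [SynL_D_apply]
  rfl

private theorem SynL_tw (b : Fin 3 → R3) (i : Fin 3) {T : Set ℝ} (hT : ∀ τ ∈ T, 1 ≤ τ) {n p : ℕ}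
    {F F' : ℝ → Sym} (hF : Tw T n p F) (hF' : Tw T n (p + 1) F') :
    Tw T n (p + 1) fun τ => dSym b i (F τ) (F' τ) := by
  have h1 := hF'.const_mul (b 0 i : ℂ)
  have h2 := hF.mul_xi (q := 0)
    (fun _ ξ => Complex.I * ((ξ.1 * b 1 i + ξ.2 * b 2 i : ℝ) : ℂ)) (fun _ _ => by fun_prop) 1
    (|b 1 i| + |b 2 i|) (fun τ _ ξ => by
      have a1 : |ξ.1| ≤ 1 + ‖ξ‖ := (norm_fst_le ξ).trans (by linarith)
      have a2 : |ξ.2| ≤ 1 + ‖ξ‖ := (norm_snd_le ξ).trans (by linarith)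
      rw [norm_mul, Complex.norm_I, one_mul, Complex.norm_real, Real.norm_eq_abs, pow_zero, mul_one,
        pow_one]
      calc |ξ.1 * b 1 i + ξ.2 * b 2 i| ≤ |ξ.1| * |b 1 i| + |ξ.2| * |b 2 i| := by
            rw [← abs_mul, ← abs_mul]; exact abs_add_le _ _
        _ ≤ (1 + ‖ξ‖) * |b 1 i| + (1 + ‖ξ‖) * |b 2 i| := by gcongr
        _ = _ := by ring)
  exact h1.add (h2.mono hT (by omega))

/-- A family that is in all classes has a t-derivative in all classes. -/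
private theorem SynL_deriv {T : Set ℝ} {p : ℕ} {F : ℝ → Sym} (hF : ∀ n, Tw T n p F) :
    ∃ F' : ℝ → Sym, (∀ τ ∈ T, ∀ t ξ, HasDerivAt (fun r => F τ r ξ) (F' τ t ξ) t) ∧
      ∀ n, Tw T n (p + 1) F' := by
  obtain ⟨-, F', hd, -⟩ := hF 1
  exact ⟨F', hd, fun n => (hF (n + 1)).deriv hd⟩

private theorem SynL_nice (b : Fin 3 → R3) {a : Sym} (ha : Nice a) :
    ∃ a' : Sym, (∀ t ξ, HasDerivAt (fun r => a r ξ) (a' t ξ) t) ∧
      ∀ i, Nice (dSym b i a a') := by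
  have h1 : (1 : ℝ) ∈ ({1} : Set ℝ) := rfl
  obtain ⟨F', hd, hF'⟩ := SynL_deriv ha
  refine ⟨F' 1, hd 1 h1, fun i => ?_⟩
  exact nice_of_tw (F := fun τ => dSym b i a (F' τ)) h1 fun n =>
    SynL_tw b i (fun τ hτ => by rw [Set.mem_singleton_iff.1 hτ]) (ha n) (hF' n)

private theorem SynL_contDiff (b : Fin 3 → R3) (n : ℕ) :
    ∀ a : Sym, Nice a → ContDiff ℝ n (Syn b a) := by
  induction n with
  | zero =>
    intro a ha
    obtain ⟨a', hd, -⟩ := SynL_nice b ha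
    have : Differentiable ℝ (Syn b a) := fun x => (SynL_hasFDerivAt b ha hd x).2.differentiableAt
    exact_mod_cast contDiff_zero.2 this.continuous
  | succ n ih =>
    intro a ha
    obtain ⟨a', hd, hn⟩ := SynL_nice b ha
    have hdiff : Differentiable ℝ (Syn b a) := fun x =>
      (SynL_hasFDerivAt b ha hd x).2.differentiableAt
    rw [Nat.cast_succ, contDiff_succ_iff_fderiv_apply]
    refine ⟨hdiff, by simp, fun y => ?_⟩
    have e : (fun x => fderiv ℝ (Syn b a) x y) =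
        fun x => ∑ i, (y i) • Syn b (dSym b i a a') x := by
      funext x
      conv_lhs => rw [← (EuclideanSpace.basisFun (Fin 3) ℝ).sum_repr y]
      rw [map_sum]
      refine Finset.sum_congr rfl fun i _ => ?_
      rw [map_smul, ← pd_syn b ha hd i x]
      simp [pd]
    rw [e]
    exact ContDiff.sum fun i _ => (ih _ (hn i)).const_smul _

theorem contDiff_syn (b : Fin 3 → R3) {a : Sym} (ha : Nice a) : ContDiff ℝ ∞ (Syn b a) :=
  contDiff_infty.2 fun n => SynL_contDiff b n a ha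

theorem pdl_syn_bound (b : Fin 3 → R3) {T : Set ℝ} (hT : ∀ τ ∈ T, 1 ≤ τ) {p : ℕ} {F : ℝ → Sym}
    (hF : ∀ n, Tw T n p F) (α : List (Fin 3)) (R : ℝ) :
    ∃ C : ℝ, ∀ τ ∈ T, ∀ x : R3, ‖x‖ ≤ R → ‖pdl α (Syn b (F τ)) x‖ ≤ C * τ ^ (p + α.length) := by
  induction α generalizing p F with
  | nil =>
    obtain ⟨C, hC⟩ := (hF 0).rap.2 3 (‖b 0‖ * R)
    refine ⟨C * c3, fun τ hτ x hx => ?_⟩
    have := synS_norm_le (fun ξ => hC τ hτ _ ξ (SynL_inner_le (b 0) x hx)) (⟪b 1, x⟫, ⟪b 2, x⟫)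
    calc _ ≤ _ := this
      _ = _ := by simp only [List.length_nil, add_zero]; ring
  | cons i α ih =>
    obtain ⟨F', hd, hF'⟩ := SynL_deriv hF
    obtain ⟨C, hC⟩ := ih (p := p + 1) (F := fun τ => dSym b i (F τ) (F' τ))
      fun n => SynL_tw b i hT (hF n) (hF' n)
    refine ⟨C, fun τ hτ x hx => ?_⟩
    have e : pd i (Syn b (F τ)) = Syn b (dSym b i (F τ) (F' τ)) :=
      funext fun y => pd_syn b (nice_of_tw hτ hF) (hd τ hτ) i y
    have := hC τ hτ x hx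
    rw [show p + 1 + α.length = p + (i :: α).length by simp; ring] at this
    simpa only [pdl, e] using this

end Crest.Agent.R80
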