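import Crest.Agent.R80.Da
import Crest.Agent.R80.SynL
import Crest.Agent.R80.Conv
import Crest.Agent.R80.Rep

/-! Row 80: elements of `Ob D` represented by symbols. -/

set_option autoImplicit false
open MeasureTheory Filter Topology Crest.AnalysisR.VecCalc3
open scoped ContDiff RealInnerProductSpace

namespace Crest.Agent.R80

namespace FOfin

theorem one_le : ∀ τ ∈ ({1} : Set ℝ), 1 ≤ τ := fun _ h => h.ge

theorem nice_of {p : ℕ} {β : Sym} (h : ∀ n, Tw {1} n p fun _ => β) : Nice β :=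
  nice_of_tw (T := {1}) (F := fun _ => β) (τ := 1) rfl h

theorem nice_int {β : Sym} (h : Nice β) (t : ℝ) : Integrable (β t) :=
  (h 0).rap.integrable (τ := 1) rfl t

theorem nice_add {a b : Sym} (ha : Nice a) (hb : Nice b) : Nice fun t ξ => a t ξ + b t ξ :=
  fun n => (ha n).add (hb n)

theorem nice_const_mul (c : ℂ) {a : Sym} (ha : Nice a) : Nice fun t ξ => c * a t ξ :=
  fun n => (ha n).const_mul c

theorem nice_sum {ι : Type*} (s : Finset ι) {a : ι → Sym} (ha : ∀ i ∈ s, Nice (a i)) :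
    Nice fun t ξ => ∑ i ∈ s, a i t ξ :=
  fun n => Tw.sum s (H := fun i _ => a i) fun i hi => ha i hi n

theorem nice_conv {a b : Sym} (ha : Nice a) (hb : Nice b) : Nice (conv a b) :=
  nice_of fun n => Tw.conv one_le (ha n) (hb n)

theorem nice_deriv {a a' : Sym} (ha : Nice a)
    (hd : ∀ t ξ, HasDerivAt (fun r => a r ξ) (a' t ξ) t) : Nice a' :=
  nice_of fun n => Tw.deriv (G := fun _ => a') (ha (n + 1)) fun _ _ => hd

theorem nice_dSym (b : Fin 3 → R3) (i : Fin 3) {a a' : Sym} (ha : Nice a) (ha' : Nice a') :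
    Nice (dSym b i a a') := by
  refine nice_add (nice_const_mul _ ha') (nice_of (p := 0 + 0) fun n => ?_)
  refine Tw.mul_xi (q := 0) (ha n)
    (fun _ ξ => Complex.I * ((ξ.1 * b 1 i + ξ.2 * b 2 i : ℝ) : ℂ)) (fun _ _ => by fun_prop)
    1 (|b 1 i| + |b 2 i|) fun τ _ ξ => ?_
  rw [norm_mul, Complex.norm_I, one_mul, Complex.norm_real, Real.norm_eq_abs, pow_zero, pow_one,
    mul_one]
  have h1 : |ξ.1| ≤ ‖ξ‖ := norm_fst_le ξ
  have h2 : |ξ.2| ≤ ‖ξ‖ := norm_snd_le ξ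
  have h3 := abs_nonneg (b 1 i)
  have h4 := abs_nonneg (b 2 i)
  refine (abs_add_le _ _).trans ?_
  rw [abs_mul, abs_mul]
  nlinarith

theorem hasDerivAt_dSym (b : Fin 3 → R3) (i : Fin 3) {a a₁ a₂ : Sym}
    (h₁ : ∀ t ξ, HasDerivAt (fun r => a r ξ) (a₁ t ξ) t)
    (h₂ : ∀ t ξ, HasDerivAt (fun r => a₁ r ξ) (a₂ t ξ) t) (t : ℝ) (ξ : ℝ × ℝ) :
    HasDerivAt (fun r => dSym b i a a₁ r ξ) (dSym b i a₁ a₂ t ξ) t :=
  ((h₂ t ξ).const_mul _).add ((h₁ t ξ).const_mul _)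

variable {D : Dom} {b : Fin 3 → R3}

/-- `f` is the synthesis of the symbol `a`. -/
def Rp (b : Fin 3 → R3) (f : Ob D) (a : Sym) : Prop := Nice a ∧ ∀ x : D.Ω, f.val x = Syn b a x

theorem rp_mk {a : Sym} (ha : Nice a) : Rp b (Ob.mk D _ (contDiff_syn b ha)) a :=
  ⟨ha, fun _ => rfl⟩

theorem Rp.add {f g : Ob D} {a a' : Sym} (h : Rp b f a) (h' : Rp b g a') :
    Rp b (f + g) fun t ξ => a t ξ + a' t ξ :=
  ⟨nice_add h.1 h'.1, fun x => by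
    rw [Ob.val_add, h.2, h'.2]
    exact (synS_add (nice_int h.1 _) (nice_int h'.1 _) _).symm⟩

theorem Rp.smul {f : Ob D} {a : Sym} (h : Rp b f a) (c : ℂ) :
    Rp b (c • f) fun t ξ => c * a t ξ :=
  ⟨nice_const_mul c h.1, fun x => by
    rw [Ob.val_smul, h.2]
    exact (synS_const_mul c _ _).symm⟩

theorem Rp.two_mul {f : Ob D} {a : Sym} (h : Rp b f a) :
    Rp b (2 * f) fun t ξ => 2 * a t ξ :=
  ⟨nice_const_mul 2 h.1, fun x => by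
    rw [Ob.val_mul, Ob.val_ofNat, h.2]
    exact (synS_const_mul 2 _ _).symm⟩

theorem Rp.sum {ι : Type*} (s : Finset ι) {f : ι → Ob D} {a : ι → Sym}
    (h : ∀ i ∈ s, Rp b (f i) (a i)) : Rp b (∑ i ∈ s, f i) fun t ξ => ∑ i ∈ s, a i t ξ :=
  ⟨nice_sum s fun i hi => (h i hi).1, fun x => by
    rw [Ob.val_sum, Finset.sum_congr rfl fun i hi => (h i hi).2 x]
    exact (synS_sum s (u := fun i => a i _) (fun i hi => nice_int (h i hi).1 _) _).symm⟩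

theorem Rp.mul {f g : Ob D} {a a' : Sym} (h : Rp b f a) (h' : Rp b g a') :
    Rp b (f * g) (conv a a') :=
  ⟨nice_conv h.1 h'.1, fun x => by
    rw [Ob.val_mul, h.2, h'.2]
    exact (synS_conv (nice_int h.1 _) (nice_int h'.1 _) _).symm⟩

theorem Rp.d {f : Ob D} {a a' : Sym} (h : Rp b f a)
    (hd : ∀ t ξ, HasDerivAt (fun r => a r ξ) (a' t ξ) t) (i : Fin 3) :
    Rp b (Ob.d D i f) (dSym b i a a') := by
  refine ⟨nice_dSym b i h.1 (nice_deriv h.1 hd), fun x => ?_⟩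
  have e : f = Ob.mk D _ (contDiff_syn b h.1) := Ob.ext h.2
  rw [e, Ob.d_mk, Ob.val_mk, pd_syn b h.1 hd]

theorem Rp.congr {f : Ob D} {a a' : Sym} (h : Rp b f a) (e : ∀ t ξ, a t ξ = a' t ξ) :
    Rp b f a' := by
  have : a = a' := funext fun t => funext (e t)
  exact this ▸ h

theorem Rp.eq {f g : Ob D} {a a' : Sym} (h : Rp b f a) (h' : Rp b g a') {R : ℝ}
    (hR : ∀ x : D.Ω, |⟪b 0, (x : R3)⟫| ≤ R) (e : ∀ t ξ, |t| ≤ R → a t ξ = a' t ξ) : f = g := by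
  refine Ob.ext fun x => ?_
  have e' : a ⟪b 0, (x : R3)⟫ = a' ⟪b 0, (x : R3)⟫ := funext fun ξ => e _ ξ (hR x)
  rw [h.2, h'.2, Syn, Syn, e']

theorem exists_rp (b : OrthonormalBasis (Fin 3) ℝ R3) {f : Ob D} {M : ℝ} (h : Ob.nu D f ≤ M) :
    ∃ β : Sym, Rp b f β ∧ ∀ t ξ, (1 + ‖ξ‖) ^ 6 * ‖β t ξ‖ ≤ 4 * (M + 1) := by
  obtain ⟨G, hG⟩ := Ob.frep_of_nu_le h
  obtain ⟨β, h1, h2, h3⟩ := exists_sym b hG
  exact ⟨β, ⟨h1, fun x => by rw [h3 x x.2, f.rep_val]⟩, h2⟩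

theorem exists_radius (D : Dom) : ∃ R : ℝ, (∀ x : D.Ω, ‖(x : R3)‖ ≤ R) ∧
    ∀ (b : OrthonormalBasis (Fin 3) ℝ R3) (x : D.Ω), |⟪b 0, (x : R3)⟫| ≤ R := by
  obtain ⟨R, hR⟩ := D.bdd.exists_norm_le
  refine ⟨R, fun x => hR x x.2, fun b x => (abs_real_inner_le_norm _ _).trans ?_⟩
  rw [b.orthonormal.1 0, one_mul]
  exact hR x x.2

theorem orth (b : OrthonormalBasis (Fin 3) ℝ R3) (k l : Fin 3) :
    (b k 0 : ℂ) * b l 0 + (b k 1 : ℂ) * b l 1 + (b k 2 : ℂ) * b l 2 = if k = l then 1 else 0 := by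
  have h := orthonormal_iff_ite.1 b.orthonormal k l
  rw [real_inner_comm, PiLp.inner_apply, Fin.sum_univ_three] at h
  simp only [RCLike.inner_apply, conj_trivial] at h
  split_ifs at h ⊢ <;> exact_mod_cast h

theorem sum_dSym (b : OrthonormalBasis (Fin 3) ℝ R3) (a a' : Sym) (t : ℝ) (ξ : ℝ × ℝ) :
    ∑ k, ((b 0 k : ℂ) + Complex.I * (b 1 k : ℂ)) * dSym b k a a' t ξ
      = a' t ξ - (ξ.1 : ℂ) * a t ξ := by
  have h00 := orth b 0 0
  have h01 := orth b 0 1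
  have h02 := orth b 0 2
  have h11 := orth b 1 1
  have h12 := orth b 1 2
  simp only [Fin.reduceEq, if_true, if_false] at h00 h01 h02 h11 h12
  simp only [Fin.sum_univ_three, dSym]
  push_cast
  linear_combination a' t ξ * h00 + Complex.I * (a' t ξ + a t ξ * ξ.1) * h01
    + Complex.I ^ 2 * a t ξ * ξ.1 * h11 + Complex.I * a t ξ * ξ.2 * h02
    + Complex.I ^ 2 * a t ξ * ξ.2 * h12 + a t ξ * ξ.1 * Complex.I_sq

theorem sum_dSym_dSym (b : OrthonormalBasis (Fin 3) ℝ R3) (a a₁ a₂ : Sym) (t : ℝ) (ξ : ℝ × ℝ) :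
    ∑ k, dSym b k (dSym b k a a₁) (dSym b k a₁ a₂) t ξ
      = a₂ t ξ - ((ξ.1 : ℂ) ^ 2 + (ξ.2 : ℂ) ^ 2) * a t ξ := by
  have h00 := orth b 0 0
  have h01 := orth b 0 1
  have h02 := orth b 0 2
  have h11 := orth b 1 1
  have h12 := orth b 1 2
  have h22 := orth b 2 2
  simp only [Fin.reduceEq, if_true, if_false] at h00 h01 h02 h11 h12 h22
  simp only [Fin.sum_univ_three, dSym]
  push_cast
  linear_combination a₂ t ξ * h00 + 2 * Complex.I * a₁ t ξ * (ξ.1 * h01 + ξ.2 * h02)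
    + Complex.I ^ 2 * a t ξ * (ξ.1 ^ 2 * h11 + 2 * ξ.1 * ξ.2 * h12 + ξ.2 ^ 2 * h22)
    + a t ξ * (ξ.1 ^ 2 + ξ.2 ^ 2) * Complex.I_sq

/-- the symbol of `(c θ)·∇`. -/
theorem Rp.dd {b : OrthonormalBasis (Fin 3) ℝ R3} {θ : Fin 3 → ℂ}
    (hθ : ∀ i, θ i = (b 0 i : ℂ) + Complex.I * (b 1 i : ℂ)) {f : Ob D} {a a' : Sym} (h : Rp b f a)
    (hd : ∀ t ξ, HasDerivAt (fun r => a r ξ) (a' t ξ) t) :
    Rp b (D.da.dd θ f) fun t ξ => a' t ξ - (ξ.1 : ℂ) * a t ξ := by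
  rw [DA.dd_apply]
  refine (Rp.sum Finset.univ fun k _ => (h.d hd k).smul (θ k)).congr fun t ξ => ?_
  simp only [hθ]
  exact sum_dSym b a a' t ξ

theorem Rp.lap {b : OrthonormalBasis (Fin 3) ℝ R3} {f : Ob D} {a a₁ a₂ : Sym} (h : Rp b f a)
    (h₁ : ∀ t ξ, HasDerivAt (fun r => a r ξ) (a₁ t ξ) t)
    (h₂ : ∀ t ξ, HasDerivAt (fun r => a₁ r ξ) (a₂ t ξ) t) :
    Rp b (D.da.lap f) fun t ξ => a₂ t ξ - ((ξ.1 : ℂ) ^ 2 + (ξ.2 : ℂ) ^ 2) * a t ξ :=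
  (Rp.sum Finset.univ fun k _ => (h.d h₁ k).d (hasDerivAt_dSym b k h₁ h₂) k).congr
    (sum_dSym_dSym b a a₁ a₂)

end FOfin

end Crest.Agent.R80
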