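import Crest.Agent.R80.Sym

/-! Row 80: the Neumann series in weighted sup norms. -/

set_option autoImplicit false
open MeasureTheory Filter Topology Crest.AnalysisR.VecCalc3
open scoped ContDiff RealInnerProductSpace

namespace Crest.Agent.R80

namespace NeuAux

theorem pt {A : Set ℝ} {β u : Sym} {w : ℝ × ℝ → ℝ} {M k : ℝ}
    (hw : ∀ ξ η, w ξ ≤ w η * w (ξ - η)) (hw0 : ∀ ξ, 0 < w ξ) (hM : 0 ≤ M) (hk : 0 ≤ k)
    (hβ : ∀ t η, w η * ‖β t η‖ ≤ M * ((1 + ‖η‖) ^ 3)⁻¹) (hβ0 : ∀ t, t ∉ A → ∀ η, β t η = 0)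
    (hu : ∀ t ∈ A, ∀ ζ, w ζ * ‖u t ζ‖ ≤ k) (t : ℝ) (ξ η : ℝ × ℝ) :
    w ξ * ‖β t η * u t (ξ - η)‖ ≤ M * k * ((1 + ‖η‖) ^ 3)⁻¹ := by
  by_cases ht : t ∈ A
  · calc w ξ * ‖β t η * u t (ξ - η)‖ ≤ w η * w (ξ - η) * ‖β t η * u t (ξ - η)‖ :=
          mul_le_mul_of_nonneg_right (hw ξ η) (norm_nonneg _)
      _ = w η * ‖β t η‖ * (w (ξ - η) * ‖u t (ξ - η)‖) := by rw [norm_mul]; ring
      _ ≤ M * ((1 + ‖η‖) ^ 3)⁻¹ * k :=
          mul_le_mul (hβ t η) (hu t ht _) (mul_nonneg (hw0 _).le (norm_nonneg _)) (by positivity)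
      _ = _ := by ring
  · rw [hβ0 t ht, zero_mul, norm_zero, mul_zero]
    positivity

theorem conv_le {A : Set ℝ} {β u : Sym} {w : ℝ × ℝ → ℝ} {M k : ℝ}
    (hw : ∀ ξ η, w ξ ≤ w η * w (ξ - η)) (hw0 : ∀ ξ, 0 < w ξ) (hM : 0 ≤ M) (hk : 0 ≤ k)
    (hβ : ∀ t η, w η * ‖β t η‖ ≤ M * ((1 + ‖η‖) ^ 3)⁻¹) (hβ0 : ∀ t, t ∉ A → ∀ η, β t η = 0)
    (hu : ∀ t ∈ A, ∀ ζ, w ζ * ‖u t ζ‖ ≤ k) (t : ℝ) (ξ : ℝ × ℝ) :
    w ξ * ‖conv β u t ξ‖ ≤ M * k * c3 := by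
  rw [← le_div_iff₀' (hw0 ξ), conv]
  refine (norm_integral_le_of_norm_le ((integrable_w3.const_mul (M * k)).div_const (w ξ))
    (Eventually.of_forall fun η => ?_)).trans (le_of_eq ?_)
  · rw [le_div_iff₀' (hw0 ξ)]
    exact pt hw hw0 hM hk hβ hβ0 hu t ξ η
  · rw [integral_div, integral_const_mul, c3]

theorem cts_int {β u : Sym} (hβ : Cts β) (hu : Cts u) (t : ℝ) (ξ : ℝ × ℝ) :
    Continuous fun η => β t η * u t (ξ - η) :=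
  (hβ.comp (f := fun η => (t, η)) (by fun_prop)).mul
    (hu.comp (f := fun η => (t, ξ - η)) (by fun_prop))

theorem conv_int {A : Set ℝ} {β u : Sym} {M k : ℝ} (hβc : Cts β) (huc : Cts u)
    (hM : 0 ≤ M) (hk : 0 ≤ k)
    (hβ : ∀ t η, ‖β t η‖ ≤ M * ((1 + ‖η‖) ^ 3)⁻¹) (hβ0 : ∀ t, t ∉ A → ∀ η, β t η = 0)
    (hu : ∀ t ∈ A, ∀ ζ, ‖u t ζ‖ ≤ k) (t : ℝ) (ξ : ℝ × ℝ) :
    Integrable fun η => β t η * u t (ξ - η) :=
  (integrable_w3.const_mul (M * k)).mono' (cts_int hβc huc t ξ).aestronglyMeasurable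
    (Eventually.of_forall fun η => by
      simpa using pt (w := fun _ => 1) (by simp) (by simp) hM hk (by simpa using hβ) hβ0
        (by simpa using hu) t ξ η)

theorem conv_cts {A : Set ℝ} {β u : Sym} {M k : ℝ} (hβc : Cts β) (huc : Cts u)
    (hM : 0 ≤ M) (hk : 0 ≤ k)
    (hβ : ∀ t η, ‖β t η‖ ≤ M * ((1 + ‖η‖) ^ 3)⁻¹) (hβ0 : ∀ t, t ∉ A → ∀ η, β t η = 0)
    (hu : ∀ t ∈ A, ∀ ζ, ‖u t ζ‖ ≤ k) : Cts (conv β u) := by
  refine continuous_of_dominated (F := fun (p : ℝ × (ℝ × ℝ)) η => β p.1 η * u p.1 (p.2 - η))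
    (bound := fun η => M * k * ((1 + ‖η‖) ^ 3)⁻¹)
    (fun p => (cts_int hβc huc p.1 p.2).aestronglyMeasurable)
    (fun p => Eventually.of_forall fun η => ?_) (integrable_w3.const_mul (M * k))
    (Eventually.of_forall fun η => ?_)
  · simpa using pt (w := fun _ => 1) (by simp) (by simp) hM hk (by simpa using hβ) hβ0
      (by simpa using hu) p.1 p.2 η
  · exact (hβc.comp (f := fun p : ℝ × (ℝ × ℝ) => (p.1, η)) (by fun_prop)).mul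
      (huc.comp (f := fun p : ℝ × (ℝ × ℝ) => (p.1, p.2 - η)) (by fun_prop))

theorem submul {ε : ℝ} (hε : 0 ≤ ε) (ξ η : ℝ × ℝ) :
    1 + ε * ‖ξ‖ ≤ (1 + ε * ‖η‖) * (1 + ε * ‖ξ - η‖) := by
  have h1 : ‖ξ‖ ≤ ‖η‖ + ‖ξ - η‖ := by simpa using norm_add_le η (ξ - η)
  have h2 := mul_le_mul_of_nonneg_left h1 hε
  have h3 : 0 ≤ ε * ‖η‖ * (ε * ‖ξ - η‖) := by positivity
  nlinarith

theorem wsub {ε : ℝ} (hε : 0 ≤ ε) (s : ℕ) (ξ η : ℝ × ℝ) :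
    (1 + ‖ξ‖) ^ 3 * (1 + ε * ‖ξ‖) ^ s ≤
      (1 + ‖η‖) ^ 3 * (1 + ε * ‖η‖) ^ s * ((1 + ‖ξ - η‖) ^ 3 * (1 + ε * ‖ξ - η‖) ^ s) := by
  have h1 := submul zero_le_one ξ η
  simp only [one_mul] at h1
  calc (1 + ‖ξ‖) ^ 3 * (1 + ε * ‖ξ‖) ^ s
      ≤ ((1 + ‖η‖) * (1 + ‖ξ - η‖)) ^ 3 * ((1 + ε * ‖η‖) * (1 + ε * ‖ξ - η‖)) ^ s := by
        gcongr
        exact submul hε ξ η
    _ = _ := by rw [mul_pow, mul_pow]; ring

theorem exists_eps {σ : Type} [Finite σ] (b : σ → Sym) {M : ℝ} (hM : 0 < M)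
    (hb : ∀ i t η, (1 + ‖η‖) ^ 6 * ‖b i t η‖ ≤ M)
    (hr : ∀ i (s : ℕ), ∃ C : ℝ, ∀ t η, (1 + ‖η‖) ^ s * ‖b i t η‖ ≤ C) (s : ℕ) :
    ∃ ε : ℝ, 0 < ε ∧ ε ≤ 1 ∧ ∀ i t η, (1 + ‖η‖) ^ 3 * (1 + ε * ‖η‖) ^ s * ‖b i t η‖ ≤
      2 * M * ((1 + ‖η‖) ^ 3)⁻¹ := by
  choose C hC using fun i => hr i (s + 7)
  obtain ⟨C₀, hC₀⟩ := Finite.exists_le C
  set L := C₀ / (2 * M) with hL
  have h1 : ∀ᶠ ε in 𝓝 (0 : ℝ), (1 + ε * L) ^ s < 2 :=
    (Continuous.continuousAt (by fun_prop : Continuous fun ε : ℝ => (1 + ε * L) ^ s)).eventually_lt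
      continuousAt_const (by simp)
  obtain ⟨ε, h2, h3⟩ :=
    ((h1.filter_mono nhdsWithin_le_nhds).and (Ioc_mem_nhdsGT (zero_lt_one' ℝ))).exists
  refine ⟨ε, h3.1, h3.2, fun i t η => ?_⟩
  have h0 : 0 < 1 + ‖η‖ := by positivity
  have hε := h3.1
  rw [← div_eq_mul_inv, le_div_iff₀ (by positivity)]
  rcases le_total ‖η‖ L with h | h
  · calc (1 + ‖η‖) ^ 3 * (1 + ε * ‖η‖) ^ s * ‖b i t η‖ * (1 + ‖η‖) ^ 3
        = (1 + ε * ‖η‖) ^ s * ((1 + ‖η‖) ^ 6 * ‖b i t η‖) := by ring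
      _ ≤ (1 + ε * L) ^ s * M := by
          gcongr
          · have := (norm_nonneg η).trans h
            positivity
          · exact hb i t η
      _ ≤ 2 * M := by gcongr
  · refine le_of_mul_le_mul_right ?_ h0
    calc (1 + ‖η‖) ^ 3 * (1 + ε * ‖η‖) ^ s * ‖b i t η‖ * (1 + ‖η‖) ^ 3 * (1 + ‖η‖)
        ≤ (1 + ‖η‖) ^ 3 * (1 + ‖η‖) ^ s * ‖b i t η‖ * (1 + ‖η‖) ^ 3 * (1 + ‖η‖) := by
          gcongr
          exact mul_le_of_le_one_left (norm_nonneg _) h3.2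
      _ = (1 + ‖η‖) ^ (s + 7) * ‖b i t η‖ := by ring
      _ ≤ C₀ := (hC i t η).trans (hC₀ i)
      _ = 2 * M * L := by rw [hL]; field_simp
      _ ≤ 2 * M * (1 + ‖η‖) := by gcongr; linarith

end NeuAux

theorem neu {ι κ : Type} [Fintype ι] [Fintype κ] (A : Set ℝ) (β : κ → ι → ι → Sym) (φ : ι → Sym)
    (M c κ₀ : ℝ) (hM : 0 < M) (hκ : 0 ≤ κ₀)
    (hsmall : 4 * c3 * κ₀ * M * Fintype.card κ * Fintype.card ι ≤ 1)
    (hβc : ∀ m i j, Cts (β m i j)) (hβ0 : ∀ m i j t, t ∉ A → ∀ η, β m i j t η = 0)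
    (hβM : ∀ m i j t η, (1 + ‖η‖) ^ 6 * ‖β m i j t η‖ ≤ M)
    (hβr : ∀ m i j (s : ℕ), ∃ C : ℝ, ∀ t η, (1 + ‖η‖) ^ s * ‖β m i j t η‖ ≤ C)
    (hφc : ∀ i, Cts (φ i)) (hφ3 : ∀ i t ξ, (1 + ‖ξ‖) ^ 3 * ‖φ i t ξ‖ ≤ c)
    (hφr : ∀ i (s : ℕ), ∃ C : ℝ, ∀ t ξ, (1 + ‖ξ‖) ^ s * ‖φ i t ξ‖ ≤ C) :
    ∃ Cs : ℕ → ℝ, ∀ T : κ → Sym → Sym, (∀ m g, Cts g → Cts (T m g)) →
      (∀ m g g', Cts g → Cts g' → ∀ t ξ,
        T m (fun t ξ => g t ξ - g' t ξ) t ξ = T m g t ξ - T m g' t ξ) →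
      (∀ m g, Cts g → ∀ ξ (e : ℝ), (∀ t, ‖g t ξ‖ ≤ e) → ∀ t ∈ A, ‖T m g t ξ‖ ≤ κ₀ * e) →
      ∃ g : ι → Sym, (∀ i, Cts (g i)) ∧
        (∀ i t ξ, g i t ξ + ∑ m, ∑ j, conv (β m i j) (T m (g j)) t ξ = φ i t ξ) ∧
        (∀ i t ξ, (1 + ‖ξ‖) ^ 3 * ‖g i t ξ‖ ≤ 2 * c) ∧
        ∀ (s : ℕ) i t ξ, (1 + ‖ξ‖) ^ s * ‖g i t ξ‖ ≤ Cs s := by
  choose ε hε0 hε1 hε using NeuAux.exists_eps (σ := κ × ι × ι) (fun x => β x.1 x.2.1 x.2.2) hM
    (fun x => hβM _ _ _) (fun x => hβr _ _ _)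
  choose cs hcs using fun s : ℕ => (show ∃ C : ℝ, ∀ i t ξ, (1 + ‖ξ‖) ^ (s + 3) * ‖φ i t ξ‖ ≤ C by
    choose C hC using fun i => hφr i (s + 3)
    obtain ⟨C₀, hC₀⟩ := Finite.exists_le C
    exact ⟨C₀, fun i t ξ => (hC i t ξ).trans (hC₀ i)⟩)
  refine ⟨fun s => 2 * cs s / ε s ^ s, fun T hTc hTs hTb => ?_⟩
  have hM2 : 0 ≤ 2 * M := by positivity
  have hβ1 : ∀ m i j t η, ‖β m i j t η‖ ≤ 2 * M * ((1 + ‖η‖) ^ 3)⁻¹ := fun m i j t η => by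
    refine le_trans ?_ (hε 0 (m, i, j) t η)
    rw [pow_zero, mul_one]
    exact le_mul_of_one_le_left (norm_nonneg _) (one_le_pow₀ (by simp))
  -- the basic estimate
  have key : ∀ w : ℝ × ℝ → ℝ, (∀ ξ η, w ξ ≤ w η * w (ξ - η)) → (∀ ξ, 0 < w ξ) →
      (∀ m i j t η, w η * ‖β m i j t η‖ ≤ 2 * M * ((1 + ‖η‖) ^ 3)⁻¹) →
      ∀ (g : ι → Sym) (e : ℝ), (∀ j, Cts (g j)) → (∀ j t ξ, w ξ * ‖g j t ξ‖ ≤ e) →
      ∀ i t ξ, w ξ * ‖∑ m, ∑ j, conv (β m i j) (T m (g j)) t ξ‖ ≤ e / 2 := by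
    intro w hw hw0 hβ g e hg he i t ξ
    have he0 : 0 ≤ e := (mul_nonneg (hw0 ξ).le (norm_nonneg _)).trans (he i t ξ)
    have h1 : ∀ m j, w ξ * ‖conv (β m i j) (T m (g j)) t ξ‖ ≤ 2 * M * (κ₀ * e) * c3 := fun m j =>
      NeuAux.conv_le hw hw0 hM2 (by positivity) (hβ m i j) (hβ0 m i j) (fun t ht ζ => by
        rw [← le_div_iff₀' (hw0 ζ), mul_div_assoc]
        exact hTb m _ (hg j) ζ _ (fun t => (le_div_iff₀' (hw0 ζ)).2 (he j t ζ)) t ht) t ξ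
    calc w ξ * ‖∑ m, ∑ j, conv (β m i j) (T m (g j)) t ξ‖
        ≤ w ξ * ∑ m, ∑ j, ‖conv (β m i j) (T m (g j)) t ξ‖ :=
          mul_le_mul_of_nonneg_left ((norm_sum_le _ _).trans
            (Finset.sum_le_sum fun m _ => norm_sum_le _ _)) (hw0 ξ).le
      _ ≤ ∑ _m : κ, ∑ _j : ι, 2 * M * (κ₀ * e) * c3 := by
          rw [Finset.mul_sum]
          refine Finset.sum_le_sum fun m _ => ?_
          rw [Finset.mul_sum]
          exact Finset.sum_le_sum fun j _ => h1 m j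
      _ = (4 * c3 * κ₀ * M * Fintype.card κ * Fintype.card ι) * (e / 2) := by
          simp only [Finset.sum_const, Finset.card_univ, nsmul_eq_mul]
          ring
      _ ≤ e / 2 := mul_le_of_le_one_left (by positivity) hsmall
  have key1 := key (fun _ => 1) (by simp) (by simp) (by simpa using hβ1)
  simp only [one_mul] at key1
  have hcts : ∀ f : BoundedContinuousFunction (ℝ × (ℝ × ℝ)) ℂ, Cts fun t ξ => f (t, ξ) :=
    fun f => f.continuous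
  have hTf : ∀ m (f : BoundedContinuousFunction (ℝ × (ℝ × ℝ)) ℂ), ∀ t ∈ A, ∀ ζ,
      ‖T m (fun t ξ => f (t, ξ)) t ζ‖ ≤ κ₀ * ‖f‖ := fun m f t ht ζ =>
    hTb m _ (hcts f) ζ _ (fun t => f.norm_coe_le_norm _) t ht
  have hex : ∀ g : ι → BoundedContinuousFunction (ℝ × (ℝ × ℝ)) ℂ,
      ∃ h : ι → BoundedContinuousFunction (ℝ × (ℝ × ℝ)) ℂ, ∀ i t ξ, h i (t, ξ) =
        φ i t ξ - ∑ m, ∑ j, conv (β m i j) (T m fun t ξ => g j (t, ξ)) t ξ := fun g => by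
    refine ⟨fun i => BoundedContinuousFunction.ofNormedAddCommGroup
      (fun p => φ i p.1 p.2 - ∑ m, ∑ j, conv (β m i j) (T m fun t ξ => g j (t, ξ)) p.1 p.2)
      (Continuous.sub (hφc i) (continuous_finsetSum _ fun m _ => continuous_finsetSum _ fun j _ =>
        NeuAux.conv_cts (hβc m i j) (hTc m _ (hcts _)) hM2 (by positivity) (hβ1 m i j) (hβ0 m i j)
          (hTf m (g j)))) (c + ‖g‖ / 2) fun p => ?_, fun _ _ _ => rfl⟩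
    refine (norm_sub_le _ _).trans (add_le_add (le_trans ?_ (hφ3 i p.1 p.2)) ?_)
    · exact le_mul_of_one_le_left (norm_nonneg _) (one_le_pow₀ (by simp))
    · exact key1 _ _ (fun j => hcts _)
        (fun j t ξ => ((g j).norm_coe_le_norm _).trans (norm_le_pi_norm g j)) i p.1 p.2
  choose Ψ hΨ using hex
  have hcon : ContractingWith (1 / 2) Ψ := by
    refine ⟨by norm_num, LipschitzWith.of_dist_le_mul fun g g' => ?_⟩
    refine (dist_pi_le_iff (by positivity)).2 fun i =>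
      (BoundedContinuousFunction.dist_le (by positivity)).2 ?_
    rintro ⟨t, ξ⟩
    have h1 := key1 (fun j t ξ => g' j (t, ξ) - g j (t, ξ)) (dist g g')
      (fun j => (hcts _).sub (hcts _)) (fun j t ξ => by
        rw [← dist_eq_norm, dist_comm]
        exact (BoundedContinuousFunction.dist_coe_le_dist _).trans (dist_le_pi_dist g g' j)) i t ξ
    rw [dist_eq_norm, hΨ, hΨ, sub_sub_sub_cancel_left, ← Finset.sum_sub_distrib]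
    refine le_trans (le_of_eq ?_) (h1.trans (le_of_eq (by push_cast; ring)))
    congr 1
    refine Finset.sum_congr rfl fun m _ => ?_
    rw [← Finset.sum_sub_distrib]
    refine Finset.sum_congr rfl fun j _ => ?_
    simp only [conv]
    rw [← integral_sub]
    · refine integral_congr_ae (Eventually.of_forall fun η => ?_)
      simp only
      rw [hTs m _ _ (hcts _) (hcts _), mul_sub]
    · exact NeuAux.conv_int (hβc m i j) (hTc m _ (hcts _)) hM2 (by positivity) (hβ1 m i j)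
        (hβ0 m i j) (hTf m (g' j)) t ξ
    · exact NeuAux.conv_int (hβc m i j) (hTc m _ (hcts _)) hM2 (by positivity) (hβ1 m i j)
        (hβ0 m i j) (hTf m (g j)) t ξ
  set G := ContractingWith.fixedPoint Ψ hcon with hG
  have hw : ∀ (s : ℕ) (e : ℝ),
      (∀ i t ξ, (1 + ‖ξ‖) ^ 3 * (1 + ε s * ‖ξ‖) ^ s * ‖φ i t ξ‖ ≤ e) →
      ∀ i t ξ, (1 + ‖ξ‖) ^ 3 * (1 + ε s * ‖ξ‖) ^ s * ‖G i (t, ξ)‖ ≤ 2 * e := by
    intro s e he
    have hp : ∀ ξ : ℝ × ℝ, 0 < (1 + ‖ξ‖) ^ 3 * (1 + ε s * ‖ξ‖) ^ s := fun ξ => by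
      have := hε0 s
      positivity
    have h1 : ∀ n : ℕ, ∀ i t ξ,
        (1 + ‖ξ‖) ^ 3 * (1 + ε s * ‖ξ‖) ^ s * ‖(Ψ^[n] 0) i (t, ξ)‖ ≤ 2 * e := by
      intro n
      induction n with
      | zero =>
        intro i t ξ
        have := (mul_nonneg (hp ξ).le (norm_nonneg _)).trans (he i t ξ)
        simpa using this
      | succ n ih =>
        intro i t ξ
        rw [Function.iterate_succ_apply', hΨ]
        have h2 := key _ (NeuAux.wsub (hε0 s).le s) hp (fun m i j => hε s (m, i, j))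
          (fun j t ξ => (Ψ^[n] 0) j (t, ξ)) _ (fun j => hcts _) ih i t ξ
        refine (mul_le_mul_of_nonneg_left (norm_sub_le _ _) (hp ξ).le).trans ?_
        rw [mul_add]
        linarith [he i t ξ]
    intro i t ξ
    have h2 : Continuous fun g : ι → BoundedContinuousFunction (ℝ × (ℝ × ℝ)) ℂ =>
        (1 + ‖ξ‖) ^ 3 * (1 + ε s * ‖ξ‖) ^ s * ‖g i (t, ξ)‖ := by fun_prop
    exact le_of_tendsto' ((h2.tendsto _).comp (hcon.tendsto_iterate_fixedPoint 0))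
      fun n => h1 n i t ξ
  refine ⟨fun i t ξ => G i (t, ξ), fun i => hcts _, fun i t ξ => ?_, fun i t ξ => ?_,
    fun s i t ξ => ?_⟩
  · have h1 := hΨ G i t ξ
    rw [hcon.fixedPoint_isFixedPt.eq] at h1
    exact eq_sub_iff_add_eq.1 h1
  · simpa using hw 0 c (by simpa using hφ3) i t ξ
  · have h0 := hε0 s
    have h1 := hw s (cs s) (fun i t ξ => le_trans (by
      rw [add_comm s 3, pow_add]
      gcongr
      exact mul_le_of_le_one_left (norm_nonneg _) (hε1 s)) (hcs s i t ξ)) i t ξ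
    rw [le_div_iff₀' (by positivity)]
    refine le_trans ?_ h1
    rw [← mul_assoc, ← mul_pow]
    refine mul_le_mul_of_nonneg_right (le_trans ?_ (le_mul_of_one_le_left (by positivity)
      (one_le_pow₀ (by simp)))) (norm_nonneg _)
    gcongr
    rw [mul_add, mul_one]
    linarith [hε1 s]

end Crest.Agent.R80
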