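import Crest.Agent.R80.JOp
import Crest.Agent.R80.Neu
import Crest.Agent.R80.Conv

/-! Row 80: the first-order solver on the symbol side. -/

set_option autoImplicit false
open MeasureTheory Filter Topology Crest.AnalysisR.VecCalc3
open scoped ContDiff RealInnerProductSpace

namespace Crest.Agent.R80

theorem FOsym_chi (R : ℝ) : ∃ χ : ℝ → ℂ, ContDiff ℝ ∞ χ ∧ (∀ t, ‖χ t‖ ≤ 1) ∧
    (∀ t, |t| ≤ R → χ t = 1) ∧ ∀ t, |R| + 2 < |t| → χ t = 0 := by
  have hR := abs_nonneg R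
  let f : ContDiffBump (0 : ℝ) := ⟨|R| + 1, |R| + 2, by positivity, by linarith⟩
  refine ⟨fun t => (f t : ℂ), Complex.ofRealCLM.contDiff.comp f.contDiff, fun t => ?_,
    fun t ht => ?_, fun t ht => ?_⟩
  · rw [Complex.norm_real, Real.norm_of_nonneg f.nonneg]; exact f.le_one
  · have : f t = 1 := f.one_of_mem_closedBall (by
      rw [mem_closedBall_zero_iff, Real.norm_eq_abs]
      show |t| ≤ |R| + 1
      linarith [le_abs_self R])
    simp only [this, Complex.ofReal_one]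
  · have : f t = 0 := f.zero_of_le_dist (by
      rw [dist_zero_right, Real.norm_eq_abs]
      exact ht.le)
    simp only [this, Complex.ofReal_zero]

theorem FOsym_w {K : ℝ} (hK : 0 < K) (α : ℝ) {g : ℝ → ℂ} (hg : Continuous g) {w c : ℝ}
    (hw : 0 < w) (hc : ∀ s, w * ‖g s‖ ≤ c) (t : ℝ) : w * ‖J K α g t‖ ≤ 2 * c / Real.sqrt K := by
  have h := J_norm_le hK α hg (c := c / w) (fun s => by
    rw [le_div_iff₀ hw, mul_comm]; exact hc s) t
  calc w * ‖J K α g t‖ ≤ w * (2 * (c / w) / Real.sqrt K) := mul_le_mul_of_nonneg_left h hw.le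
    _ = _ := by field_simp

theorem FOsym_slice {g : Sym} (hg : Cts g) (ξ : ℝ × ℝ) : Continuous fun s => g s ξ :=
  hg.comp (continuous_id.prodMk continuous_const)

theorem foSym (ι : Type) [Fintype ι] (M R : ℝ) : ∃ C : ℝ, ∀ (β : ι → ι → Sym) (φ : ι → Sym),
    (∀ i j, Nice (β i j)) → (∀ i, Nice (φ i)) →
    (∀ i j t ξ, (1 + ‖ξ‖) ^ 6 * ‖β i j t ξ‖ ≤ M) → (∀ i t ξ, (1 + ‖ξ‖) ^ 6 * ‖φ i t ξ‖ ≤ M) →
    ∃ a a₁ : ι → Sym, (∀ i, Nice (a i)) ∧
      (∀ i t ξ, HasDerivAt (fun r => a i r ξ) (a₁ i t ξ) t) ∧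
      (∀ i t ξ, |t| ≤ R →
        a₁ i t ξ - (ξ.1 : ℂ) * a i t ξ + ∑ j, conv (β i j) (a j) t ξ = φ i t ξ) ∧
      ∀ i t ξ, |t| ≤ R → (1 + ‖ξ‖) ^ 3 * ‖a i t ξ‖ ≤ C := by
  obtain ⟨χ, hχ, hχ1, hχR, hχ0⟩ := FOsym_chi R
  have hc3 := c3_nonneg
  set M' : ℝ := max M 1 with hM'
  have hM0 : 0 < M' := lt_of_lt_of_le one_pos (le_max_right _ _)
  have hMM : M ≤ M' := le_max_left _ _
  set D : ℝ := 8 * c3 * M' * Fintype.card ι + 1 with hD
  have hD0 : 0 < D := by positivity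
  set K : ℝ := D ^ 2 with hKd
  have hK : 0 < K := by positivity
  have hsq : Real.sqrt K = D := Real.sqrt_sq hD0.le
  refine ⟨Real.exp (K * R ^ 2 / 2) * (2 * (2 * M') / Real.sqrt K), fun β φ hβ hφ hβM hφM => ?_⟩
  have hT : ∀ τ ∈ ({1} : Set ℝ), 1 ≤ τ := fun τ hτ => le_of_eq (Set.mem_singleton_iff.1 hτ).symm
  set E : ℝ → ℂ := fun t => Complex.exp ((K * t ^ 2 / 2 : ℝ) : ℂ) with hE
  set χ' : ℝ → ℂ := fun t => χ t * Complex.exp ((-(K * t ^ 2 / 2) : ℝ) : ℂ) with hχ'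
  have hEc : ContDiff ℝ ∞ E :=
    (Complex.ofRealCLM.contDiff.comp (f := fun t : ℝ => K * t ^ 2 / 2) (by fun_prop)).cexp
  have hχ'c : ContDiff ℝ ∞ χ' := hχ.mul
    (Complex.ofRealCLM.contDiff.comp (f := fun t : ℝ => -(K * t ^ 2 / 2)) (by fun_prop)).cexp
  have hχ'1 : ∀ t, ‖χ' t‖ ≤ 1 := fun t => by
    rw [hχ', norm_mul, Complex.norm_exp_ofReal]
    refine mul_le_one₀ (hχ1 t) (Real.exp_pos _).le (Real.exp_le_one_iff.2 ?_)
    have : 0 ≤ K * t ^ 2 / 2 := by positivity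
    linarith
  have hχ'0 : ∀ t, |R| + 2 < |t| → χ' t = 0 := fun t ht => by
    simp only [hχ', hχ0 t ht, zero_mul]
  have hβt : ∀ n i j, Tw {1} n 0 fun _ t ξ => χ t * β i j t ξ := fun n i j =>
    (hβ i j n).mul_t hT χ hχ
  have hφt : ∀ n i, Tw {1} n 0 fun _ t ξ => χ' t * φ i t ξ := fun n i =>
    (hφ i n).mul_t hT χ' hχ'c
  obtain ⟨Cs, H⟩ := neu (κ := Unit) Set.univ (fun _ i j t ξ => χ t * β i j t ξ)
    (fun i t ξ => χ' t * φ i t ξ) M' M' (2 / Real.sqrt K) hM0 (by positivity)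
    (by
      rw [hsq, Fintype.card_unit, Nat.cast_one]
      have : 4 * c3 * (2 / D) * M' * 1 * Fintype.card ι = (D - 1) / D := by
        rw [hD]; field_simp; ring
      rw [this, div_le_one hD0]; linarith)
    (fun _ i j => (hβt 0 i j).rap.1 1 rfl) (fun _ _ _ t ht => absurd (Set.mem_univ t) ht)
    (fun _ i j t η => by
      refine le_trans ?_ ((hβM i j t η).trans hMM)
      rw [norm_mul]
      exact mul_le_mul_of_nonneg_left (mul_le_of_le_one_left (norm_nonneg _) (hχ1 t))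
        (by positivity))
    (fun _ i j s => (hβ i j).cut hχ.continuous hχ0 s)
    (fun i => (hφt 0 i).rap.1 1 rfl)
    (fun i t ξ => by
      refine le_trans ?_ ((hφM i t ξ).trans hMM)
      rw [norm_mul]
      exact mul_le_mul (pow_le_pow_right₀ (by linarith [norm_nonneg ξ]) (by norm_num))
        (mul_le_of_le_one_left (norm_nonneg _) (hχ'1 t)) (by positivity) (by positivity))
    (fun i s => (hφ i).cut hχ'c.continuous hχ'0 s)
  obtain ⟨g, hgc, hgeq, hg3, hgs⟩ := H (fun _ g t ξ => J K (-ξ.1) (fun s => g s ξ) t)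
    (fun _ g hg => J_cts K (α := fun ξ => -ξ.1) (by fun_prop) hg)
    (fun _ g g' hg hg' t ξ => J_sub K _ (FOsym_slice hg ξ) (FOsym_slice hg' ξ) t)
    (fun _ g hg ξ e he t _ => (J_norm_le hK _ (FOsym_slice hg ξ) he t).trans_eq (by ring))
  set A : ι → Sym := fun i t ξ => J K (-ξ.1) (fun s => g i s ξ) t with hA
  have hAd : ∀ i t ξ, HasDerivAt (fun r => A i r ξ)
      (g i t ξ - ((-ξ.1 + K * t : ℝ) : ℂ) * A i t ξ) t := fun i t ξ =>
    J_hasDerivAt K _ (FOsym_slice (hgc i) ξ) t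
  have hAr : ∀ i, Rap {1} 0 fun _ => A i := fun i =>
    ⟨fun _ _ => J_cts K (α := fun ξ => -ξ.1) (by fun_prop) (hgc i), fun s _ =>
      ⟨2 * Cs s / Real.sqrt K, fun τ _ t ξ _ => by
        rw [pow_zero, mul_one]
        exact FOsym_w hK _ (FOsym_slice (hgc i) ξ) (by positivity) (fun r => hgs s i r ξ) t⟩⟩
  have hgeq' : ∀ i t ξ, g i t ξ +
      ∑ j, conv (fun t ξ => χ t * β i j t ξ) (A j) t ξ = χ' t * φ i t ξ := fun i t ξ => by
    have := hgeq i t ξ
    rwa [Fintype.sum_unique] at this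
  have step : ∀ n i, Tw {1} n 1 (fun _ => g i) → Tw {1} (n + 1) 0 fun _ => A i := fun n i h =>
    Tw.ode hT (fun _ ξ => -ξ.1) (fun _ _ => by fun_prop) 1 K
      (fun τ hτ ξ => by
        rw [Set.mem_singleton_iff.1 hτ, abs_neg, one_mul, one_mul, ← Real.norm_eq_abs]
        linarith [norm_fst_le ξ])
      (hAr i) (fun _ _ t ξ => hAd i t ξ) h
  have hg : ∀ n i, Tw {1} n 1 fun _ => g i := by
    intro n
    induction n with
    | zero =>
      intro i
      exact ⟨fun _ _ => hgc i, fun s _ => ⟨Cs s, fun τ hτ t ξ _ => by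
        rw [Set.mem_singleton_iff.1 hτ, one_pow, mul_one]; exact hgs s i t ξ⟩⟩
    | succ n ih =>
      intro i
      have h1 := (hφt (n + 1) i).sub (Tw.sum Finset.univ
        (H := fun j _ => conv (fun t ξ => χ t * β i j t ξ) (A j))
        fun j _ => Tw.conv hT (hβt (n + 1) i j) (step n j (ih j)))
      refine (h1.congr fun _ _ t ξ => ?_).mono hT zero_le_one
      rw [← hgeq' i t ξ]; ring
  refine ⟨fun i t ξ => E t * A i t ξ, fun i t ξ => E t * (g i t ξ + (ξ.1 : ℂ) * A i t ξ),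
    fun i n => ((step n i (hg n i)).of_le (Nat.le_succ n)).mul_t hT E hEc, fun i t ξ => ?_,
    fun i t ξ ht => ?_, fun i t ξ ht => ?_⟩
  · have h1 : HasDerivAt (fun r : ℝ => K * r ^ 2 / 2) (K * t) t := by
      refine (((hasDerivAt_pow 2 t).const_mul K).div_const 2).congr_deriv ?_
      push_cast; ring
    have h2 : HasDerivAt E (E t * ((K * t : ℝ) : ℂ)) t := h1.ofReal_comp.cexp
    refine (h2.mul (hAd i t ξ)).congr_deriv ?_
    push_cast; ring
  · have h1 : ∀ j, conv (β i j) (fun t ξ => E t * A j t ξ) t ξ =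
        E t * conv (fun t ξ => χ t * β i j t ξ) (A j) t ξ := fun j => by
      simp only [conv]
      rw [← integral_const_mul]
      refine integral_congr_ae (Eventually.of_forall fun η => ?_)
      simp only [hχR t ht]; ring
    have h2 : E t * χ' t = 1 := by
      simp only [hE, hχ', hχR t ht, one_mul]
      rw [← Complex.exp_add]
      push_cast
      rw [add_neg_cancel, Complex.exp_zero]
    simp only [h1]
    rw [← Finset.mul_sum]
    linear_combination E t * hgeq' i t ξ + φ i t ξ * h2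
  · rw [norm_mul, mul_left_comm]
    refine mul_le_mul ?_
      (FOsym_w hK _ (FOsym_slice (hgc i) ξ) (by positivity) (fun r => hg3 i r ξ) t)
      (by positivity) (Real.exp_pos _).le
    rw [hE, Complex.norm_exp_ofReal, Real.exp_le_exp]
    have : t ^ 2 ≤ R ^ 2 := by
      rw [← sq_abs t]; exact pow_le_pow_left₀ (abs_nonneg t) ht 2
    gcongr

end Crest.Agent.R80
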