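import Crest.Agent.R80.Da
import Crest.Agent.R80.FOsym
import Crest.Agent.R80.SynL
import Crest.Agent.R80.Rep
import Crest.Agent.R80.Frame
import Crest.Agent.R80.FOfinAux

/-! Row 80: the first-order solver in `Ob D`. -/

set_option autoImplicit false
open MeasureTheory Filter Topology Crest.AnalysisR.VecCalc3
open scoped ContDiff RealInnerProductSpace

namespace Crest.Agent.R80

open FOfin in
theorem Dom.fo (D : Dom) : D.da.FO := by
  intro ι _ _ M
  obtain ⟨R, -, hR⟩ := exists_radius D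
  obtain ⟨C, hC⟩ := foSym ι (4 * (M + 1)) R
  refine ⟨max (C * c3) 0, fun θ hθ B φ hB hφ => ?_⟩
  obtain ⟨b, hb⟩ := hθ.exists_frame
  choose β hβ hβ' using fun i j => exists_rp b (hB i j)
  choose s hs hs' using fun i => exists_rp b (hφ i)
  obtain ⟨a, a₁, ha, hd, he, hbd⟩ := hC β s (fun i j => (hβ i j).1) (fun i => (hs i).1) hβ' hs'
  refine ⟨fun i => Ob.mk D _ (contDiff_syn b (ha i)), fun i => ?_, fun i => ?_⟩
  · exact (((rp_mk (ha i)).dd hb (hd i)).add
      (Rp.sum Finset.univ fun j _ => (hβ i j).mul (rp_mk (ha j)))).eq (hs i) (hR b) (he i)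
  · refine Ob.sup_le _ (le_max_right _ _) fun x => le_trans ?_ (le_max_left _ _)
    exact synS_norm_le (fun ξ => hbd i _ ξ (hR b x)) _

end Crest.Agent.R80
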