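import Crest.Agent.R80.FinalAux

/-! Row 80: testing the functionals identifies the moduli. -/

set_option autoImplicit false
open Filter Topology Matrix

namespace Crest.Agent.R80

theorem θz_θz (z : ℂ) : ∑ a, θz z a * θz z a = 0 := by simpa [sq] using (null_θz z).1

theorem θz_e1 (z : ℂ) : ∑ a, θz z a * e1 z a = 0 := by
  have hI : Complex.I * Complex.I = -1 := Complex.I_mul_I
  simp only [θz, e1, Fin.sum_univ_three, cons_val_zero, cons_val_one, cons_val]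
  linear_combination (z + z ^ 3) * hI

theorem e1_e1 (z : ℂ) : ∑ a, e1 z a * e1 z a = 1 := by
  have hI : Complex.I * Complex.I = -1 := Complex.I_mul_I
  simp only [e1, Fin.sum_univ_three, cons_val_zero, cons_val_one, cons_val]
  linear_combination z ^ 2 * hI

namespace DA
variable {O : Type} [CommRing O] [Algebra ℂ O] [TopologicalSpace O] (S : DA O)

theorem half_two : (2 : O) * algebraMap ℂ O (1 / 2) = 1 := by
  rw [show (2 : O) = algebraMap ℂ O 2 from (map_ofNat _ 2).symm, ← map_mul]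
  norm_num

theorem tens_θz (z : ℂ) (y : I4 → O) :
    tensL (eU (θz z)) y = tensL (eU (e0 z)) y + z • tensL (eU (e1 z)) y := by
  ext i j
  rcases i with _ | a
  · simp [tensL_apply]
  · simp only [tensL_apply, eU_some, Matrix.add_apply, Matrix.smul_apply, smul_smul, ← add_smul]
    congr 1
    fin_cases a <;> simp [θz, e0, e1] <;> ring

section
variable {S} (hfo : S.FO) {M₁ M₂ : Mod O} {G : (Fin 3 → ℂ) → Matrix I4 I4 O →ₗ[ℂ] ℂ}
  (hG : S.GData M₁ M₂ G) (hL : Liou G)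
include hfo hG hL

theorem fin_c1 (z : ℂ) (ρ : Fin 3 → O) : G (θz z) (tensL eP (vR ρ)) = 0 := by
  have h : ∀ w f, G (θz z) (tensL eP (vR (vecO (θz w) f))) = 0 := fun w f => by
    have h1 := S.G4 hfo hG (null_θz w) eP (by simp) f
    exact (hL.cst _ z).trans ((hL.cst _ w).symm.trans h1)
  obtain ⟨f₀, f₁, f₂, rfl⟩ := span_θz ρ
  simp only [map_add, h, add_zero]

theorem fin_P1 (z : ℂ) (ρ : Fin 3 → O) : G (θz z) (tensL (eU (θz z)) (vR ρ))
    = -G (θz 0) (tensL eP (vS (M₂.g * M₂.k * M₁.k' * dotO (θz z) ρ))) := by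
  have h2 := half_two (O := O)
  have hk := M₁.k_k'
  have h := hG.eq _ (null_θz z) _ (cons_eP (θz z) (vR ((2 * M₁.k') • ρ)))
  rw [Pop_eP, T2_vR, jf_eP_vR, smul_vR, smul_smul, dotO_smul] at h
  have e1 : (1 / 2 : ℂ) • M₁.k * (2 * M₁.k') = 1 := by
    rw [Algebra.smul_def]
    linear_combination (M₁.k * M₁.k') * h2 + hk
  have e2 : (1 / 2 : ℂ) • (M₂.g * M₂.k * (2 * M₁.k' * dotO (θz z) ρ))
      = M₂.g * M₂.k * M₁.k' * dotO (θz z) ρ := by
    rw [Algebra.smul_def]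
    linear_combination (M₂.g * M₂.k * M₁.k' * dotO (θz z) ρ) * h2
  rw [e1, e2, one_smul] at h
  simp only [map_add, map_zero, fin_c1 hfo hG hL, zero_add] at h
  have h3 := hL.cst (vS (M₂.g * M₂.k * M₁.k' * dotO (θz z) ρ)) z
  change G (θz z) (tensL eP _) = G (θz 0) (tensL eP _) at h3
  rw [h3] at h
  linear_combination h

theorem fin_lin (z : ℂ) (ρ : Fin 3 → O) : G (θz z) (tensL (eU (e1 z)) (vR ρ))
    = -G (θz 0) (tensL eP (vS (M₂.g * M₂.k * M₁.k' * dotO (e1 z) ρ))) := by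
  set α : O →ₗ[ℂ] ℂ := -(G (θz 0) ∘ₗ tensL eP ∘ₗ vS ∘ₗ LinearMap.mulLeft ℂ (M₂.g * M₂.k * M₁.k'))
    with hα
  have hαa : ∀ f, α f = -G (θz 0) (tensL eP (vS (M₂.g * M₂.k * M₁.k' * f))) := fun f => rfl
  set ε : (Fin 3 → O) →ₗ[ℂ] ℂ := α ∘ₗ LinearMap.proj 2 - G (θz 0) ∘ₗ tensL (eU (e1 0)) ∘ₗ vR
    with hε
  have key : ∀ (w : ℂ) (r : Fin 3 → O),
      G (θz w) (tensL (eU (e1 w)) (vR r)) = α (dotO (e1 w) r) - ε r := by
    intro w r
    obtain ⟨a₀, a₁, ha⟩ := hL.lin0 (vR r)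
    obtain ⟨b₀, b₁, hb⟩ := hL.lin1 (vR r)
    change ∀ z, G (θz z) (tensL _ _) = _ at ha hb
    have h : ∀ u : ℂ, a₀ + a₁ * u + u * (b₀ + b₁ * u)
        = (1 - u ^ 2) * α (r 0) + Complex.I * (1 + u ^ 2) * α (r 1) + 2 * u * α (r 2) := by
      intro u
      have h1 := fin_P1 hfo hG hL u r
      rw [← hαa, tens_θz, map_add, map_smul, ha, hb] at h1
      simpa [dotO_apply, Fin.sum_univ_three, θz] using h1
    have h0 := h 0
    have h1 := h 1
    have h2 := h (-1)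
    have e : ε r = α (r 2) - b₀ := by
      have := hb 0
      simp only [hε, LinearMap.sub_apply, LinearMap.comp_apply, LinearMap.proj_apply, this]
      ring
    rw [hb, e]
    simp only [dotO_apply, Fin.sum_univ_three, e1, cons_val_zero, cons_val_one, cons_val, map_add,
      map_smul, smul_eq_mul]
    linear_combination (w / 2) * h1 + (w / 2) * h2 - w * h0
  have hε0 : ∀ w f, ε (vecO (θz w) f) = 0 := fun w f => by
    have h1 := S.G4 hfo hG (null_θz w) (eU (e1 w)) (θz_e1 w) f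
    have h2 : ∑ a, e1 w a * θz w a = 0 := by simpa [mul_comm] using θz_e1 w
    rw [key, dotO_vecO, h2] at h1
    simpa using h1
  rw [key, ← hαa]
  obtain ⟨f₀, f₁, f₂, rfl⟩ := span_θz ρ
  simp only [map_add, hε0, add_zero, sub_zero]

theorem fin_U1 (F : O) :
    -G (θz 0) (tensL eP (vS (M₂.g * M₂.k * M₁.k' * F))) = S.I (M₁.g * F) := by
  obtain ⟨f, rfl⟩ := S.surjS hfo (null_θz 0) ((1 / 2 : ℂ) • dotO (θz 0) (S.L M₁)) F
  have h := hG.eq _ (null_θz 0) _ (cons_eU (θz_e1 0) (vR (vecO (e1 0) f)))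
  rw [Pop_eU, T2_vR, jf_eU_vR] at h
  simp only [smul_vR, smul_vecO, map_add, map_sub, fin_lin hfo hG hL, fin_P1 hfo hG hL,
    fin_c1 hfo hG hL, dotO_vecO, θz_e1, e1_e1, zero_smul, one_smul, mul_zero, zero_mul, smul_zero,
    sub_zero, map_zero, neg_zero, add_zero] at h
  have e : (dotO (e1 0) fun a => S.dd (θz 0) (vecO (e1 0) f a)) = S.dd (θz 0) f := by
    rw [← dd_dotO, dotO_vecO, e1_e1, one_smul]
  rw [e, dd_mul, dd_g] at h
  rw [mul_add, map_add, map_add, map_add, neg_add, h]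
  congr 1
  simp only [Algebra.smul_def]
  ring

theorem fin_c (z : ℂ) (ς : O) :
    G (θz z) (tensL eP (vS ς)) = -S.I (M₁.g * M₂.h * M₁.k * M₂.k' * ς) := by
  have h := fin_U1 hfo hG hL (M₂.h * M₂.k' * M₁.k * ς)
  have e : M₂.g * M₂.k * M₁.k' * (M₂.h * M₂.k' * M₁.k * ς) = ς := by
    have h1 := M₂.gh
    have h2 := M₁.k_k'
    have h3 := M₂.k_k'
    linear_combination (M₂.k * M₂.k' * M₁.k * M₁.k' * ς) * h1 + (M₁.k * M₁.k' * ς) * h3 + ς * h2
  rw [e] at h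
  have h3 := hL.cst (vS ς) z
  change G (θz z) (tensL eP _) = G (θz 0) (tensL eP _) at h3
  rw [h3, show M₁.g * M₂.h * M₁.k * M₂.k' * ς = M₁.g * (M₂.h * M₂.k' * M₁.k * ς) by ring, ← h,
    neg_neg]

theorem fin_R (z : ℂ) (ρ : Fin 3 → O) :
    G (θz z) (tensL (eU (θz z)) (vR ρ)) = S.I (M₁.g * dotO (θz z) ρ) := by
  rw [fin_P1 hfo hG hL, fin_U1 hfo hG hL]

theorem fin_U2 (z : ℂ) (ς : O) : G (θz z) (tensL (eU (θz z)) (vS ς))
    = -S.I (M₁.g * M₂.h * M₂.k' * (dotO (θz z) (S.L M₁) - dotO (θz z) (S.L M₂)) * ς) := by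
  have h2 := half_two (O := O)
  obtain ⟨v, hv⟩ := (null_θz z).exists_dual
  obtain ⟨f, hf⟩ : ∃ f, f = 2 * M₂.h * M₂.k' * ς := ⟨_, rfl⟩
  have h := hG.eq _ (null_θz z) _ (cons_eU (θz_θz z) (vR (vecO v f)))
  rw [Pop_eU, T2_vR, jf_eU_vR] at h
  simp only [smul_vR, smul_vecO, map_add, map_sub, fin_R hfo hG hL, fin_c1 hfo hG hL, dotO_vecO,
    hv, one_smul, sub_zero] at h
  have e1 : (1 / 2 : ℂ) • (M₂.g * M₂.k * f) = ς := by
    have h1 := M₂.gh
    have h3 := M₂.k_k'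
    rw [Algebra.smul_def, hf]
    linear_combination (M₂.g * M₂.h * M₂.k * M₂.k' * ς) * h2 + (M₂.k * M₂.k' * ς) * h1 + ς * h3
  have e2 : (dotO (θz z) fun a => S.dd (θz z) (vecO v f a) - (1 / 2 : ℂ) • (f * S.L M₂ a))
      = S.dd (θz z) f - (1 / 2 : ℂ) • (f * dotO (θz z) (S.L M₂)) := by
    have : (fun a => S.dd (θz z) (vecO v f a) - (1 / 2 : ℂ) • (f * S.L M₂ a))
        = (fun a => S.dd (θz z) (vecO v f a)) - (1 / 2 : ℂ) • f • S.L M₂ := rfl
    rw [this, map_sub, map_smul, dotO_smul, ← dd_dotO, dotO_vecO, hv, one_smul]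
  rw [e1, e2, dd_mul, dd_g] at h
  have h3 : G (θz z) (tensL (eU (θz z)) (vS ς)) = S.I
      ((1 / 2 : ℂ) • (M₁.g * dotO (θz z) (S.L M₁)) * f + M₁.g * S.dd (θz z) f
        - M₁.g * (S.dd (θz z) f - (1 / 2 : ℂ) • (f * dotO (θz z) (S.L M₂)))
        - M₁.g * ((1 / 2 : ℂ) • dotO (θz z) (S.L M₁) * f)
        - M₁.g * ((1 / 2 : ℂ) • dotO (θz z) (S.L M₁) * f)) := by
    rw [map_sub, map_sub, map_sub, ← h]
    ring
  rw [h3, ← map_neg]
  congr 1
  simp only [Algebra.smul_def, hf]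
  linear_combination (-(M₁.g * M₂.h * M₂.k' * (dotO (θz z) (S.L M₁) - dotO (θz z) (S.L M₂)) * ς)) * h2

theorem fin_k : M₁.k = M₂.k := by
  have h2 := half_two (O := O)
  have hgh₁ := M₁.gh
  have hgh₂ := M₂.gh
  have h0 : 1 - M₁.k * M₂.k' = 0 := by
    refine S.nd _ fun F => ?_
    obtain ⟨u, rfl⟩ := S.surjS hfo (null_θz 0) 0 F
    set ς := M₁.h * M₂.g * u with hς
    have hu : u = M₁.g * M₂.h * ς := by
      rw [hς]
      linear_combination (-(M₂.g * M₂.h * u)) * hgh₁ - u * hgh₂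
    have h := hG.eq _ (null_θz 0) _ (cons_eP (θz 0) (vS ς))
    rw [Pop_eP, T2_vS, jf_eP_vS, smul_vS] at h
    simp only [map_add, map_sub, map_neg, fin_c hfo hG hL, fin_c1 hfo hG hL, fin_U2 hfo hG hL,
      sub_zero] at h
    have e : S.dd (θz 0) u = M₁.g * M₂.h * (S.dd (θz 0) ς
        + (1 / 2 : ℂ) • ((dotO (θz 0) (S.L M₁) - dotO (θz 0) (S.L M₂)) * ς)) := by
      rw [hu]
      simp only [dd_mul, dd_g, dd_h, Algebra.smul_def]
      ring
    rw [← hu] at h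
    have h3 : (1 - M₁.k * M₂.k') * (S.dd (θz 0) u + 0 * u) = S.dd (θz 0) u
        - M₁.g * M₂.h * M₁.k * M₂.k' * S.dd (θz 0) ς
        - M₁.g * M₂.h * M₂.k' * (dotO (θz 0) (S.L M₁) - dotO (θz 0) (S.L M₂))
          * ((1 / 2 : ℂ) • M₁.k * ς) := by
      rw [zero_mul, add_zero, sub_mul, one_mul, sub_sub]
      congr 1
      rw [e]
      simp only [Algebra.smul_def]
      ring
    rw [h3, map_sub, map_sub]
    linear_combination h
  have := M₂.k_k'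
  linear_combination (-M₂.k) * h0 - M₁.k * this

theorem fin_p (z : ℂ) : dotO (θz z) (S.L M₁) - dotO (θz z) (S.L M₂) = 0 := by
  have h2 := half_two (O := O)
  have hgh₁ := M₁.gh
  have hgh₂ := M₂.gh
  have hk := fin_k hfo hG hL
  have hkk := M₂.k_k'
  have hσ := M₂.σσ'
  set l₁ := dotO (θz z) (S.L M₁) with hl₁
  set l₂ := dotO (θz z) (S.L M₂) with hl₂
  have hu : (1 - M₂.k') * (-(M₂.σ * M₂.k)) = 1 := by
    have : M₂.k = 1 - M₂.σ' := rfl
    linear_combination M₂.σ * hkk - M₂.σ * this + hσ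
  have h0 : M₁.g * M₂.h * (l₁ - l₂) = 0 := by
    refine S.nd _ fun F => ?_
    obtain ⟨ς, hς⟩ := S.surjS hfo (null_θz z) (-(M₂.σ * M₂.k) *
      (-(M₂.k' * l₁) + l₁ + l₂ + (1 / 2 : ℂ) • (l₁ - l₂))) (-(M₂.σ * M₂.k) * F)
    have hF : F = (1 - M₂.k') * S.dd (θz z) ς
        + (-(M₂.k' * l₁) + l₁ + l₂ + (1 / 2 : ℂ) • (l₁ - l₂)) * ς := by
      linear_combination (-(1 - M₂.k')) * hς - F * hu
        + ((-(M₂.k' * l₁) + l₁ + l₂ + (1 / 2 : ℂ) • (l₁ - l₂)) * ς) * hu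
    have h := hG.eq _ (null_θz z) _ (cons_eU (θz_θz z) (vS ς))
    rw [Pop_eU, T2_vS, jf_eU_vS] at h
    simp only [smul_vS, map_add, map_sub, map_neg, fin_c hfo hG hL, fin_R hfo hG hL,
      fin_U2 hfo hG hL] at h
    have e1 : (dotO (θz z) fun a => M₂.h * ς * ∑ c, θz z c • S.W M₂ a c)
        = M₂.h * ς * S.Wq M₂ (θz z) (θz z) := by
      simp only [dotO_apply, Wq, Finset.mul_sum, mul_smul_comm]
    rw [e1, Wq_self, Wq_self, ← hl₁, ← hl₂, hk] at h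
    have h3 : M₁.g * M₂.h * (l₁ - l₂) * F =
        S.dd (θz z) (M₁.g * M₂.h * ((l₁ - l₂) * ς))
        - M₁.g * M₂.h * M₂.k' * (l₁ - l₂) * S.dd (θz z) ς
        - M₁.g * (M₂.h * ς * (-S.dd (θz z) l₂ + l₂ * l₂))
        - M₁.g * M₂.h * M₂.k' * (l₁ - l₂) * ((1 / 2 : ℂ) • l₁ * ς)
        - M₁.g * M₂.h * M₂.k' * (l₁ - l₂) * ((1 / 2 : ℂ) • l₁ * ς)
        + M₁.g * M₂.h * M₂.k * M₂.k' * ((-S.dd (θz z) l₁ + l₁ * l₁) * ς) := by
      rw [hF]
      simp only [dd_mul, dd_g, dd_h, map_sub, ← hl₁, ← hl₂, Algebra.smul_def]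
      linear_combination (M₁.g * M₂.h * M₂.k' * (l₁ - l₂) * l₁ * ς) * h2
        - (M₁.g * M₂.h * ((-S.dd (θz z) l₁ + l₁ * l₁) * ς)) * hkk
    rw [h3, map_add, map_sub, map_sub, map_sub, map_sub]
    linear_combination h
  linear_combination (M₁.h * M₂.g) * h0 - ((l₁ - l₂) * M₂.g * M₂.h) * hgh₁ - (l₁ - l₂) * hgh₂

end

theorem final (hfo : S.FO) {M₁ M₂ : Mod O} (hibp : S.IBP M₁ M₂)
    {G : (Fin 3 → ℂ) → Matrix I4 I4 O →ₗ[ℂ] ℂ} (hG : S.GData M₁ M₂ G) (hL : Liou G) :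
    M₁.g = M₂.g ∧ M₁.σ' = M₂.σ' := by
  have hk := fin_k hfo hG hL
  have hp := fin_p hfo hG hL 0
  have hgh := M₂.gh
  refine ⟨?_, by simpa [Mod.k] using hk⟩
  have hw : S.dd (θz 0) ((M₁.g - M₂.g) * M₂.h) = 0 := by
    have : (M₁.g - M₂.g) * M₂.h = M₁.g * M₂.h - 1 := by linear_combination -hgh
    rw [this, map_sub, Derivation.map_one_eq_zero, dd_mul, dd_g, dd_h]
    simp only [Algebra.smul_def]
    linear_combination (algebraMap ℂ O (1 / 2) * M₁.g * M₂.h) * hp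
  have h0 : (M₁.g - M₂.g) * M₂.h = 0 := by
    refine S.nd _ fun F => ?_
    obtain ⟨u, rfl⟩ := S.surjS hfo (null_θz 0) 0 F
    have e : (M₁.g - M₂.g) * M₂.h * (S.dd (θz 0) u + 0 * u)
        = S.dd (θz 0) ((M₁.g - M₂.g) * (M₂.h * u)) := by
      rw [← mul_assoc, dd_mul, hw]
      ring
    rw [e, dd_apply, map_sum]
    simp only [map_smul, hibp _ _, smul_zero, Finset.sum_const_zero]
  linear_combination M₂.g * h0 - (M₁.g - M₂.g) * hgh

end DA

end Crest.Agent.R80
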