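import Crest.Agent.R80.Surj

/-! Row 80: test tensors for the functionals G. -/

set_option autoImplicit false
open Filter Topology Matrix

namespace Crest.Agent.R80

section
variable {O : Type} [CommRing O] [Algebra ℂ O]

/-- (ρ, 0) -/
def vR : (Fin 3 → O) →ₗ[ℂ] (I4 → O) where
  toFun ρ := fun i => match i with | none => 0 | some a => ρ a
  map_add' _ _ := by funext i; rcases i with _ | a <;> simp
  map_smul' _ _ := by funext i; rcases i with _ | a <;> simp

/-- (0, ς) -/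
def vS : O →ₗ[ℂ] (I4 → O) where
  toFun ς := fun i => match i with | none => ς | some _ => 0
  map_add' _ _ := by funext i; rcases i with _ | a <;> simp
  map_smul' _ _ := by funext i; rcases i with _ | a <;> simp

@[simp] theorem vR_none (ρ : Fin 3 → O) : vR ρ none = 0 := rfl
@[simp] theorem vR_some (ρ : Fin 3 → O) (a : Fin 3) : vR ρ (some a) = ρ a := rfl
@[simp] theorem vS_none (ς : O) : vS ς none = ς := rfl
@[simp] theorem vS_some (ς : O) (a : Fin 3) : vS ς (some a) = 0 := rfl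
@[simp] theorem eP_none : eP none = 1 := rfl
@[simp] theorem eP_some (a : Fin 3) : eP (some a) = 0 := rfl
@[simp] theorem eU_none (u : Fin 3 → ℂ) : eU u none = 0 := rfl
@[simp] theorem eU_some (u : Fin 3 → ℂ) (a : Fin 3) : eU u (some a) = u a := rfl

theorem smul_vR (f : O) (ρ : Fin 3 → O) : f • vR ρ = vR (f • ρ) := by
  funext i; rcases i with _ | a <;> simp

theorem smul_vS (f ς : O) : f • vS ς = vS (f * ς) := by
  funext i; rcases i with _ | a <;> simp

/-- `tens v` as a linear map. -/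
def tensL (v : I4 → ℂ) : (I4 → O) →ₗ[ℂ] Matrix I4 I4 O where
  toFun := tens v
  map_add' _ _ := by ext i j; simp [tens]
  map_smul' c _ := by ext i j; simp [tens, smul_comm c]

theorem tensL_apply (v : I4 → ℂ) (y : I4 → O) (i j : I4) : tensL v y i j = v i • y j := rfl

/-- u·ρ for a constant vector u -/
def dotO (u : Fin 3 → ℂ) : (Fin 3 → O) →ₗ[ℂ] O where
  toFun ρ := ∑ a, u a • ρ a
  map_add' _ _ := by simp [Finset.sum_add_distrib]
  map_smul' c _ := by simp [Finset.smul_sum, smul_comm c]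

theorem dotO_apply (u : Fin 3 → ℂ) (ρ : Fin 3 → O) : dotO u ρ = ∑ a, u a • ρ a := rfl

/-- the vector field u f -/
def vecO (u : Fin 3 → ℂ) : O →ₗ[ℂ] (Fin 3 → O) where
  toFun f := fun a => u a • f
  map_add' _ _ := by funext a; simp
  map_smul' c _ := by funext a; simp [smul_comm c]

theorem vecO_apply (u : Fin 3 → ℂ) (f : O) (a : Fin 3) : vecO u f a = u a • f := rfl

theorem dotO_vecO (u v : Fin 3 → ℂ) (f : O) : dotO u (vecO v f) = (∑ a, u a * v a) • f := by
  simp [dotO_apply, vecO_apply, Finset.sum_smul, mul_smul]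

theorem dotO_smul (u : Fin 3 → ℂ) (f : O) (ρ : Fin 3 → O) : dotO u (f • ρ) = f * dotO u ρ := by
  simp [dotO_apply, Finset.mul_sum]

theorem smul_vecO (u : Fin 3 → ℂ) (f F : O) : f • vecO u F = vecO u (f * F) := by
  funext a; simp [vecO_apply]

theorem cons_eP (θ : Fin 3 → ℂ) (y : I4 → O) : Cons θ (tensL eP y) := by
  intro c; simp [tensL_apply]

theorem cons_eU {θ u : Fin 3 → ℂ} (h : ∑ a, θ a * u a = 0) (y : I4 → O) :
    Cons θ (tensL (eU u) y) := by
  intro c
  simp only [tensL_apply, eU_some, smul_smul, ← Finset.sum_smul, h, zero_smul]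

/-- Every vector field is a combination of the three null vectors θ(0), θ(1), θ(-1). -/
theorem span_θz (ρ : Fin 3 → O) : ∃ f₀ f₁ f₂ : O,
    ρ = vecO (θz 0) f₀ + vecO (θz 1) f₁ + vecO (θz (-1)) f₂ := by
  refine ⟨ρ 0, (1 / 4 : ℂ) • (-(Complex.I • ρ 1) - ρ 0 + ρ 2),
    (1 / 4 : ℂ) • (-(Complex.I • ρ 1) - ρ 0 - ρ 2), ?_⟩
  have hI : Complex.I * Complex.I = -1 := Complex.I_mul_I
  funext a
  fin_cases a
  · simp [vecO_apply, θz]
  · simp only [vecO_apply, θz, Pi.add_apply, smul_add, smul_sub, smul_neg, smul_smul]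
    simp only [Fin.mk_one, Fin.isValue, cons_val_one, cons_val_zero]
    match_scalars <;> (ring_nf; try simp)
  · simp only [vecO_apply, θz, Pi.add_apply, smul_add, smul_sub, smul_neg, smul_smul]
    simp only [Fin.reduceFinMk, cons_val]
    match_scalars <;> ring
end

namespace DA
variable {O : Type} [CommRing O] [Algebra ℂ O] [TopologicalSpace O] (S : DA O)

/-- u·W·θ -/
noncomputable def Wq (M : Mod O) (u θ : Fin 3 → ℂ) : O := ∑ b, u b • ∑ c, θ c • S.W M b c

/-- ∂y - A₂y -/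
noncomputable def T2 (M : Mod O) (θ : Fin 3 → ℂ) (y : I4 → O) : I4 → O :=
  fun j => S.dd θ (y j) - (S.A2 M θ *ᵥ y) j

theorem T2_vR (M : Mod O) (θ : Fin 3 → ℂ) (ρ : Fin 3 → O) :
    S.T2 M θ (vR ρ) = vR (fun a => S.dd θ (ρ a) - (1 / 2 : ℂ) • (dotO θ ρ * S.L M a))
      + vS ((1 / 2 : ℂ) • (M.g * M.k * dotO θ ρ)) := by
  funext i
  rcases i with _ | a
  · simp only [T2, A2, mulVec, dotProduct, Fintype.sum_option, of_apply, vR_none, vR_some,
      vS_none, Pi.add_apply, map_zero, dotO_apply, Fin.sum_univ_three, div_eq_mul_inv,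
      Algebra.smul_def, map_mul, one_mul]
    ring
  · simp only [T2, A2, mulVec, dotProduct, Fintype.sum_option, of_apply, vR_none, vR_some,
      vS_some, Pi.add_apply, dotO_apply, Fin.sum_univ_three, div_eq_mul_inv,
      Algebra.smul_def, map_mul, one_mul]
    ring

theorem T2_vS (M : Mod O) (θ : Fin 3 → ℂ) (ς : O) :
    S.T2 M θ (vS ς) = vS (S.dd θ ς) - vR (fun a => M.h * ς * ∑ c, θ c • S.W M a c) := by
  funext i
  rcases i with _ | a
  · simp [T2, A2, mulVec, dotProduct, Fintype.sum_option]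
  · simp only [T2, A2, mulVec, dotProduct, Fintype.sum_option, of_apply, vS_none, vR_some,
      vS_some, Pi.sub_apply, map_zero, Fin.sum_univ_three, Algebra.smul_def]
    ring

theorem Pop_tens (M₁ M₂ : Mod O) (θ : Fin 3 → ℂ) (v : I4 → ℂ) (y : I4 → O) (i j : I4) :
    S.Pop M₁ M₂ θ (tensL v y) i j
      = v i • S.T2 M₂ θ y j - (∑ l, v l • S.A1 M₁ θ i l) * y j := by
  simp only [Pop, Matrix.sub_apply, map_apply, tensL_apply, Derivation.map_smul, mul_apply,
    transpose_apply, T2, mulVec, dotProduct, smul_sub, Finset.smul_sum, Finset.sum_mul,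
    mul_smul_comm, smul_mul_assoc, mul_comm (y _)]
  abel

theorem Pop_eP (M₁ M₂ : Mod O) (θ : Fin 3 → ℂ) (y : I4 → O) :
    S.Pop M₁ M₂ θ (tensL eP y)
      = tensL eP (S.T2 M₂ θ y) + tensL (eU θ) (((1 / 2 : ℂ) • M₁.k) • y) := by
  ext i j
  rw [Pop_tens]
  rcases i with _ | a
  · simp [tensL_apply, A1, Fintype.sum_option]
  · simp only [tensL_apply, A1, Fintype.sum_option, of_apply, eP_none, eP_some, eU_some,
      Matrix.add_apply, Pi.smul_apply, smul_eq_mul, zero_smul, Finset.sum_const_zero]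
    simp only [div_eq_mul_inv, Algebra.smul_def, map_mul, one_mul, map_one]
    ring

theorem Pop_eU (M₁ M₂ : Mod O) (θ u : Fin 3 → ℂ) (y : I4 → O) :
    S.Pop M₁ M₂ θ (tensL (eU u) y)
      = tensL (eU u) (S.T2 M₂ θ y) + tensL (eU u) (((1 / 2 : ℂ) • dotO θ (S.L M₁)) • y)
        + tensL (eU θ) (((1 / 2 : ℂ) • dotO u (S.L M₁)) • y) - tensL eP (S.Wq M₁ u θ • y) := by
  ext i j
  rw [Pop_tens]
  rcases i with _ | a
  · simp [tensL_apply, A1, Fintype.sum_option, Wq]
  · simp only [tensL_apply, A1, Fintype.sum_option, of_apply, eU_none, eP_some, eU_some,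
      Matrix.add_apply, Matrix.sub_apply, Pi.smul_apply, smul_eq_mul, zero_smul, smul_sub,
      Finset.sum_sub_distrib, smul_neg, smul_ite, smul_zero, Finset.sum_neg_distrib,
      Finset.sum_ite_eq, Finset.mem_univ, if_true, dotO_apply]
    simp only [Fin.sum_univ_three, div_eq_mul_inv, Algebra.smul_def, map_mul, one_mul]
    ring

theorem jf_eP_vR (M₁ M₂ : Mod O) (ρ : Fin 3 → O) : S.jf M₁ M₂ (tensL eP (vR ρ)) = 0 := by
  simp [jf, tensL_apply]

theorem jf_eP_vS (M₁ M₂ : Mod O) (ς : O) :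
    S.jf M₁ M₂ (tensL eP (vS ς)) = -(M₁.g * M₂.h * ς) := by
  simp [jf, tensL_apply]

theorem jf_eU_vR (M₁ M₂ : Mod O) (u : Fin 3 → ℂ) (ρ : Fin 3 → O) :
    S.jf M₁ M₂ (tensL (eU u) (vR ρ)) = M₁.g * dotO u ρ := by
  simp [jf, tensL_apply, dotO_apply]

theorem jf_eU_vS (M₁ M₂ : Mod O) (u : Fin 3 → ℂ) (ς : O) :
    S.jf M₁ M₂ (tensL (eU u) (vS ς))
      = -(M₁.g * M₂.h * ((dotO u (S.L M₁) - dotO u (S.L M₂)) * ς)) := by
  simp only [jf, tensL_apply, dotO_apply, eU_some, eU_none, vS_some, vS_none, smul_zero, zero_smul,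
    Fin.sum_univ_three]
  simp only [Algebra.smul_def]
  ring

theorem dd_g (M : Mod O) (θ : Fin 3 → ℂ) :
    S.dd θ M.g = (1 / 2 : ℂ) • (M.g * dotO θ (S.L M)) := by
  apply two_cancel
  rw [two_mul_half_smul, one_smul]
  have h0 := S.two_d_g M 0
  have h1 := S.two_d_g M 1
  have h2 := S.two_d_g M 2
  simp only [dd_apply, dotO_apply, Fin.sum_univ_three, Algebra.smul_def]
  linear_combination algebraMap ℂ O (θ 0) * h0 + algebraMap ℂ O (θ 1) * h1
    + algebraMap ℂ O (θ 2) * h2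

theorem dd_h (M : Mod O) (θ : Fin 3 → ℂ) :
    S.dd θ M.h = -((1 / 2 : ℂ) • (M.h * dotO θ (S.L M))) := by
  apply two_cancel
  rw [mul_neg, two_mul_half_smul, one_smul]
  have h0 := S.two_d_h M 0
  have h1 := S.two_d_h M 1
  have h2 := S.two_d_h M 2
  simp only [dd_apply, dotO_apply, Fin.sum_univ_three, Algebra.smul_def]
  linear_combination algebraMap ℂ O (θ 0) * h0 + algebraMap ℂ O (θ 1) * h1
    + algebraMap ℂ O (θ 2) * h2

theorem dd_dotO (θ u : Fin 3 → ℂ) (ρ : Fin 3 → O) :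
    S.dd θ (dotO u ρ) = dotO u fun a => S.dd θ (ρ a) := by
  simp [dotO_apply]

theorem Wq_self (M : Mod O) (θ : Fin 3 → ℂ) :
    S.Wq M θ θ = -S.dd θ (dotO θ (S.L M)) + dotO θ (S.L M) * dotO θ (S.L M) := by
  have h01 := S.dL_symm M 0 1
  have h02 := S.dL_symm M 0 2
  have h12 := S.dL_symm M 1 2
  rw [dd_dotO]
  simp only [Wq, W_eq, dd_apply, dotO_apply, Fin.sum_univ_three, Algebra.smul_def]
  ring

/-- (G4): G kills v ⊗ (θ, 0). -/
theorem G4 (hfo : S.FO) {M₁ M₂ : Mod O} {G : (Fin 3 → ℂ) → Matrix I4 I4 O →ₗ[ℂ] ℂ}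
    (hG : S.GData M₁ M₂ G) {θ : Fin 3 → ℂ} (hθ : Null θ) (v : I4 → ℂ)
    (hv : ∑ a, θ a * v (some a) = 0) (f : O) : G θ (tensL v (vR (vecO θ f))) = 0 := by
  have hθθ : ∑ a, θ a * θ a = 0 := by simpa [sq] using hθ.1
  obtain ⟨u, hu, hu'⟩ := S.surj1 hfo M₁ hθ (fun i => v i • f) (by
    simp only [ConsV, smul_smul, ← Finset.sum_smul, hv, zero_smul])
  have hA2 : S.T2 M₂ θ (vR (vecO θ 1)) = 0 := by
    rw [T2_vR, dotO_vecO, hθθ]
    funext i
    rcases i with _ | a <;> simp [vecO_apply]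
  have h1 := hG.eq θ hθ (vecMulVec u (vR (vecO θ 1))) (fun c => by
    have : ∑ a, θ a • u (some a) = 0 := hu
    simp only [vecMulVec_apply, ← smul_mul_assoc, ← Finset.sum_mul, this, zero_mul])
  have h2 : S.Pop M₁ M₂ θ (vecMulVec u (vR (vecO θ 1))) = tensL v (vR (vecO θ f)) := by
    ext i j
    have e1 := congrFun hA2 j
    have e2 := hu' i
    have e3 : tensL v (vR (vecO θ f)) i j = (v i • f) * vR (vecO θ (1 : O)) j := by
      rcases j with _ | b <;> simp [tensL_apply, vecO_apply, smul_comm (v i)]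
    simp only [T2, mulVec, dotProduct, Pi.zero_apply] at e1 e2
    rw [e3, ← e2]
    simp only [Pop, Matrix.sub_apply, map_apply, vecMulVec_apply, dd_mul, mul_apply,
      transpose_apply, ← mul_assoc, ← Finset.sum_mul]
    simp only [mul_assoc, ← Finset.mul_sum, mul_comm (vR (vecO θ (1 : O)) _)]
    linear_combination u i * e1
  have h3 : S.jf M₁ M₂ (vecMulVec u (vR (vecO θ 1))) = 0 := by
    have : ∑ a, θ a • u (some a) = 0 := hu
    simp [jf, vecMulVec_apply, vecO_apply, this]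
  rw [h2, h3] at h1
  simpa using h1

end DA

end Crest.Agent.R80
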