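import Crest.Agent.R80.Conj

/-! Row 80: Ikehata's reduction of the Lamé system. -/

set_option autoImplicit false
open Filter Topology Matrix

namespace Crest.Agent.R80

namespace DA
variable {O : Type} [CommRing O] [Algebra ℂ O] [TopologicalSpace O] (S : DA O)

theorem ike_d_h (M : Mod O) (a : Fin 3) : S.d a M.h = -(M.h * M.h * S.d a M.g) := by
  have h0 := M.gh
  have h1 : S.d a (M.g * M.h) = 0 := by rw [h0]; simp
  rw [d_mul] at h1
  linear_combination M.h * h1 - S.d a M.h * h0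

theorem ike_sigma (M : Mod O) (y : I4 → O) :
    M.σ * S.opL (S.ikeA M) (S.ikeV M) 0 y none =
      M.σ * S.lap (y none) + M.g * (M.σ - 1) * S.div (fun a => y (some a))
        + (3 - M.σ) * ∑ a, S.d a M.g * y (some a) - (M.σ - 2) * M.mu * S.lap M.m * y none := by
  have h := M.σσ'
  simp only [opL, ikeA, ikeV, div, Mod.k, dd_zero, Matrix.of_apply, Fintype.sum_option,
    Fin.sum_univ_three, Pi.zero_apply, zero_smul, add_zero, mul_zero, zero_mul, Fin.isValue,
    ↓reduceIte, Fin.reduceEq, zero_add]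
  linear_combination (-(M.g * (S.d 0 (y (some 0)) + S.d 1 (y (some 1)) + S.d 2 (y (some 2))))
    + 3 * (S.d 0 M.g * y (some 0) + S.d 1 M.g * y (some 1) + S.d 2 M.g * y (some 2))
    + 2 * M.mu * S.lap M.m * y none) * h

theorem ike_c10 (f : O) : S.d 1 (S.d 0 f) = S.d 0 (S.d 1 f) := S.comm _ _ _
theorem ike_c20 (f : O) : S.d 2 (S.d 0 f) = S.d 0 (S.d 2 f) := S.comm _ _ _
theorem ike_c21 (f : O) : S.d 2 (S.d 1 f) = S.d 1 (S.d 2 f) := S.comm _ _ _
theorem ike_d_two (i : Fin 3) : S.d i (2 : O) = 0 := S.d_ofNat i 2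
theorem ike_d_three (i : Fin 3) : S.d i (3 : O) = 0 := S.d_ofNat i 3

set_option linter.unusedSimpArgs false in
/-- L(h w + m∇f - f∇m) = g (E w) + ∇(σ E f), where E is the Ikehata system. -/
theorem ike_identity (M : Mod O) (y : I4 → O) (i : Fin 3) :
    S.Lop M 0 (S.ike M 0 y) i = M.g * S.opL (S.ikeA M) (S.ikeV M) 0 y (some i)
      + S.d i (M.σ * S.opL (S.ikeA M) (S.ikeV M) 0 y none) := by
  have h := M.gh
  rw [ike_sigma]
  have hi : i = 0 ∨ i = 1 ∨ i = 2 := by fin_cases i <;> simp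
  rcases hi with rfl | rfl | rfl
  all_goals
    simp only [Lop, stress, ike, opL, ikeA, ikeV, div, lap, L, W, Mod.lam, Mod.mu, Mod.m, dd_zero,
      Matrix.of_apply, Fintype.sum_option,
      Fin.sum_univ_three, Pi.zero_apply, zero_smul, add_zero, mul_zero, zero_mul, Fin.isValue,
      ↓reduceIte, Fin.reduceEq, zero_add, map_add, map_sub, map_neg, d_mul, ike_d_h, ike_d_two,
      ike_d_three, ike_c10, ike_c20, ike_c21, Derivation.map_one_eq_zero]
    grind

theorem ike_lap_conj {E : O} {ζ : Fin 3 → ℂ} (hE : ∀ i, S.d i E = ζ i • E)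
    (hζ : ∑ i, ζ i ^ 2 = 0) (f : O) : S.lap (E * f) = E * (S.lap f + 2 * S.dd ζ f) := by
  have h0 : (∑ i, ζ i ^ 2) • f = 0 := by rw [hζ, zero_smul]
  simp only [Fin.sum_univ_three, add_smul, pow_two, mul_smul] at h0
  simp only [lap, S.d_conj hE, dd_apply, Fin.sum_univ_three, map_add, Derivation.map_smul,
    smul_add]
  linear_combination E * h0

theorem ike_opL_conj {ι : Type} [Fintype ι] {E : O} {ζ : Fin 3 → ℂ}
    (hE : ∀ i, S.d i E = ζ i • E) (hζ : ∑ i, ζ i ^ 2 = 0) (A : Fin 3 → Matrix ι ι O)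
    (V : Matrix ι ι O) (y : ι → O) (i : ι) :
    S.opL A V 0 (fun j => E * y j) i = E * S.opL A V ζ y i := by
  simp only [opL, S.ike_lap_conj hE hζ, S.d_conj hE, dd_zero, Pi.zero_apply, zero_smul, add_zero,
    mul_zero, mul_add E, Finset.mul_sum, mul_left_comm E]

theorem ike_conj {E : O} {ζ : Fin 3 → ℂ} (hE : ∀ i, S.d i E = ζ i • E) (M : Mod O) (y : I4 → O) :
    S.ike M 0 (fun j => E * y j) = fun a => E * S.ike M ζ y a := by
  funext a
  simp only [ike, S.d_conj hE, Pi.zero_apply, zero_smul, add_zero]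
  ring

theorem ike_solves (M : Mod O) {ζ : Fin 3 → ℂ} (hζ : ∑ i, ζ i ^ 2 = 0) (y : I4 → O)
    (h : S.opL (S.ikeA M) (S.ikeV M) ζ y = 0) : S.Lop M ζ (S.ike M ζ y) = 0 := by
  obtain ⟨E, E', hEE, hE⟩ := S.ex ζ
  funext i
  have h1 := S.ike_identity M (fun j => E * y j) i
  rw [S.ike_opL_conj hE hζ, S.ike_opL_conj hE hζ, h, S.ike_conj hE, S.Lop_conj hE] at h1
  simp only [Pi.zero_apply, mul_zero, map_zero, add_zero] at h1
  rw [Pi.zero_apply]
  linear_combination E' * h1 - S.Lop M ζ (S.ike M ζ y) i * hEE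

end DA

end Crest.Agent.R80
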