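import Crest.Agent.R80.FluxAlg
import Crest.Agent.R80.Ike
import Crest.Agent.R80.CGO

/-! Row 80: the limit of the flux identity. -/

set_option autoImplicit false
open Filter Topology Matrix

namespace Crest.Agent.R80

namespace DA

section
variable {O : Type} [CommRing O] [Algebra ℂ O] [TopologicalSpace O] (S : DA O)

theorem flux_div_B (M : Mod O) (u v : Fin 3 → O) (hu : S.Lop M 0 u = 0) :
    S.div (fun i => ∑ j, S.stress M 0 u i j * v j) = S.B M u v := by
  have h : ∀ j, ∑ i, S.d i (S.stress M 0 u i j) = 0 := by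
    intro j
    have := congrFun hu j
    simp only [Lop, Pi.zero_apply, zero_smul, add_zero] at this
    rw [← this]
    exact Finset.sum_congr rfl fun i _ => by rw [S.stress_symm]
  unfold div B
  simp only [map_sum, d_mul, Finset.sum_add_distrib]
  rw [Finset.sum_comm]
  simp only [← Finset.sum_mul, h]
  simp

theorem flux_div_sub (u v : Fin 3 → O) : S.div (fun i => u i - v i) = S.div u - S.div v := by
  simp only [div, map_sub, Finset.sum_sub_distrib]

theorem flux_div_comb (τ : ℂ) (u v : Fin 3 → O) :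
    S.div (fun i => τ • u i + v i) = τ • S.div u + S.div v := by
  simp only [div, map_add, Derivation.map_smul, Finset.sum_add_distrib, Finset.smul_sum]

theorem flux_exact {M₁ M₂ : Mod O} (hid : S.ID M₁ M₂) {θ : Fin 3 → ℂ} (hθ : ∑ i, θ i ^ 2 = 0)
    (τ : ℂ) (a : Fin 3 → O) (T : O) (hT : τ • ∑ j, θ j • a j = T)
    (ha : S.Lop M₁ (τ • θ) a = 0) (y : I4 → O)
    (hy : S.opL (S.ikeA M₂) (S.ikeV M₂) (τ • -θ) y = 0) :
    τ * S.I (S.div (S.Z0 M₁ M₂ θ a T y)) + S.I (S.div (S.Z1 M₁ M₂ a T y)) = 0 := by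
  obtain ⟨E, E', hEE, hE⟩ := S.ex (τ • θ)
  have hE' : ∀ i, S.d i E' = (τ • -θ) i • E' := fun i => by
    rw [S.d_inv_exp hEE hE i, smul_neg]
  have hz : ∑ i, (τ • -θ) i ^ 2 = 0 := by
    simp only [Pi.smul_apply, Pi.neg_apply, smul_eq_mul, mul_pow, neg_sq, ← Finset.mul_sum, hθ,
      mul_zero]
  have hb := S.ike_solves M₂ hz y hy
  set b := S.ike M₂ (τ • -θ) y with hbdef
  have hu : S.Lop M₁ 0 (fun i => E * a i) = 0 := by
    funext i
    rw [S.Lop_conj hE, ha]
    simp
  have hv : S.Lop M₂ 0 (fun i => E' * b i) = 0 := by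
    funext i
    rw [S.Lop_conj hE', hb]
    simp
  have key := hid _ _ hu hv
  rw [← S.flux_div_B M₁ _ _ hu, ← S.flux_div_B M₂ _ _ hv, ← S.flux_div_sub] at key
  have e : (fun i => ∑ j, S.stress M₁ 0 (fun i => E * a i) i j * (E' * b j)
      - ∑ j, S.stress M₂ 0 (fun i => E' * b i) i j * (E * a j))
      = fun i => τ • S.Z0 M₁ M₂ θ a T y i + S.Z1 M₁ M₂ a T y i := by
    funext i
    rw [← S.flux_expand M₁ M₂ hθ τ a T hT y i, ← Finset.sum_sub_distrib]
    refine Finset.sum_congr rfl fun j _ => ?_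
    rw [S.stress_conj hE, S.stress_conj hE']
    linear_combination (S.stress M₁ (τ • θ) a i j * b j
      - S.stress M₂ (τ • -θ) b i j * a j) * hEE
  rw [e, S.flux_div_comb, map_add, map_smul, smul_eq_mul] at key
  exact key

end

variable {O : Type} [CommRing O] [Algebra ℂ O] [TopologicalSpace O] [IsTopologicalRing O]
  [ContinuousSMul ℂ O] (S : DA O)

theorem flux_cont {X : Type} [TopologicalSpace X] (M₁ M₂ : Mod O) (θ : Fin 3 → ℂ)
    {a : X → Fin 3 → O} {T : X → O} {y : X → I4 → O} (ha : Continuous a) (hT : Continuous T)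
    (hy : Continuous y) :
    Continuous (fun x => S.I (S.div (S.Z0 M₁ M₂ θ (a x) (T x) (y x)))) ∧
      Continuous (fun x => S.I (S.div (S.Z1 M₁ M₂ (a x) (T x) (y x)))) := by
  have hd : ∀ i {f : X → O}, Continuous f → Continuous fun x => S.d i (f x) :=
    fun i _ hf => (S.cont i).comp hf
  have hdd : ∀ {f : X → O}, Continuous f → Continuous fun x => S.dd θ (f x) :=
    fun hf => (S.continuous_dd θ).comp hf
  have hdiv : ∀ {f : X → Fin 3 → O}, (∀ i, Continuous fun x => f x i) →
      Continuous fun x => S.div (f x) :=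
    fun hf => continuous_finsetSum _ fun i _ => hd i (hf i)
  have ha' : ∀ i, Continuous fun x => a x i := fun i => (continuous_apply i).comp ha
  have hy' : ∀ i, Continuous fun x => y x i := fun i => (continuous_apply i).comp hy
  have hs : Continuous fun x => sS M₂ (y x) := (continuous_const.mul (hy' none)).neg
  have hi : ∀ j, Continuous fun x => S.ike M₂ 0 (y x) j := fun j =>
    ((continuous_const.mul (hy' (some j))).add (continuous_const.mul ((hd j (hy' none)).add
      ((hy' none).const_smul _)))).sub ((hy' none).mul continuous_const)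
  have hda := hdiv ha'
  have hdi := hdiv hi
  have h1 : ∀ i j, Continuous fun x => S.d i (a x j) := fun i j => hd i (ha' j)
  have h2 : ∀ i j, Continuous fun x => S.d i (S.ike M₂ 0 (y x) j) := fun i j => hd i (hi j)
  have h3 : ∀ i, Continuous fun x => S.d i (sS M₂ (y x)) := fun i => hd i hs
  have h4 : ∀ i, Continuous fun x => S.d i (T x) := fun i => hd i hT
  have h5 : ∀ i, Continuous fun x => S.dd θ (a x i) := fun i => hdd (ha' i)
  have h6 : Continuous fun x => S.dd θ (sS M₂ (y x)) := hdd hs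
  refine ⟨S.contI.comp (hdiv fun i => ?_), S.contI.comp (hdiv fun i => ?_)⟩
  · unfold Z0
    have s1 : Continuous fun x => ∑ j, a x j * S.ike M₂ 0 (y x) j :=
      continuous_finsetSum _ fun j _ => (ha' j).mul (hi j)
    have s2 : Continuous fun x => ∑ j, a x j * S.d j (sS M₂ (y x)) :=
      continuous_finsetSum _ fun j _ => (ha' j).mul (h3 j)
    have s3 : Continuous fun x => ∑ j, θ j • S.ike M₂ 0 (y x) j :=
      continuous_finsetSum _ fun j _ => (hi j).const_smul _
    exact ((((((continuous_const.mul (hT.add hda)).mul hs).add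
      (continuous_const.mul ((hs.mul hT).add s1))).add
      (continuous_const.mul (((((continuous_const.mul hs).mul hT).add s1)).sub s2))).const_smul
      _).add ((continuous_const.mul hs).mul (h5 i))).add
      (((continuous_const.mul s3).sub (continuous_const.mul (h6.sub s3))).mul (ha' i))
  · unfold Z1
    have s1 : Continuous fun x => ∑ j, (S.d i (a x j) * S.ike M₂ 0 (y x) j
        + S.ike M₂ 0 (y x) j * S.d j (a x i)) :=
      continuous_finsetSum _ fun j _ => ((h1 i j).mul (hi j)).add ((hi j).mul (h1 j i))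
    have s2 : Continuous fun x => ∑ j, (S.d i (S.ike M₂ 0 (y x) j) * a x j
        + a x j * S.d j (S.ike M₂ 0 (y x) i)) :=
      continuous_finsetSum _ fun j _ => ((h2 i j).mul (ha' j)).add ((ha' j).mul (h2 j i))
    exact (((((continuous_const.mul (hT.add hda)).mul (hi i)).add
      (continuous_const.mul ((hs.mul (h4 i)).add s1))).sub
      ((continuous_const.mul hdi).mul (ha' i))).sub
      (continuous_const.mul ((((h3 i).mul hT).add s2).sub (hT.mul (hi i)))))

theorem flux_key (hfo : S.FO) (hso : S.SO) {M₁ M₂ : Mod O} (hid : S.ID M₁ M₂)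
    (hibp : S.IBP M₁ M₂) {θ : Fin 3 → ℂ} (hθ : NNull θ) (y y' : I4 → O) (hy : S.Amp M₁ θ y)
    (hy' : ∀ i, S.dd θ (y' i) = (S.A2 M₂ θ *ᵥ y') i) :
    S.I (S.dd θ (S.jf M₁ M₂ (Matrix.vecMulVec y y'))) = 0 := by
  obtain ⟨hc, h1, hamp⟩ := hy
  have h0 : S.trans (S.ikeA M₂) (-θ) y' = 0 := by
    funext i
    have e : S.A2 M₂ (-θ) = -S.A2 M₂ θ := by
      rw [← neg_one_smul ℂ θ, S.A2_smul, neg_one_smul]
    rw [S.trans_ike, S.dd_neg, e, Matrix.neg_mulVec, hy']
    simp
  obtain ⟨y₁, -, hcgo⟩ := S.cgo hfo hso (S.ikeA M₂) (S.ikeV M₂) hθ.neg y' h0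
  set p₀ : (Fin 3 → O) × O :=
    (fun a => y (some a), M₁.σ' * y none - S.div fun a => y (some a)) with hp₀
  have hy : Continuous fun x : ℂ × ((Fin 3 → O) × O) × (I4 → O) => y' + x.1 • x.2.2 :=
    continuous_const.add (continuous_fst.smul continuous_snd.snd)
  obtain ⟨c0, c1⟩ := S.flux_cont M₁ M₂ θ (X := ℂ × ((Fin 3 → O) × O) × (I4 → O))
    (a := fun x => x.2.1.1) (T := fun x => x.2.1.2) continuous_snd.fst.fst
    continuous_snd.fst.snd hy
  have hΦ := c0.add (continuous_fst.mul c1)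
  have hZ : S.I (S.div (S.Z0 M₁ M₂ θ p₀.1 p₀.2 y')) = 0 := by
    by_contra hne
    have hev := (hΦ.continuousAt (x := (0, p₀, y₁))).eventually_ne (y := 0) (by simpa using hne)
    obtain ⟨u, hu, v, hv, huv⟩ := mem_nhds_prod_iff.1 hev
    obtain ⟨W, hW, W', hW', hWW⟩ := mem_nhds_prod_iff.1 hv
    have ht : Tendsto (fun τ : ℝ => (τ : ℂ)⁻¹) atTop (𝓝 0) := by
      have := (Complex.continuous_ofReal.tendsto 0).comp tendsto_inv_atTop_zero
      simpa [Function.comp_def] using this
    obtain ⟨τ, ⟨⟨p, hp, hpT, hpL⟩, z, hz, hzL⟩, hτu, hτ⟩ :=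
      (((hamp W hW).and (hcgo W' hW')).and ((ht.eventually_mem hu).and
        (eventually_gt_atTop 0))).exists
    have hτ' : (τ : ℂ) ≠ 0 := by exact_mod_cast hτ.ne'
    have hx := huv (Set.mk_mem_prod hτu (hWW (Set.mk_mem_prod hp hz)))
    have he := S.flux_exact hid hθ.1 τ p.1 p.2 hpT hpL _ hzL
    apply hx
    simp only [Pi.add_apply, Pi.mul_apply]
    apply mul_left_cancel₀ hτ'
    rw [mul_add, ← mul_assoc, mul_inv_cancel₀ hτ', one_mul, mul_zero]
    exact he
  obtain ⟨X, hX⟩ := S.div_Z0 M₁ M₂ hθ.1 y y' hc h1 hy'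
  rw [hp₀] at hZ
  simp only at hZ
  rw [hX, map_add] at hZ
  have h2 : S.I (S.div fun i => (M₁.g - M₂.g) * X i) = 0 := by
    simp only [div, map_sum, hibp _ _, Finset.sum_const_zero]
  rw [h2, add_zero, two_mul, map_add, ← two_mul] at hZ
  simpa using hZ

end DA

end Crest.Agent.R80
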