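import Crest.Agent.R80.Conj

/-! Row 80: algebra of the flux σ₁(u₁)u₂ - σ₂(u₂)u₁. -/

set_option autoImplicit false
open Filter Topology Matrix

namespace Crest.Agent.R80

namespace DA
variable {O : Type} [CommRing O] [Algebra ℂ O] [TopologicalSpace O] (S : DA O)

/-- S = -m s -/
noncomputable def sS (M : Mod O) (y : I4 → O) : O := -(M.m * y none)

/-- Order τ part of the flux. -/
noncomputable def Z0 (M₁ M₂ : Mod O) (θ : Fin 3 → ℂ) (a : Fin 3 → O) (T : O) (y : I4 → O)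
    (i : Fin 3) : O :=
  θ i • (M₁.lam * (T + S.div a) * sS M₂ y
      + M₁.mu * (sS M₂ y * T + ∑ j, a j * S.ike M₂ 0 y j)
      + M₂.mu * (2 * sS M₂ y * T + ∑ j, a j * S.ike M₂ 0 y j - ∑ j, a j * S.d j (sS M₂ y)))
    + M₁.mu * sS M₂ y * S.dd θ (a i)
    + (M₁.mu * ∑ j, θ j • S.ike M₂ 0 y j
      - M₂.lam * (S.dd θ (sS M₂ y) - ∑ j, θ j • S.ike M₂ 0 y j)) * a i

/-- Order one part of the flux. -/
noncomputable def Z1 (M₁ M₂ : Mod O) (a : Fin 3 → O) (T : O) (y : I4 → O) (i : Fin 3) : O :=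
  M₁.lam * (T + S.div a) * S.ike M₂ 0 y i
    + M₁.mu * (sS M₂ y * S.d i T
      + ∑ j, (S.d i (a j) * S.ike M₂ 0 y j + S.ike M₂ 0 y j * S.d j (a i)))
    - M₂.lam * S.div (S.ike M₂ 0 y) * a i
    - M₂.mu * (S.d i (sS M₂ y) * T
      + ∑ j, (S.d i (S.ike M₂ 0 y j) * a j + a j * S.d j (S.ike M₂ 0 y i)) - T * S.ike M₂ 0 y i)

theorem fluxAlg_ike (M : Mod O) (θ : Fin 3 → ℂ) (τ : ℂ) (y : I4 → O) :
    S.ike M (τ • -θ) y = fun j => S.ike M 0 y j + (τ * θ j) • sS M y := by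
  funext j
  simp only [ike, sS, Pi.smul_apply, Pi.neg_apply, Pi.zero_apply, smul_eq_mul,
    Algebra.smul_def, map_mul, map_neg, map_zero]
  ring

omit [TopologicalSpace O] in
theorem fluxAlg_null {θ : Fin 3 → ℂ} (hθ : ∑ i, θ i ^ 2 = 0) :
    algebraMap ℂ O (θ 0) ^ 2 + algebraMap ℂ O (θ 1) ^ 2 + algebraMap ℂ O (θ 2) ^ 2 = 0 := by
  rw [Fin.sum_univ_three] at hθ
  rw [← map_pow, ← map_pow, ← map_pow, ← map_add, ← map_add, hθ, map_zero]

theorem fluxAlg_key {R : Type} [CommRing R]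
    (g₁ g₂ h₂ σ₁ σ₁' σ₂ σ₂' ti UR UL1 UL2 UdS tL1 tL2 tr dS ds divU dUi Ui P s S Ua ta : R)
    (hS : S = -(h₂ * h₂ * s)) (hg : g₂ * h₂ = 1) (h1 : σ₁ * σ₁' = 1) (h2 : σ₂ * σ₂' = 1)
    (hU : 2 * dUi = -(tL1 * Ui) - ti * (UL1 + (1 - σ₁') * P))
    (hs : 2 * ds = -(g₂ * (1 - σ₂') * tr))
    (hdS : dS = -(S * tL2) - h₂ * h₂ * ds)
    (hUa : Ua = h₂ * UR - UdS - 2 * S * UL2) (hta : ta = h₂ * tr - dS - 2 * S * tL2) :
    ti * ((σ₁ - 2) * (g₁ * g₁) * (σ₁' * P - divU + divU) * S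
        + g₁ * g₁ * (S * (σ₁' * P - divU) + Ua)
        + g₂ * g₂ * (2 * S * (σ₁' * P - divU) + Ua - UdS))
      + g₁ * g₁ * S * dUi + (g₁ * g₁ * ta - (σ₂ - 2) * (g₂ * g₂) * (dS - ta)) * Ui
    = 2 * (ti * (g₁ * UR - g₁ * h₂ * (P * s + (UL1 - UL2) * s)))
      + (g₁ - g₂) * (ti * (h₂ * (g₁ - g₂) * UR + S * P * ((g₁ + g₂) * (1 - σ₁') - 2 * g₂)
          + S * ((g₁ - g₂) * UL1 - 2 * g₁ * UL2)) - (g₁ + g₂) * (tL1 * S + (dS - ta)) * Ui)
      - (ti * (S * (g₁ * g₁ * UL1 + 2 * (g₂ * g₂) * UL2) + (g₁ * g₁ + 2 * (g₂ * g₂)) * UdS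
            + (g₁ * g₁ + 2 * (g₂ * g₂)) * S * divU)
          - ((g₁ * g₁ * tL1 + 2 * (g₂ * g₂) * tL2) * S * Ui + (g₁ * g₁ + 2 * (g₂ * g₂)) * dS * Ui
            + (g₁ * g₁ + 2 * (g₂ * g₂)) * S * dUi)) := by
  have e1 : g₂ * S = -(h₂ * s) := by
    rw [hS]
    linear_combination (-(h₂ * s)) * hg
  have e3 : g₂ * g₂ * (h₂ * h₂) = 1 := by linear_combination (g₂ * h₂ + 1) * hg
  have e4 : dS - ta = -(h₂ * h₂ * (2 * ds)) - h₂ * tr := by
    linear_combination 2 * hdS - hta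
  have e2 : (σ₂ - 1) * (g₂ * g₂) * (dS - ta) = 2 * ds := by
    rw [e4]
    linear_combination (-((σ₂ - 1) * (2 * ds))) * e3 - ((σ₂ - 1) * g₂ * tr) * hg - σ₂ * hs
      - (g₂ * tr) * h2
  rw [hUa]
  linear_combination (-(g₂ * g₂ * S)) * hU - Ui * e2 - (2 * (g₂ * g₂) * Ui) * hdS
    + (2 * ds * Ui) * e3 + (ti * (g₁ * g₁) * P * S) * h1
    + (2 * ti * g₁ * (P + UL1 - UL2)) * e1 + (2 * ti * g₁ * UR) * hg

theorem fluxAlg_divY (θ : Fin 3 → ℂ) (G : Fin 3 → O) :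
    S.div (fun i => θ i • S.div G - S.dd θ (G i)) = 0 := by
  simp only [div, map_sub, Derivation.map_smul, ← S.dd_d, Finset.sum_sub_distrib]
  rw [← map_sum, dd_apply, sub_self]

theorem fluxAlg_fin (θ : Fin 3 → ℂ) (Z X G : Fin 3 → O) (j : O)
    (h : ∀ i, Z i = 2 * (θ i • j) + X i - (θ i • S.div G - S.dd θ (G i))) :
    S.div Z = 2 * S.dd θ j + S.div X := by
  have hY := S.fluxAlg_divY θ G
  generalize hF : (fun i => θ i • S.div G - S.dd θ (G i)) = F at hY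
  have h' : ∀ i, Z i = 2 * (θ i • j) + X i - F i := fun i => by rw [h, ← hF]
  have h2 : ∀ i, S.d i 2 = 0 := fun i => S.d_ofNat i 2
  simp only [div, dd_apply, h', map_sub, map_add, d_mul, h2, Derivation.map_smul,
    Fin.sum_univ_three] at hY ⊢
  linear_combination -hY

theorem flux_expand (M₁ M₂ : Mod O) {θ : Fin 3 → ℂ} (hθ : ∑ i, θ i ^ 2 = 0) (τ : ℂ)
    (a : Fin 3 → O) (T : O) (hT : τ • ∑ j, θ j • a j = T) (y : I4 → O) (i : Fin 3) :
    ∑ j, (S.stress M₁ (τ • θ) a i j * S.ike M₂ (τ • -θ) y j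
        - S.stress M₂ (τ • -θ) (S.ike M₂ (τ • -θ) y) i j * a j)
      = τ • S.Z0 M₁ M₂ θ a T y i + S.Z1 M₁ M₂ a T y i := by
  have h0 := fluxAlg_null (O := O) hθ
  rw [fluxAlg_ike]
  unfold Z0 Z1
  generalize S.ike M₂ 0 y = b
  generalize sS M₂ y = s
  subst hT
  simp only [stress, div, dd_apply, Fin.sum_univ_three, map_add, Derivation.map_smul,
    Pi.smul_apply, Pi.neg_apply, smul_eq_mul]
  simp only [Algebra.smul_def, map_mul, map_neg]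
  fin_cases i
  · simp only [Fin.zero_eta, Fin.isValue, ↓reduceIte, Fin.reduceEq]
    linear_combination (algebraMap ℂ O τ ^ 2 * s * a 0 * (M₁.mu + M₂.lam)) * h0
  · simp only [Fin.mk_one, Fin.isValue, ↓reduceIte, Fin.reduceEq]
    linear_combination (algebraMap ℂ O τ ^ 2 * s * a 1 * (M₁.mu + M₂.lam)) * h0
  · simp only [Fin.reduceFinMk, Fin.isValue, ↓reduceIte, Fin.reduceEq]
    linear_combination (algebraMap ℂ O τ ^ 2 * s * a 2 * (M₁.mu + M₂.lam)) * h0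

theorem div_Z0 (M₁ M₂ : Mod O) {θ : Fin 3 → ℂ} (hθ : ∑ i, θ i ^ 2 = 0) (y y' : I4 → O)
    (hc : ConsV θ y) (hy : ∀ i, S.dd θ (y i) = (S.A1 M₁ θ *ᵥ y) i)
    (hy' : ∀ i, S.dd θ (y' i) = (S.A2 M₂ θ *ᵥ y') i) :
    ∃ X : Fin 3 → O, S.div (S.Z0 M₁ M₂ θ (fun a => y (some a))
        (M₁.σ' * y none - S.div fun a => y (some a)) y')
      = 2 * S.dd θ (S.jf M₁ M₂ (Matrix.vecMulVec y y'))
        + S.div fun i => (M₁.g - M₂.g) * X i := by
  have hU : ∀ i, 2 * S.dd θ (y (some i)) = -((∑ c, θ c • S.L M₁ c) * y (some i))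
      - algebraMap ℂ O (θ i) * (∑ a, y (some a) * S.L M₁ a + (1 - M₁.σ') * y none) := by
    intro i
    have e : ∀ c : ℂ, algebraMap ℂ O c = 2 * algebraMap ℂ O (c / 2) := by
      intro c
      have := two_mul_half_smul (O := O) c 1
      simpa only [Algebra.smul_def, mul_one] using this.symm
    rw [hy]
    simp only [A1, Matrix.mulVec, dotProduct, Matrix.of_apply, Fintype.sum_option, Mod.k,
      Fin.sum_univ_three, Algebra.smul_def]
    rw [e (θ i), e (θ 0), e (θ 1), e (θ 2)]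
    fin_cases i <;> simp only [Fin.zero_eta, Fin.mk_one, Fin.reduceFinMk, Fin.isValue, ↓reduceIte,
      Fin.reduceEq] <;> ring
  have hs : 2 * S.dd θ (y' none) = -(M₂.g * (1 - M₂.σ') * ∑ c, θ c • y' (some c)) := by
    have e : ∀ c : ℂ, algebraMap ℂ O c = 2 * algebraMap ℂ O (c / 2) := by
      intro c
      have := two_mul_half_smul (O := O) c 1
      simpa only [Algebra.smul_def, mul_one] using this.symm
    rw [hy']
    simp only [A2, Matrix.mulVec, dotProduct, Matrix.of_apply, Fintype.sum_option, Mod.k,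
      Fin.sum_univ_three, Algebra.smul_def]
    rw [e (θ 0), e (θ 1), e (θ 2)]
    ring
  have hdj : ∀ j, S.d j (sS M₂ y') = -(sS M₂ y' * S.L M₂ j) - M₂.h * M₂.h * S.d j (y' none) := by
    intro j
    simp only [sS, map_neg, d_mul, d_m]
    simp only [Mod.m]
    ring
  have hik : ∀ j, S.ike M₂ 0 y' j
      = M₂.h * y' (some j) - S.d j (sS M₂ y') - 2 * sS M₂ y' * S.L M₂ j := by
    intro j
    rw [hdj]
    simp only [ike, sS, d_m, Pi.zero_apply, zero_smul]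
    simp only [Mod.m]
    ring
  have hdS : S.dd θ (sS M₂ y') = -(sS M₂ y' * ∑ c, θ c • S.L M₂ c)
      - M₂.h * M₂.h * S.dd θ (y' none) := by
    simp only [dd_apply, hdj, Fin.sum_univ_three, Algebra.smul_def]
    ring
  have hUa : ∑ j, y (some j) * S.ike M₂ 0 y' j = M₂.h * ∑ j, y (some j) * y' (some j)
      - ∑ j, y (some j) * S.d j (sS M₂ y') - 2 * sS M₂ y' * ∑ j, y (some j) * S.L M₂ j := by
    simp only [hik, Fin.sum_univ_three]
    ring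
  have hta : ∑ j, θ j • S.ike M₂ 0 y' j = M₂.h * ∑ j, θ j • y' (some j)
      - S.dd θ (sS M₂ y') - 2 * sS M₂ y' * ∑ j, θ j • S.L M₂ j := by
    simp only [hik, dd_apply, Fin.sum_univ_three, Algebra.smul_def]
    ring
  have hc' : ∀ j, S.d j (M₁.mu + 2 * M₂.mu) = M₁.mu * S.L M₁ j + 2 * M₂.mu * S.L M₂ j := by
    intro j
    rw [map_add, d_mul, d_ofNat, d_mu, d_mu]
    ring
  have hY1 : S.div (fun a => (M₁.mu + 2 * M₂.mu) * sS M₂ y' * y (some a))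
      = sS M₂ y' * (M₁.mu * ∑ a, y (some a) * S.L M₁ a + 2 * M₂.mu * ∑ a, y (some a) * S.L M₂ a)
        + (M₁.mu + 2 * M₂.mu) * ∑ j, y (some j) * S.d j (sS M₂ y')
        + (M₁.mu + 2 * M₂.mu) * sS M₂ y' * S.div fun a => y (some a) := by
    simp only [div, d_mul S _ _ (y _), d_mul S _ _ (sS _ _), hc', Fin.sum_univ_three]
    ring
  have hY2 : ∀ i, S.dd θ ((M₁.mu + 2 * M₂.mu) * sS M₂ y' * y (some i))
      = (M₁.mu * ∑ c, θ c • S.L M₁ c + 2 * M₂.mu * ∑ c, θ c • S.L M₂ c) * sS M₂ y' * y (some i)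
        + (M₁.mu + 2 * M₂.mu) * S.dd θ (sS M₂ y') * y (some i)
        + (M₁.mu + 2 * M₂.mu) * sS M₂ y' * S.dd θ (y (some i)) := by
    intro i
    simp only [dd_apply, d_mul S _ _ (y _), d_mul S _ _ (sS _ _), hc', Fin.sum_univ_three,
      Algebra.smul_def]
    ring
  have hj : S.jf M₁ M₂ (Matrix.vecMulVec y y') = M₁.g * ∑ j, y (some j) * y' (some j)
      - M₁.g * M₂.h * (y none * y' none
        + (∑ a, y (some a) * S.L M₁ a - ∑ a, y (some a) * S.L M₂ a) * y' none) := by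
    simp only [jf, Matrix.vecMulVec_apply, Fin.sum_univ_three]
    ring
  refine ⟨fun i => algebraMap ℂ O (θ i) * (M₂.h * (M₁.g - M₂.g) * ∑ j, y (some j) * y' (some j)
      + sS M₂ y' * y none * ((M₁.g + M₂.g) * (1 - M₁.σ') - 2 * M₂.g)
      + sS M₂ y' * ((M₁.g - M₂.g) * ∑ a, y (some a) * S.L M₁ a
        - 2 * M₁.g * ∑ a, y (some a) * S.L M₂ a))
    - (M₁.g + M₂.g) * ((∑ c, θ c • S.L M₁ c) * sS M₂ y'
      + (S.dd θ (sS M₂ y') - ∑ j, θ j • S.ike M₂ 0 y' j)) * y (some i), ?_⟩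
  have pt : ∀ i, S.Z0 M₁ M₂ θ (fun a => y (some a))
        (M₁.σ' * y none - S.div fun a => y (some a)) y' i
      = 2 * (θ i • S.jf M₁ M₂ (Matrix.vecMulVec y y'))
        + (M₁.g - M₂.g) * (algebraMap ℂ O (θ i) * (M₂.h * (M₁.g - M₂.g) * ∑ j, y (some j) * y' (some j)
          + sS M₂ y' * y none * ((M₁.g + M₂.g) * (1 - M₁.σ') - 2 * M₂.g)
          + sS M₂ y' * ((M₁.g - M₂.g) * ∑ a, y (some a) * S.L M₁ a
            - 2 * M₁.g * ∑ a, y (some a) * S.L M₂ a))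
        - (M₁.g + M₂.g) * ((∑ c, θ c • S.L M₁ c) * sS M₂ y'
          + (S.dd θ (sS M₂ y') - ∑ j, θ j • S.ike M₂ 0 y' j)) * y (some i))
        - (θ i • S.div (fun a => (M₁.mu + 2 * M₂.mu) * sS M₂ y' * y (some a))
          - S.dd θ ((M₁.mu + 2 * M₂.mu) * sS M₂ y' * y (some i))) := by
    intro i
    rw [hY1, hY2, hj, Z0, Algebra.smul_def (θ i), Algebra.smul_def (θ i), Algebra.smul_def (θ i)]
    exact fluxAlg_key M₁.g M₂.g M₂.h M₁.σ M₁.σ' M₂.σ M₂.σ' _ _ _ _ _ _ _ _ _ _ _ _ _ _ (y' none) _ _ _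
      rfl M₂.gh M₁.σσ' M₂.σσ' (hU i) hs hdS hUa hta
  exact S.fluxAlg_fin θ _ _ _ _ pt

end DA

end Crest.Agent.R80
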