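import Crest.Agent.R80.Surj

/-! Row 80: the functionals G θ. -/

set_option autoImplicit false
open Filter Topology Matrix

namespace Crest.Agent.R80

/-- The constrained tensors. -/
def gfunK (O : Type) [CommRing O] [Algebra ℂ O] (θ : Fin 3 → ℂ) :
    Submodule ℂ (Matrix I4 I4 O) where
  carrier := {ψ | Cons θ ψ}
  add_mem' := by
    intro x y hx hy c
    simp only [Matrix.add_apply, smul_add, Finset.sum_add_distrib]
    rw [hx c, hy c, add_zero]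
  zero_mem' := by
    intro c
    simp
  smul_mem' := by
    intro k x hx c
    simp only [Matrix.smul_apply, smul_comm _ k, ← Finset.smul_sum]
    rw [hx c, smul_zero]

namespace DA
variable {O : Type} [CommRing O] [Algebra ℂ O] [TopologicalSpace O] (S : DA O)

/-- `Pop` as a linear map. -/
noncomputable def gfunP (M₁ M₂ : Mod O) (θ : Fin 3 → ℂ) :
    Matrix I4 I4 O →ₗ[ℂ] Matrix I4 I4 O where
  toFun := S.Pop M₁ M₂ θ
  map_add' x y := by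
    unfold Pop
    rw [Matrix.mul_add, Matrix.add_mul, Matrix.map_add _ (map_add (S.dd θ))]
    abel
  map_smul' c x := by
    unfold Pop
    rw [Matrix.mul_smul, Matrix.smul_mul, RingHom.id_apply, smul_sub, smul_sub]
    congr 2
    ext i j
    simp

/-- `jf` as a linear map. -/
noncomputable def gfunJ (M₁ M₂ : Mod O) : Matrix I4 I4 O →ₗ[ℂ] O where
  toFun := S.jf M₁ M₂
  map_add' x y := by
    simp only [jf, Matrix.add_apply, Finset.sum_add_distrib, mul_add]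
    ring
  map_smul' c x := by
    simp only [jf, Matrix.smul_apply, RingHom.id_apply, mul_smul_comm, ← Finset.smul_sum,
      ← smul_add, smul_sub]

/-- The functional ψ ↦ ∫ ∂(j ψ). -/
noncomputable def gfunL (M₁ M₂ : Mod O) (θ : Fin 3 → ℂ) : Matrix I4 I4 O →ₗ[ℂ] ℂ :=
  S.I ∘ₗ (S.dd θ).toLinearMap ∘ₗ S.gfunJ M₁ M₂

theorem gfunL_apply (M₁ M₂ : Mod O) (θ : Fin 3 → ℂ) (ψ : Matrix I4 I4 O) :
    S.gfunL M₁ M₂ θ ψ = S.I (S.dd θ (S.jf M₁ M₂ ψ)) := rfl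

theorem gfun_key {M₁ M₂ : Mod O} (hkey : ∀ θ, NNull θ → S.KEY M₁ M₂ θ) {θ : Fin 3 → ℂ}
    (hθ : Null θ) : S.KEY M₁ M₂ θ := by
  obtain ⟨c, hc, hn⟩ := hθ.exists_nnull
  intro ψ h1 h2
  have := hkey _ hn ψ ((surj_cons_smul hc ψ).2 h1) (by rw [Pop_smul, h2, smul_zero])
  rw [dd_smul, map_smul, smul_eq_mul] at this
  exact (mul_eq_zero.1 this).resolve_left hc

theorem gfun_ex {M₁ M₂ : Mod O} (hkey : ∀ θ, NNull θ → S.KEY M₁ M₂ θ) (θ : Fin 3 → ℂ) :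
    ∃ G : Matrix I4 I4 O →ₗ[ℂ] ℂ, Null θ → ∀ ψ, Cons θ ψ →
      G (S.Pop M₁ M₂ θ ψ) = S.I (S.dd θ (S.jf M₁ M₂ ψ)) := by
  by_cases hθ : Null θ
  · have hk : S.gfunL M₁ M₂ θ ∘ₗ (gfunK O θ).subtype ∈
        (LinearMap.ker (S.gfunP M₁ M₂ θ ∘ₗ (gfunK O θ).subtype)).dualAnnihilator := by
      rw [Submodule.mem_dualAnnihilator]
      intro ψ hψ
      exact S.gfun_key hkey hθ ψ.1 ψ.2 hψ
    rw [← LinearMap.range_dualMap_eq_dualAnnihilator_ker] at hk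
    obtain ⟨G, hG⟩ := hk
    exact ⟨G, fun _ ψ hψ => LinearMap.congr_fun hG ⟨ψ, hψ⟩⟩
  · exact ⟨0, fun h => absurd h hθ⟩

theorem gfun_mul {T : Type} {f g : T → O} (hf : SurjBd S.ρ f) (hg : SurjBd S.ρ g) :
    SurjBd S.ρ (fun t => f t * g t) := by
  obtain ⟨C, hC⟩ := hf
  obtain ⟨D, hD⟩ := hg
  exact ⟨C * D, fun t => (S.ρ_mul _ _).trans
    (mul_le_mul (hC t) (hD t) (apply_nonneg _ _) ((apply_nonneg _ _).trans (hC t)))⟩

/-- Bounded together with the derivative in the direction `θ`. -/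
def GfunBd {T : Type} (θ : T → Fin 3 → ℂ) (f : T → O) : Prop :=
  SurjBd S.ρ f ∧ SurjBd S.ρ (fun t => S.dd (θ t) (f t))

section
variable {S} {T : Type} {θ : T → Fin 3 → ℂ}

theorem GfunBd.const (h : ∀ t, NNull (θ t)) (x : O) : S.GfunBd θ (fun _ => x) := by
  refine ⟨SurjBd.const _, ?_⟩
  simp only [dd_apply]
  exact SurjBd.sum _ fun c => SurjBd.smul 2 (fun t => (h t).norm_le c) (SurjBd.const _)

theorem GfunBd.add {f g : T → O} (hf : S.GfunBd θ f) (hg : S.GfunBd θ g) :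
    S.GfunBd θ (fun t => f t + g t) := by
  refine ⟨hf.1.add hg.1, ?_⟩
  simp only [map_add]
  exact hf.2.add hg.2

theorem GfunBd.sub {f g : T → O} (hf : S.GfunBd θ f) (hg : S.GfunBd θ g) :
    S.GfunBd θ (fun t => f t - g t) := by
  refine ⟨hf.1.sub hg.1, ?_⟩
  simp only [map_sub]
  exact hf.2.sub hg.2

theorem GfunBd.mul {f g : T → O} (hf : S.GfunBd θ f) (hg : S.GfunBd θ g) :
    S.GfunBd θ (fun t => f t * g t) := by
  refine ⟨S.gfun_mul hf.1 hg.1, ?_⟩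
  simp only [dd_mul]
  exact (S.gfun_mul hf.2 hg.1).add (S.gfun_mul hf.1 hg.2)

theorem GfunBd.sum {ι : Type} (s : Finset ι) {f : ι → T → O} (hf : ∀ i, S.GfunBd θ (f i)) :
    S.GfunBd θ (fun t => ∑ i ∈ s, f i t) := by
  refine ⟨SurjBd.sum s fun i => (hf i).1, ?_⟩
  simp only [map_sum]
  exact SurjBd.sum s fun i => (hf i).2

end

theorem gfun_bound (M₁ M₂ : Mod O) (M C : ℝ) : ∃ D : ℝ, ∀ θ, NNull θ → ∀ ψ : Matrix I4 I4 O,
    (∀ i j, S.ρ (S.Pop M₁ M₂ θ ψ i j) ≤ M) → (∀ i j, S.ρ (ψ i j) ≤ C) →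
      S.ρ (S.dd θ (S.jf M₁ M₂ ψ)) ≤ D := by
  let T := {x : (Fin 3 → ℂ) × Matrix I4 I4 O // NNull x.1 ∧
    (∀ i j, S.ρ (S.Pop M₁ M₂ x.1 x.2 i j) ≤ M) ∧ ∀ i j, S.ρ (x.2 i j) ≤ C}
  have hn : ∀ t : T, NNull t.1.1 := fun t => t.2.1
  have h0 : ∀ i j, SurjBd S.ρ (fun t : T => t.1.2 i j) := fun i j => ⟨C, fun t => t.2.2.2 i j⟩
  have h1 : ∀ i j, S.GfunBd (fun t : T => t.1.1) (fun t : T => t.1.2 i j) := by
    intro i j
    refine ⟨h0 i j, ?_⟩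
    have e : ∀ t : T, S.dd t.1.1 (t.1.2 i j) = S.Pop M₁ M₂ t.1.1 t.1.2 i j +
        ∑ k, S.A1 M₁ t.1.1 i k * t.1.2 k j + ∑ k, t.1.2 i k * S.A2 M₂ t.1.1 j k := by
      intro t
      simp only [Pop, Matrix.sub_apply, Matrix.map_apply, Matrix.mul_apply,
        Matrix.transpose_apply]
      abel
    simp only [e]
    have hp : SurjBd S.ρ fun t : T => S.Pop M₁ M₂ t.1.1 t.1.2 i j := ⟨M, fun t => t.2.2.1 i j⟩
    exact (hp.add
      (SurjBd.sum _ fun k => S.gfun_mul (S.surj_A1_bd S.ρ M₁ hn i k) (h0 k j))).add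
      (SurjBd.sum _ fun k => S.gfun_mul (h0 i k) (S.surj_A2_bd S.ρ M₂ hn j k))
  have h2 : S.GfunBd (fun t : T => t.1.1) (fun t : T => S.jf M₁ M₂ t.1.2) :=
    ((GfunBd.const hn _).mul (GfunBd.sum _ fun a => h1 _ _)).sub
      ((GfunBd.const hn _).mul ((h1 _ _).add
        (GfunBd.sum _ fun a => (GfunBd.const hn _).mul (h1 _ _))))
  obtain ⟨D, hD⟩ := h2.2
  exact ⟨D, fun θ hθ ψ a b => hD ⟨(θ, ψ), hθ, a, b⟩⟩

theorem exists_G (hfo : S.FO) {M₁ M₂ : Mod O} (hkey : ∀ θ, NNull θ → S.KEY M₁ M₂ θ) :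
    ∃ G, S.GData M₁ M₂ G := by
  choose G hG using S.gfun_ex hkey
  have hs : ∀ (c : ℂ) θ ψ, S.Pop M₁ M₂ θ (c • ψ) = S.Pop M₁ M₂ (c • θ) ψ := by
    intro c θ ψ
    rw [Pop_smul]
    exact (S.gfunP M₁ M₂ θ).map_smul c ψ
  refine ⟨G, hG, fun θ hθ F hF => ?_, fun M => ?_⟩
  · obtain ⟨c, hc, hn⟩ := hθ.exists_nnull
    obtain ⟨M, hM⟩ := SurjBd.unif (p := S.ν) (T := Unit)
      (f := fun ij : I4 × I4 => fun _ => F ij.1 ij.2) fun _ => SurjBd.const _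
    obtain ⟨C, hC⟩ := S.pop_solve hfo M₁ M₂ M
    obtain ⟨ψ, h1, h2, -⟩ := hC _ hn F ((surj_cons_smul hc F).2 hF) fun i j => hM (i, j) ()
    exact ⟨c • ψ, (gfunK O θ).smul_mem c ((surj_cons_smul hc ψ).1 h1), by rw [hs, h2]⟩
  · obtain ⟨C, hC⟩ := S.pop_solve hfo M₁ M₂ M
    obtain ⟨D, hD⟩ := S.gfun_bound M₁ M₂ M C
    obtain ⟨K, hK0, hK⟩ := S.I_le
    refine ⟨K * D, fun θ hθ F hF hM => ?_⟩
    obtain ⟨c, hc, hn⟩ := hθ.exists_nnull
    obtain ⟨ψ, h1, h2, h3⟩ := hC _ hn F ((surj_cons_smul hc F).2 hF) fun i j => (hM i j).1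
    have e := hG θ hθ (c • ψ) ((gfunK O θ).smul_mem c ((surj_cons_smul hc ψ).1 h1))
    have e2 : S.jf M₁ M₂ (c • ψ) = c • S.jf M₁ M₂ ψ := (S.gfunJ M₁ M₂).map_smul c ψ
    rw [hs, h2, e2, Derivation.map_smul, ← dd_smul] at e
    rw [e]
    refine (hK _).trans (mul_le_mul_of_nonneg_left ?_ hK0)
    exact hD _ hn ψ (fun i j => by rw [h2]; exact (hM i j).2) h3

end DA

end Crest.Agent.R80
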