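import Crest.Agent.R80.Moments

/-! Row 80: smooth extension from a closed half-space. -/

set_option autoImplicit false
open MeasureTheory Filter Topology
open scoped ContDiff RealInnerProductSpace

namespace Crest.Agent.R80

section half
variable {E : Type*} [NormedAddCommGroup E] [NormedSpace ℝ E]

/-- the dilated reflection -/
noncomputable def halfR (ℓ : E →L[ℝ] ℝ) (v : E) (β : ℝ) : E →L[ℝ] E :=
  ContinuousLinearMap.id ℝ E - (1 + β) • ℓ.smulRight v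

theorem halfR_apply (ℓ : E →L[ℝ] ℝ) (v : E) (β : ℝ) (x : E) :
    halfR ℓ v β x = (x - ℓ x • v) + (-β * ℓ x) • v := by
  simp only [halfR, ContinuousLinearMap.sub_apply, ContinuousLinearMap.id_apply,
    ContinuousLinearMap.smul_apply, ContinuousLinearMap.smulRight_apply]
  module

theorem half_l_R {ℓ : E →L[ℝ] ℝ} {v : E} (hv : ℓ v = 1) (β : ℝ) (x : E) :
    ℓ (halfR ℓ v β x) = -β * ℓ x := by
  simp [halfR_apply, hv]

theorem halfR_fix {ℓ : E →L[ℝ] ℝ} (v : E) (β : ℝ) {x : E} (hx : ℓ x = 0) : halfR ℓ v β x = x := by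
  simp [halfR_apply, hx]

theorem half_norm_R (ℓ : E →L[ℝ] ℝ) (v : E) {β : ℝ} (hβ : 0 ≤ β) :
    ‖halfR ℓ v β‖ ≤ 1 + (1 + β) * ‖ℓ.smulRight v‖ := by
  refine (norm_sub_le _ _).trans (add_le_add ContinuousLinearMap.norm_id_le ?_)
  rw [norm_smul, Real.norm_of_nonneg (by linarith)]

/-- admissible coefficient sequences -/
def HalfGood (b c : ℕ → ℝ) : Prop :=
  (∀ j : ℕ, Summable fun k => |c k| * b k ^ j) ∧ ∀ j : ℕ, ∑' k, c k * (-b k) ^ j = 1

theorem HalfGood.shift {b c : ℕ → ℝ} (hb : ∀ k, 1 ≤ b k) (h : HalfGood b c) :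
    HalfGood b fun k => c k * -b k := by
  refine ⟨fun j => (h.1 (j + 1)).congr fun k => ?_, fun j => ?_⟩
  · rw [abs_mul, abs_neg, abs_of_nonneg (show 0 ≤ b k by linarith [hb k])]
    ring
  · rw [← h.2 (j + 1)]
    exact tsum_congr fun k => by ring

theorem HalfGood.summable {b c : ℕ → ℝ} (h : HalfGood b c) : Summable fun k => |c k| := by
  simpa using h.1 0

theorem HalfGood.tsum {b c : ℕ → ℝ} (h : HalfGood b c) : ∑' k, c k = 1 := by
  simpa using h.2 0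

/-- smooth functions on the half space with bounded support -/
def HalfC (ℓ : E →L[ℝ] ℝ) (g : E → ℝ) : Prop :=
  ContDiffOn ℝ ∞ g {x | 0 ≤ ℓ x} ∧ ∃ R, ∀ x, 0 ≤ ℓ x → R ≤ ‖x‖ → g x = 0

theorem half_nhds_ge {ℓ : E →L[ℝ] ℝ} {x : E} (h : 0 < ℓ x) : {x | 0 ≤ ℓ x} ∈ 𝓝 x :=
  mem_of_superset ((isOpen_lt continuous_const ℓ.continuous).mem_nhds h)
    fun z (hz : 0 < ℓ z) => hz.le

theorem half_nhds_le {ℓ : E →L[ℝ] ℝ} {x : E} (h : ℓ x < 0) : {x | ℓ x ≤ 0} ∈ 𝓝 x :=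
  mem_of_superset ((isOpen_lt ℓ.continuous continuous_const).mem_nhds h)
    fun z (hz : ℓ z < 0) => hz.le

theorem half_union (ℓ : E →L[ℝ] ℝ) : {x | 0 ≤ ℓ x} ∪ {x | ℓ x ≤ 0} = Set.univ :=
  Set.eq_univ_of_forall fun x => le_total 0 (ℓ x)

theorem half_unique {ℓ : E →L[ℝ] ℝ} {v : E} (hv : ℓ v = 1) : UniqueDiffOn ℝ {x | 0 ≤ ℓ x} := by
  refine uniqueDiffOn_convex (convex_halfSpace_ge ℓ.toLinearMap.isLinear 0) ⟨v, ?_⟩
  exact mem_interior_iff_mem_nhds.2 (half_nhds_ge (by rw [hv]; exact one_pos))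

theorem half_closed (ℓ : E →L[ℝ] ℝ) : IsClosed {x | 0 ≤ ℓ x} :=
  isClosed_le continuous_const ℓ.continuous

theorem half_bdd [FiniteDimensional ℝ E] {F : Type*} [NormedAddCommGroup F] {ℓ : E →L[ℝ] ℝ}
    {g : E → F} (hg : ContinuousOn g {x | 0 ≤ ℓ x}) {R : ℝ}
    (hR : ∀ x, 0 ≤ ℓ x → R ≤ ‖x‖ → g x = 0) : ∃ B, 0 ≤ B ∧ ∀ x, 0 ≤ ℓ x → ‖g x‖ ≤ B := by
  obtain ⟨B, hB⟩ := ((isCompact_closedBall (0 : E) R).inter_left
    (half_closed ℓ)).exists_bound_of_continuousOn (hg.mono Set.inter_subset_left)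
  refine ⟨max B 0, le_max_right _ _, fun x hx => ?_⟩
  rcases le_total R ‖x‖ with h | h
  · rw [hR x hx h, norm_zero]
    exact le_max_right _ _
  · exact (hB x ⟨hx, mem_closedBall_zero_iff.2 h⟩).trans (le_max_left _ _)

theorem half_fderiv_zero {ℓ : E →L[ℝ] ℝ} {g : E → ℝ} {R : ℝ}
    (hR : ∀ x, 0 ≤ ℓ x → R ≤ ‖x‖ → g x = 0) (x : E) (hx : 0 ≤ ℓ x) (h : R + 1 ≤ ‖x‖) :
    fderivWithin ℝ g {x | 0 ≤ ℓ x} x = 0 := by
  have h1 : g =ᶠ[𝓝[{x | 0 ≤ ℓ x}] x] fun _ => 0 := by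
    have h2 : ∀ᶠ y in 𝓝 x, R < ‖y‖ :=
      (isOpen_lt continuous_const continuous_norm).mem_nhds (show R < ‖x‖ by linarith)
    filter_upwards [self_mem_nhdsWithin, nhdsWithin_le_nhds h2] with y hy hy'
    exact hR y hy hy'.le
  rw [h1.fderivWithin_eq (hR x hx (by linarith))]
  simp

theorem HalfC.contDiffOn_fderiv {ℓ : E →L[ℝ] ℝ} {v : E} (hv : ℓ v = 1) {g : E → ℝ}
    (h : HalfC ℓ g) : ContDiffOn ℝ ∞ (fderivWithin ℝ g {x | 0 ≤ ℓ x}) {x | 0 ≤ ℓ x} :=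
  h.1.fderivWithin (half_unique hv) (by simp)

theorem HalfC.dir {ℓ : E →L[ℝ] ℝ} {v : E} (hv : ℓ v = 1) {g : E → ℝ} (h : HalfC ℓ g) (w : E) :
    HalfC ℓ fun x => fderivWithin ℝ g {x | 0 ≤ ℓ x} x w := by
  refine ⟨(h.contDiffOn_fderiv hv).clm_apply contDiffOn_const, ?_⟩
  obtain ⟨R, hR⟩ := h.2
  exact ⟨R + 1, fun x hx h1 => by simp only [half_fderiv_zero hR x hx h1]; rfl⟩

/-- the reflected series -/
noncomputable def halfT (ℓ : E →L[ℝ] ℝ) (v : E) (b c : ℕ → ℝ) (g : E → ℝ) (x : E) : ℝ :=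
  ∑' k, c k * g (halfR ℓ v (b k) x)

/-- its derivative -/
noncomputable def halfT' (ℓ : E →L[ℝ] ℝ) (v : E) (b c : ℕ → ℝ) (g : E → ℝ) (x : E) : E →L[ℝ] ℝ :=
  ∑' k, c k • (fderivWithin ℝ g {x | 0 ≤ ℓ x} (halfR ℓ v (b k) x)).comp (halfR ℓ v (b k))

/-- the extension -/
noncomputable def halfS (ℓ : E →L[ℝ] ℝ) (v : E) (b c : ℕ → ℝ) (g : E → ℝ) (x : E) : ℝ :=
  if 0 ≤ ℓ x then g x else halfT ℓ v b c g x

variable [FiniteDimensional ℝ E] {ℓ : E →L[ℝ] ℝ} {v : E} {b c : ℕ → ℝ} {g : E → ℝ}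

omit [FiniteDimensional ℝ E] in
theorem half_maps (hv : ℓ v = 1) (hb : ∀ k, 1 ≤ b k) (k : ℕ) {x : E} (hx : ℓ x ≤ 0) :
    0 ≤ ℓ (halfR ℓ v (b k) x) := by
  rw [half_l_R hv]
  nlinarith [hb k]

omit [FiniteDimensional ℝ E] in
theorem halfT_fix (hc : HalfGood b c) (g : E → ℝ) {x : E} (hx : ℓ x = 0) :
    halfT ℓ v b c g x = g x := by
  simp only [halfT, halfR_fix v _ hx]
  rw [tsum_mul_right, hc.tsum, one_mul]

omit [FiniteDimensional ℝ E] in
theorem halfS_of_ge (g : E → ℝ) {x : E} (hx : 0 ≤ ℓ x) : halfS ℓ v b c g x = g x := if_pos hx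

omit [FiniteDimensional ℝ E] in
theorem halfS_of_le (hc : HalfGood b c) (g : E → ℝ) {x : E} (hx : ℓ x ≤ 0) :
    halfS ℓ v b c g x = halfT ℓ v b c g x := by
  unfold halfS
  split_ifs with h
  · exact (halfT_fix hc g (le_antisymm hx h)).symm
  · rfl

theorem half_term_le (hv : ℓ v = 1) (hb : ∀ k, 1 ≤ b k) (hc : HalfGood b c) (hg : HalfC ℓ g) :
    ∃ u : ℕ → ℝ, Summable u ∧ ∀ k x, ℓ x ≤ 0 → ‖c k * g (halfR ℓ v (b k) x)‖ ≤ u k := by
  obtain ⟨R, hR⟩ := hg.2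
  obtain ⟨B, -, hB⟩ := half_bdd hg.1.continuousOn hR
  refine ⟨fun k => |c k| * B, hc.summable.mul_right B, fun k x hx => ?_⟩
  rw [norm_mul]
  exact mul_le_mul_of_nonneg_left (hB _ (half_maps hv hb k hx)) (abs_nonneg _)

theorem half_term'_le (hv : ℓ v = 1) (hb : ∀ k, 1 ≤ b k) (hc : HalfGood b c) (hg : HalfC ℓ g) :
    ∃ u : ℕ → ℝ, Summable u ∧ ∀ k x, ℓ x ≤ 0 → ‖c k •
      (fderivWithin ℝ g {x | 0 ≤ ℓ x} (halfR ℓ v (b k) x)).comp (halfR ℓ v (b k))‖ ≤ u k := by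
  obtain ⟨R, hR⟩ := hg.2
  obtain ⟨B, hB0, hB⟩ := half_bdd (hg.contDiffOn_fderiv hv).continuousOn (half_fderiv_zero hR)
  refine ⟨fun k => |c k| * (B * (1 + ‖ℓ.smulRight v‖)) + |c k| * b k ^ 1 * (B * ‖ℓ.smulRight v‖),
    (hc.summable.mul_right _).add ((hc.1 1).mul_right _), fun k x hx => ?_⟩
  rw [norm_smul]
  calc _ ≤ |c k| * (B * (1 + (1 + b k) * ‖ℓ.smulRight v‖)) :=
        mul_le_mul_of_nonneg_left ((ContinuousLinearMap.opNorm_comp_le _ _).trans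
          (mul_le_mul (hB _ (half_maps hv hb k hx)) (half_norm_R ℓ v (by linarith [hb k]))
            (norm_nonneg _) hB0)) (abs_nonneg _)
    _ = _ := by ring

theorem half_contOn_T (hv : ℓ v = 1) (hb : ∀ k, 1 ≤ b k) (hc : HalfGood b c) (hg : HalfC ℓ g) :
    ContinuousOn (halfT ℓ v b c g) {x | ℓ x ≤ 0} := by
  obtain ⟨u, hu, h⟩ := half_term_le hv hb hc hg
  exact continuousOn_tsum (fun k => continuousOn_const.mul (hg.1.continuousOn.comp
    (halfR ℓ v (b k)).continuous.continuousOn fun x hx => half_maps hv hb k hx)) hu h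

theorem half_contOn_T' (hv : ℓ v = 1) (hb : ∀ k, 1 ≤ b k) (hc : HalfGood b c) (hg : HalfC ℓ g) :
    ContinuousOn (halfT' ℓ v b c g) {x | ℓ x ≤ 0} := by
  obtain ⟨u, hu, h⟩ := half_term'_le hv hb hc hg
  exact continuousOn_tsum (fun k => (((hg.contDiffOn_fderiv hv).continuousOn.comp
    (halfR ℓ v (b k)).continuous.continuousOn fun x hx => half_maps hv hb k hx).clm_comp
      continuousOn_const).const_smul (c k)) hu h

theorem half_cont_S (hv : ℓ v = 1) (hb : ∀ k, 1 ≤ b k) (hc : HalfGood b c) (hg : HalfC ℓ g) :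
    Continuous (halfS ℓ v b c g) := by
  have h := (hg.1.continuousOn.congr fun x hx => halfS_of_ge (v := v) (b := b) (c := c) g hx
    ).union_of_isClosed ((half_contOn_T hv hb hc hg).congr fun x hx => halfS_of_le hc g hx)
    (half_closed ℓ) (isClosed_le ℓ.continuous continuous_const)
  rwa [half_union, continuousOn_univ] at h

theorem half_hasFDerivAt_T (hv : ℓ v = 1) (hb : ∀ k, 1 ≤ b k) (hc : HalfGood b c)
    (hg : HalfC ℓ g) {x : E} (hx : ℓ x < 0) :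
    HasFDerivAt (halfT ℓ v b c g) (halfT' ℓ v b c g x) x := by
  obtain ⟨u, hu, h⟩ := half_term_le hv hb hc hg
  obtain ⟨u', hu', h'⟩ := half_term'_le hv hb hc hg
  refine hasFDerivAt_tsum_of_isPreconnected (s := {x | ℓ x < 0}) hu'
    (isOpen_lt ℓ.continuous continuous_const)
    (convex_halfSpace_lt ℓ.toLinearMap.isLinear 0).isPreconnected (fun k y hy => ?_)
    (fun k y hy => h' k y (le_of_lt hy)) hx (Summable.of_norm_bounded hu fun k => h k x hx.le) hx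
  have h1 : 0 < ℓ (halfR ℓ v (b k) y) := by
    rw [half_l_R hv]
    have : ℓ y < 0 := hy
    nlinarith [hb k]
  have h2 := ((hg.1.differentiableOn (by simp)) _ h1.le).hasFDerivWithinAt.hasFDerivAt
    (half_nhds_ge h1)
  exact (h2.comp y (halfR ℓ v (b k)).hasFDerivAt).const_mul (c k)

omit [FiniteDimensional ℝ E] in
theorem half_closure (hv : ℓ v = 1) : {x | ℓ x ≤ 0} ⊆ closure {x | ℓ x < 0} := by
  intro x hx
  have h1 : Tendsto (fun t : ℝ => x - t • v) (𝓝[>] 0) (𝓝 x) := by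
    have : Continuous fun t : ℝ => x - t • v := by fun_prop
    exact (this.tendsto' 0 x (by simp)).mono_left nhdsWithin_le_nhds
  refine mem_closure_of_tendsto h1 ?_
  filter_upwards [self_mem_nhdsWithin] with t ht
  have h2 : ℓ x ≤ 0 := hx
  have h3 : 0 < t := ht
  simp only [Set.mem_setOf_eq, map_sub, map_smul, hv, smul_eq_mul, mul_one]
  linarith

theorem half_hasFDerivWithinAt_T (hv : ℓ v = 1) (hb : ∀ k, 1 ≤ b k) (hc : HalfGood b c)
    (hg : HalfC ℓ g) {x : E} (hx : ℓ x ≤ 0) :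
    HasFDerivWithinAt (halfT ℓ v b c g) (halfT' ℓ v b c g x) {x | ℓ x ≤ 0} x := by
  have hs : {x | ℓ x < 0} ⊆ {x | ℓ x ≤ 0} := fun y (hy : ℓ y < 0) => hy.le
  refine (hasFDerivWithinAt_closure_of_tendsto_fderiv (s := {x | ℓ x < 0})
    (fun y hy => (half_hasFDerivAt_T hv hb hc hg hy).differentiableAt.differentiableWithinAt)
    (convex_halfSpace_lt ℓ.toLinearMap.isLinear 0) (isOpen_lt ℓ.continuous continuous_const)
    (fun y hy => (half_contOn_T hv hb hc hg y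
      (closure_minimal hs (isClosed_le ℓ.continuous continuous_const) hy)).mono hs) ?_).mono
    (half_closure hv)
  refine ((half_contOn_T' hv hb hc hg x hx).mono hs).tendsto.congr' ?_
  filter_upwards [self_mem_nhdsWithin] with y hy
  exact (half_hasFDerivAt_T hv hb hc hg hy).fderiv.symm

theorem halfT'_apply (hv : ℓ v = 1) (hb : ∀ k, 1 ≤ b k) (hc : HalfGood b c) (hg : HalfC ℓ g)
    {x : E} (hx : ℓ x ≤ 0) (w : E) : halfT' ℓ v b c g x w =
      halfT ℓ v b c (fun y => fderivWithin ℝ g {x | 0 ≤ ℓ x} y (w - ℓ w • v)) x +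
        ℓ w * halfT ℓ v b (fun k => c k * -b k) (fun y => fderivWithin ℝ g {x | 0 ≤ ℓ x} y v) x := by
  obtain ⟨u', hu', h'⟩ := half_term'_le hv hb hc hg
  obtain ⟨u₁, hu₁, h₁⟩ := half_term_le hv hb hc (hg.dir hv (w - ℓ w • v))
  obtain ⟨u₂, hu₂, h₂⟩ := half_term_le hv hb (hc.shift hb) (hg.dir hv v)
  have e := (ContinuousLinearMap.apply ℝ ℝ w).map_tsum
    (Summable.of_norm_bounded hu' fun k => h' k x hx)
  rw [halfT, halfT, ← tsum_mul_left, ← (Summable.of_norm_bounded hu₁ fun k => h₁ k x hx).tsum_add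
    ((Summable.of_norm_bounded hu₂ fun k => h₂ k x hx).mul_left _)]
  refine e.trans (tsum_congr fun k => ?_)
  simp only [ContinuousLinearMap.apply_apply, ContinuousLinearMap.smul_apply,
    ContinuousLinearMap.comp_apply, smul_eq_mul]
  rw [halfR_apply ℓ v (b k) w, map_add, map_smul, smul_eq_mul]
  ring

theorem half_deriv_S (hv : ℓ v = 1) (hb : ∀ k, 1 ≤ b k) (hc : HalfGood b c) (hg : HalfC ℓ g)
    (x : E) : ∃ Λ : E →L[ℝ] ℝ, HasFDerivAt (halfS ℓ v b c g) Λ x ∧ ∀ w, Λ w =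
      halfS ℓ v b c (fun y => fderivWithin ℝ g {x | 0 ≤ ℓ x} y (w - ℓ w • v)) x +
        ℓ w * halfS ℓ v b (fun k => c k * -b k) (fun y => fderivWithin ℝ g {x | 0 ≤ ℓ x} y v) x := by
  have hup : 0 ≤ ℓ x → HasFDerivWithinAt (halfS ℓ v b c g) (fderivWithin ℝ g {x | 0 ≤ ℓ x} x)
      {x | 0 ≤ ℓ x} x := fun hx =>
    ((hg.1.differentiableOn (by simp)) x hx).hasFDerivWithinAt.congr
      (fun y hy => halfS_of_ge g hy) (halfS_of_ge g hx)
  have hlo : ℓ x ≤ 0 → HasFDerivWithinAt (halfS ℓ v b c g) (halfT' ℓ v b c g x)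
      {x | ℓ x ≤ 0} x := fun hx =>
    (half_hasFDerivWithinAt_T hv hb hc hg hx).congr
      (fun y hy => halfS_of_le hc g hy) (halfS_of_le hc g hx)
  have e : ∀ w, fderivWithin ℝ g {x | 0 ≤ ℓ x} x w =
      fderivWithin ℝ g {x | 0 ≤ ℓ x} x (w - ℓ w • v) +
        ℓ w * fderivWithin ℝ g {x | 0 ≤ ℓ x} x v := fun w => by
    rw [map_sub, map_smul, smul_eq_mul, sub_add_cancel]
  rcases lt_trichotomy (ℓ x) 0 with h | h | h
  · refine ⟨_, (hlo h.le).hasFDerivAt (half_nhds_le h), fun w => ?_⟩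
    rw [halfT'_apply hv hb hc hg h.le, halfS_of_le hc _ h.le, halfS_of_le (hc.shift hb) _ h.le]
  · have e2 : halfT' ℓ v b c g x = fderivWithin ℝ g {x | 0 ≤ ℓ x} x := by
      ext w
      rw [halfT'_apply hv hb hc hg h.le, halfT_fix hc _ h, halfT_fix (hc.shift hb) _ h, ← e]
    have h1 := (hup h.ge).union (e2 ▸ hlo h.le)
    rw [half_union, hasFDerivWithinAt_univ] at h1
    refine ⟨_, h1, fun w => ?_⟩
    rw [halfS_of_ge _ h.ge, halfS_of_ge _ h.ge, ← e]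
  · refine ⟨_, (hup h.le).hasFDerivAt (half_nhds_ge h), fun w => ?_⟩
    rw [halfS_of_ge _ h.le, halfS_of_ge _ h.le, ← e]

theorem half_contDiff_S (hv : ℓ v = 1) (hb : ∀ k, 1 ≤ b k) (n : ℕ) :
    ∀ (c : ℕ → ℝ) (g : E → ℝ), HalfGood b c → HalfC ℓ g → ContDiff ℝ n (halfS ℓ v b c g) := by
  induction n with
  | zero => exact fun c g hc hg => contDiff_zero.2 (half_cont_S hv hb hc hg)
  | succ n ih =>
    intro c g hc hg
    choose Λ h1 h2 using half_deriv_S hv hb hc hg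
    push_cast
    refine contDiff_succ_iff_fderiv_apply.2 ⟨fun x => (h1 x).differentiableAt, by simp, fun w => ?_⟩
    simp only [fun x => (h1 x).fderiv, h2]
    exact (ih _ _ hc (hg.dir hv _)).add (contDiff_const.mul (ih _ _ (hc.shift hb) (hg.dir hv _)))

end half

theorem half_ext {E : Type*} [NormedAddCommGroup E] [NormedSpace ℝ E] [FiniteDimensional ℝ E]
    (ℓ : E →L[ℝ] ℝ) (v : E) (hv : ℓ v = 1) (f : E → ℝ)
    (hf : ContDiffOn ℝ ∞ f {x | 0 ≤ ℓ x}) (R : ℝ) (hR : ∀ x, 0 ≤ ℓ x → R ≤ ‖x‖ → f x = 0) :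
    ∃ F : E → ℝ, ContDiff ℝ ∞ F ∧ ∀ x, 0 ≤ ℓ x → F x = f x := by
  obtain ⟨a, b, hb, h1, h2⟩ := exists_moments
  exact ⟨halfS ℓ v b a f, contDiff_infty.2 fun n => half_contDiff_S hv hb n a f ⟨h1, h2⟩ ⟨hf, R, hR⟩,
    fun x hx => halfS_of_ge f hx⟩

end Crest.Agent.R80
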