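import Crest.Agent.R80.Basic

/-! Row 80: holomorphic dependence on the null direction and Liouville's theorem. -/

set_option autoImplicit false
open Filter Topology Matrix

namespace Crest.Agent.R80

namespace Hol

/-- finite sums of entire multiples of fixed vectors -/
inductive Pol {X : Type} [AddCommGroup X] [Module ℂ X] : (ℂ → X) → Prop
  | gen (c : ℂ → ℂ) (x : X) : Differentiable ℂ c → Pol (fun z => c z • x)
  | add {F F' : ℂ → X} : Pol F → Pol F' → Pol (fun z => F z + F' z)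

section
variable {X Y Z : Type} [AddCommGroup X] [Module ℂ X] [AddCommGroup Y] [Module ℂ Y]
  [AddCommGroup Z] [Module ℂ Z]

theorem Pol.const (x : X) : Pol (fun _ => x) := by
  simpa using Pol.gen (fun _ => 1) x (differentiable_const _)

theorem Pol.smul {c : ℂ → ℂ} (hc : Differentiable ℂ c) {F : ℂ → X} (h : Pol F) :
    Pol (fun z => c z • F z) := by
  induction h with
  | gen c' x hc' => simpa only [smul_smul] using Pol.gen (fun z => c z * c' z) x (hc.mul hc')
  | add _ _ h1 h2 => simpa only [smul_add] using h1.add h2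

theorem Pol.sub {F F' : ℂ → X} (h : Pol F) (h' : Pol F') : Pol (fun z => F z - F' z) := by
  simpa [sub_eq_add_neg] using h.add (h'.smul (differentiable_const (-1)))

theorem Pol.map (L : X →ₗ[ℂ] Y) {F : ℂ → X} (h : Pol F) : Pol (fun z => L (F z)) := by
  induction h with
  | gen c x hc => simpa only [map_smul] using Pol.gen c (L x) hc
  | add _ _ h1 h2 => simpa only [map_add] using h1.add h2

theorem Pol.map₂ (B : X →ₗ[ℂ] Y →ₗ[ℂ] Z) {F : ℂ → X} {F' : ℂ → Y} (h : Pol F) (h' : Pol F') :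
    Pol (fun z => B (F z) (F' z)) := by
  induction h with
  | gen c x hc => simpa only [map_smul, LinearMap.smul_apply] using (h'.map (B x)).smul hc
  | add _ _ h1 h2 => simpa only [map_add, LinearMap.add_apply] using h1.add h2

theorem Pol.differentiable {F : ℂ → ℂ} (h : Pol F) : Differentiable ℂ F := by
  induction h with
  | gen c x hc => exact hc.smul_const x
  | add _ _ h1 h2 => exact h1.add h2

theorem Pol.vec {F : ℂ → Fin 3 → ℂ} (h : ∀ i, Differentiable ℂ fun z => F z i) : Pol F := by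
  have := ((Pol.gen _ (Pi.single 0 1 : Fin 3 → ℂ) (h 0)).add
    (Pol.gen _ (Pi.single 1 1 : Fin 3 → ℂ) (h 1))).add (Pol.gen _ (Pi.single 2 1 : Fin 3 → ℂ) (h 2))
  convert this using 2 with z
  funext i
  fin_cases i <;> simp

theorem Pol.apply {g : ℂ → X →ₗ[ℂ] ℂ} (hg : ∀ x, Differentiable ℂ fun z => g z x) {F : ℂ → X}
    (h : Pol F) : Differentiable ℂ fun z => g z (F z) := by
  induction h with
  | gen c x hc => simpa only [map_smul, smul_eq_mul] using hc.fun_mul (hg x)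
  | add _ _ h1 h2 => simpa only [map_add] using h1.fun_add h2

theorem Pol.tendsto {g : ℂ → X →ₗ[ℂ] ℂ} {z₀ : ℂ}
    (hb : ∀ x, IsBoundedUnder (· ≤ ·) (𝓝 z₀) (norm ∘ fun z => g z x)) {F : ℂ → X} (h : Pol F) :
    Tendsto (fun z => g z (F z - F z₀)) (𝓝 z₀) (𝓝 0) := by
  induction h with
  | gen c x hc =>
    have h1 : Tendsto (fun z => c z - c z₀) (𝓝 z₀) (𝓝 0) := by
      simpa using (hc.continuous.tendsto z₀).sub_const (c z₀)
    simpa only [← sub_smul, map_smul, smul_eq_mul] using h1.zero_mul_isBoundedUnder_le (hb x)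
  | add _ _ h1 h2 => simpa only [add_sub_add_comm, map_add, add_zero] using h1.add h2

theorem Pol.differentiableAt {g : ℂ → X →ₗ[ℂ] ℂ} {z₀ : ℂ}
    (hb : ∀ x, ContinuousAt (fun z => g z x) z₀) {F : ℂ → X} (h : Pol F) :
    DifferentiableAt ℂ (fun z => g z (F z - F z₀)) z₀ := by
  induction h with
  | gen c x hc =>
    simp only [← sub_smul, map_smul, smul_eq_mul]
    have h1 := hasDerivAt_iff_tendsto_slope.1 (hc z₀).hasDerivAt
    refine (hasDerivAt_iff_tendsto_slope.2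
      ((h1.mul ((hb x).tendsto.mono_left nhdsWithin_le_nhds)).congr fun z => ?_)).differentiableAt
    simp only [slope_def_field, sub_self, zero_mul, sub_zero]
    ring
  | add _ _ h1 h2 => simpa only [add_sub_add_comm, map_add] using h1.fun_add h2

theorem hol {g : ℂ → X →ₗ[ℂ] ℂ} {z₀ : ℂ}
    (hb : ∀ x, IsBoundedUnder (· ≤ ·) (𝓝 z₀) (norm ∘ fun z => g z x))
    (H : ∀ x, ∃ (l : ℂ → ℂ) (F : ℂ → X), Differentiable ℂ l ∧ Pol F ∧ F z₀ = 0 ∧
      ∀ z, g z x = l z + g z (F z)) (x : X) : DifferentiableAt ℂ (fun z => g z x) z₀ := by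
  have hc : ∀ x, ContinuousAt (fun z => g z x) z₀ := by
    intro x
    obtain ⟨l, F, hl, hF, h0, h⟩ := H x
    have h1 := hF.tendsto hb
    simp only [h0, sub_zero] at h1
    have h2 := (hl.continuous.tendsto z₀).add h1
    rw [show (fun z => g z x) = fun z => l z + g z (F z) from funext h]
    unfold ContinuousAt
    simpa only [h0, map_zero] using h2
  obtain ⟨l, F, hl, hF, h0, h⟩ := H x
  have h1 := hF.differentiableAt hc
  simp only [h0, sub_zero] at h1
  rw [show (fun z => g z x) = fun z => l z + g z (F z) from funext h]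
  exact (hl z₀).fun_add h1

end

theorem const_of_bound {f : ℂ → ℂ} (hf : Differentiable ℂ f) {C : ℝ} (h : ∀ z, ‖f z‖ ≤ C)
    (z w : ℂ) : f z = f w :=
  hf.apply_eq_apply_of_bounded (isBounded_iff_forall_norm_le.2 ⟨C, by
    rintro _ ⟨z, rfl⟩; exact h z⟩) z w

theorem affine_of_bound {f : ℂ → ℂ} (hf : Differentiable ℂ f) {C : ℝ}
    (h : ∀ z, ‖f z‖ ≤ C * (1 + ‖z‖)) : ∃ a b : ℂ, ∀ z, f z = a + b * z := by
  have hC : 0 ≤ C := by simpa using (norm_nonneg _).trans (h 0)
  have h1 : ∀ c, ‖deriv f c‖ ≤ 2 * C := by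
    intro c
    have hR : 0 < 1 + ‖c‖ := by positivity
    have := Complex.norm_deriv_le_of_forall_mem_sphere_norm_le (c := c) (C := 2 * C * (1 + ‖c‖)) hR
      hf.diffContOnCl (fun z hz => by
        have h2 : ‖z‖ ≤ ‖z - c‖ + ‖c‖ := by simpa using norm_add_le (z - c) c
        rw [mem_sphere_iff_norm] at hz
        refine (h z).trans ?_
        rw [hz] at h2
        nlinarith [norm_nonneg c])
    rwa [mul_div_cancel_right₀ _ hR.ne'] at this
  have hd : Differentiable ℂ (deriv f) := fun z => (hf.analyticAt z).deriv.differentiableAt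
  refine ⟨f 0, deriv f 0, fun z => ?_⟩
  have h2 : ∀ w, HasDerivAt (fun w => f w - deriv f 0 * w) 0 w := fun w => by
    have := (hf w).hasDerivAt.sub ((hasDerivAt_id w).const_mul (deriv f 0))
    rw [const_of_bound hd h1 w 0, mul_one, sub_self] at this
    exact this
  have := is_const_of_deriv_eq_zero (fun w => (h2 w).differentiableAt) (fun w => (h2 w).deriv) z 0
  linear_combination this

section
variable {O : Type} [CommRing O] [Algebra ℂ O]

/-- `tens (eU ·) ·` as a bilinear map -/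
def tensU : (Fin 3 → ℂ) →ₗ[ℂ] (I4 → O) →ₗ[ℂ] Matrix I4 I4 O :=
  LinearMap.mk₂ ℂ (fun u y => tens (eU u) y)
    (fun u u' y => by ext (_ | i) j <;> simp [tens, eU, add_smul])
    (fun c u y => by ext (_ | i) j <;> simp [tens, eU, mul_smul])
    (fun u y y' => by ext (_ | i) j <;> simp [tens, eU])
    (fun c u y => by ext (_ | i) j <;> simp [tens, eU, smul_comm c])

/-- contraction of the first slot -/
def con : (Fin 3 → ℂ) →ₗ[ℂ] Matrix I4 I4 O →ₗ[ℂ] (I4 → O) :=
  LinearMap.mk₂ ℂ (fun θ ψ c => ∑ a, θ a • ψ (some a) c)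
    (fun u u' y => by ext c; simp [add_smul, Finset.sum_add_distrib])
    (fun c u y => by ext j; simp [mul_smul, Finset.smul_sum])
    (fun u y y' => by ext j; simp [Finset.sum_add_distrib])
    (fun c u y => by ext j; simp [Finset.smul_sum, smul_comm c])

theorem cons_iff {θ : Fin 3 → ℂ} {ψ : Matrix I4 I4 O} : Cons θ ψ ↔ con θ ψ = 0 :=
  funext_iff.symm

theorem con_tensU (θ u : Fin 3 → ℂ) (y : I4 → O) : con θ (tensU u y) = (∑ a, θ a * u a) • y := by
  ext c
  simp [con, tensU, tens, eU, Finset.sum_smul, mul_smul]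

/-- a vector dual to all `θz z` -/
noncomputable def vv : Fin 3 → ℂ := ![1 / 2, -Complex.I / 2, 0]

theorem θz_vv (z : ℂ) : ∑ a, θz z a * vv a = 1 := by
  simp only [θz, vv, Fin.sum_univ_three, Matrix.cons_val_zero, Matrix.cons_val_one, Matrix.cons_val]
  linear_combination (-(1 + z ^ 2) / 2) * Complex.I_mul_I

theorem θz_e0 (z : ℂ) : ∑ a, θz z a * e0 z a = 0 := by
  simp only [θz, e0, Fin.sum_univ_three, Matrix.cons_val_zero, Matrix.cons_val_one, Matrix.cons_val]
  linear_combination (1 + z ^ 2) * Complex.I_mul_I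

theorem θz_e1 (z : ℂ) : ∑ a, θz z a * e1 z a = 0 := by
  simp only [θz, e1, Fin.sum_univ_three, Matrix.cons_val_zero, Matrix.cons_val_one, Matrix.cons_val]
  linear_combination (z * (1 + z ^ 2)) * Complex.I_mul_I

/-- the projection onto the constrained tensors -/
noncomputable def prj (z : ℂ) : Matrix I4 I4 O →ₗ[ℂ] Matrix I4 I4 O :=
  LinearMap.id - (tensU vv).comp (con (θz z))

theorem prj_apply (z : ℂ) (ψ : Matrix I4 I4 O) : prj z ψ = ψ - tensU vv (con (θz z) ψ) := rfl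

theorem cons_prj (z : ℂ) (ψ : Matrix I4 I4 O) : Cons (θz z) (prj z ψ) := by
  rw [cons_iff, prj_apply, map_sub, con_tensU, θz_vv, one_smul, sub_self]

theorem prj_of_cons {z : ℂ} {ψ : Matrix I4 I4 O} (h : Cons (θz z) ψ) : prj z ψ = ψ := by
  rw [prj_apply, cons_iff.1 h, map_zero, sub_zero]

theorem pol_θz : Pol θz := Pol.vec fun i => by fin_cases i <;> simp [θz] <;> fun_prop
theorem pol_e0 : Pol e0 := Pol.vec fun i => by fin_cases i <;> simp [e0]
theorem pol_e1 : Pol e1 := Pol.vec fun i => by fin_cases i <;> simp [e1] <;> fun_prop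

theorem pol_prj (ψ : Matrix I4 I4 O) : Pol fun z => prj z ψ :=
  (Pol.const ψ).sub ((pol_θz.map₂ con (Pol.const ψ)).map (tensU vv))

/-- a common bound for finitely many values of two seminorms -/
theorem exists_bound {ι : Type} [Fintype ι] (ν ρ : Seminorm ℂ O) (y : ι → O) :
    ∃ M : ℝ, 0 ≤ M ∧ ∀ i, ν (y i) ≤ M ∧ ρ (y i) ≤ M := by
  refine ⟨∑ i, (ν (y i) + ρ (y i)), Finset.sum_nonneg fun i _ => by positivity, fun i => ?_⟩
  have := Finset.single_le_sum (f := fun i => ν (y i) + ρ (y i)) (fun i _ => by positivity)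
    (Finset.mem_univ i)
  have h1 := apply_nonneg ν (y i)
  have h2 := apply_nonneg ρ (y i)
  constructor <;> linarith

theorem sn_tensU (p : Seminorm ℂ O) {u : Fin 3 → ℂ} {y : I4 → O} {K M : ℝ} (hK : 0 ≤ K)
    (hM : 0 ≤ M) (hu : ∀ a, ‖u a‖ ≤ K) (hy : ∀ j, p (y j) ≤ M) (i j : I4) :
    p (tensU u y i j) ≤ K * M := by
  rcases i with _ | a
  · change p ((0 : ℂ) • y j) ≤ _
    rw [zero_smul, map_zero]; positivity
  · change p (u a • y j) ≤ _
    rw [map_smul_eq_mul]
    exact mul_le_mul (hu a) (hy j) (apply_nonneg _ _) hK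

theorem sn_prj (p : Seminorm ℂ O) {ψ : Matrix I4 I4 O} {M : ℝ} (hM : 0 ≤ M)
    (h : ∀ i j, p (ψ i j) ≤ M) (z : ℂ) (i j : I4) :
    p (prj z ψ i j) ≤ (1 + ∑ a, ‖θz z a‖) * M := by
  have h1 : ∀ c, p (con (θz z) ψ c) ≤ (∑ a, ‖θz z a‖) * M := by
    intro c
    change p (∑ a, θz z a • ψ (some a) c) ≤ _
    simp only [Fin.sum_univ_three, add_mul]
    refine (map_add_le_add p _ _).trans (add_le_add ((map_add_le_add p _ _).trans
      (add_le_add ?_ ?_)) ?_) <;> rw [map_smul_eq_mul] <;>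
      exact mul_le_mul_of_nonneg_left (h _ _) (norm_nonneg _)
  have h2 := sn_tensU p (u := vv) (K := 1) zero_le_one (by positivity) (fun a => by
    fin_cases a <;> simp [vv] <;> norm_num) h1 i j
  have h3 := map_sub_le_add p (ψ i j) (tensU vv (con (θz z) ψ) i j)
  have h4 := h i j
  rw [prj_apply, Matrix.sub_apply]
  linarith

variable [TopologicalSpace O] (S : DA O)

/-- `dd` as a bilinear map -/
noncomputable def ddL : (Fin 3 → ℂ) →ₗ[ℂ] O →ₗ[ℂ] O :=
  LinearMap.mk₂ ℂ (fun θ f => S.dd θ f)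
    (fun u u' y => by simp [S.dd_apply, add_smul, Finset.sum_add_distrib])
    (fun c u y => S.dd_smul c u y) (fun u y y' => map_add _ _ _)
    (fun c u y => Derivation.map_smul _ _ _)

/-- `jf` as a linear map -/
noncomputable def jfL (M₁ M₂ : Mod O) : Matrix I4 I4 O →ₗ[ℂ] O where
  toFun := S.jf M₁ M₂
  map_add' ψ ψ' := by
    simp only [DA.jf, Matrix.add_apply, Fin.sum_univ_three]; ring
  map_smul' c ψ := by
    simp only [DA.jf, Matrix.smul_apply, Fin.sum_univ_three, Algebra.smul_def, RingHom.id_apply]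
    ring

theorem A1_add (M : Mod O) (θ θ' : Fin 3 → ℂ) : S.A1 M (θ + θ') = S.A1 M θ + S.A1 M θ' := by
  ext i j
  rcases i with _ | a <;> rcases j with _ | b
  · simp [DA.A1]
  · simp [DA.A1, add_smul, Finset.sum_add_distrib]
  · simp [DA.A1, add_div, add_smul, add_comm]
  · by_cases h : a = b <;>
      simp [DA.A1, h, add_div, add_smul, Finset.sum_add_distrib] <;> abel

theorem A2_add (M : Mod O) (θ θ' : Fin 3 → ℂ) : S.A2 M (θ + θ') = S.A2 M θ + S.A2 M θ' := by
  ext i j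
  rcases i with _ | a <;> rcases j with _ | b
  · simp [DA.A2]
  · simp [DA.A2, add_div, add_smul, add_comm]
  · simp [DA.A2, add_smul, Finset.sum_add_distrib]
  · simp [DA.A2, add_div, add_smul]

/-- `Pop` as a bilinear map -/
noncomputable def PopL (M₁ M₂ : Mod O) :
    (Fin 3 → ℂ) →ₗ[ℂ] Matrix I4 I4 O →ₗ[ℂ] Matrix I4 I4 O :=
  LinearMap.mk₂ ℂ (S.Pop M₁ M₂)
    (fun θ θ' ψ => by
      have : ψ.map (S.dd (θ + θ')) = ψ.map (S.dd θ) + ψ.map (S.dd θ') := by
        ext i j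
        simp [S.dd_apply, add_smul, Finset.sum_add_distrib]
      unfold DA.Pop
      rw [A1_add, A2_add, this, Matrix.transpose_add, Matrix.add_mul, Matrix.mul_add]
      abel)
    (S.Pop_smul M₁ M₂)
    (fun θ ψ ψ' => by
      have : (ψ + ψ').map (S.dd θ) = ψ.map (S.dd θ) + ψ'.map (S.dd θ) := by
        ext i j
        simp
      unfold DA.Pop
      rw [this, Matrix.add_mul, Matrix.mul_add]
      abel)
    (fun c θ ψ => by
      have : (c • ψ).map (S.dd θ) = c • ψ.map (S.dd θ) := by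
        ext i j
        simp
      unfold DA.Pop
      rw [this, Matrix.smul_mul, Matrix.mul_smul, smul_sub, smul_sub])

theorem cons_Pop (M₁ M₂ : Mod O) {θ : Fin 3 → ℂ} (hθ : Null θ) {ψ : Matrix I4 I4 O}
    (h : Cons θ ψ) : Cons θ (S.Pop M₁ M₂ θ ψ) := by
  intro c
  have h0 := congrArg (algebraMap ℂ O) hθ.1
  have h1 := congrArg (S.dd θ) (h c)
  have h2 := h c
  have h3 := h none
  have h4 := h (some 0)
  have h5 := h (some 1)
  have h6 := h (some 2)
  simp only [Fin.sum_univ_three, map_add, map_zero, map_pow, Derivation.map_smul] at h0 h1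
  simp only [Fin.sum_univ_three, Algebra.smul_def] at h1 h2 h3 h4 h5 h6
  simp only [DA.Pop, Matrix.sub_apply, Matrix.map_apply, Matrix.mul_apply, Matrix.transpose_apply,
    Fintype.sum_option, Fin.sum_univ_three, DA.A1, Matrix.of_apply, Fin.isValue, ↓reduceIte,
    Fin.reduceEq, Algebra.smul_def, div_eq_mul_inv, map_mul]
  linear_combination h1
    + (algebraMap ℂ O 2⁻¹ * (algebraMap ℂ O (θ 0) * S.L M₁ 0 + algebraMap ℂ O (θ 1) * S.L M₁ 1
      + algebraMap ℂ O (θ 2) * S.L M₁ 2)) * h2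
    + (algebraMap ℂ O 2⁻¹ * (M₁.k * ψ none c + S.L M₁ 0 * ψ (some 0) c + S.L M₁ 1 * ψ (some 1) c
      + S.L M₁ 2 * ψ (some 2) c)) * h0
    - S.A2 M₂ θ c none * h3 - S.A2 M₂ θ c (some 0) * h4 - S.A2 M₂ θ c (some 1) * h5
    - S.A2 M₂ θ c (some 2) * h6

variable {S} {M₁ M₂ : Mod O} {G : (Fin 3 → ℂ) → Matrix I4 I4 O →ₗ[ℂ] ℂ}

theorem bound (hG : S.GData M₁ M₂ G) (M : ℝ) : ∃ C : ℝ, ∀ θ, Null θ → ∀ F, Cons θ F → ∀ K : ℝ,
    0 < K → (∀ i j, S.ν (F i j) ≤ K * M ∧ S.ρ (F i j) ≤ K * M) → ‖G θ F‖ ≤ C * K := by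
  obtain ⟨C, hC⟩ := hG.bound M
  refine ⟨C, fun θ hθ F hF K hK h => ?_⟩
  have hn : ‖((K : ℂ))⁻¹‖ = K⁻¹ := by
    rw [norm_inv, Complex.norm_real, Real.norm_of_nonneg hK.le]
  have := hC θ hθ (((K : ℂ))⁻¹ • F) (by rw [cons_iff, map_smul, cons_iff.1 hF, smul_zero])
    (fun i j => by
      rw [Matrix.smul_apply, map_smul_eq_mul, map_smul_eq_mul, hn, inv_mul_le_iff₀ hK,
        inv_mul_le_iff₀ hK]
      exact h i j)
  rw [map_smul, norm_smul, hn, inv_mul_le_iff₀ hK] at this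
  linarith

theorem entire (hG : S.GData M₁ M₂ G) (ψ : Matrix I4 I4 O) :
    Differentiable ℂ fun z => ((G (θz z)).comp (prj z)) ψ := by
  intro z₀
  refine hol (g := fun z => (G (θz z)).comp (prj z)) (fun x => ?_) (fun x => ?_) ψ
  · obtain ⟨M, hM, h⟩ := exists_bound S.ν S.ρ (fun ij : I4 × I4 => x ij.1 ij.2)
    obtain ⟨C, hC⟩ := bound hG M
    have hc : Continuous fun z => C * (1 + ∑ a, ‖θz z a‖) := by
      simp only [Fin.sum_univ_three, θz, Matrix.cons_val_zero, Matrix.cons_val_one,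
        Matrix.cons_val]
      fun_prop
    refine (hc.tendsto z₀).isBoundedUnder_le.mono_le (Eventually.of_forall fun z => ?_)
    exact hC _ (null_θz z) _ (cons_prj z x) _ (by positivity) fun i j =>
      ⟨sn_prj _ hM (fun i j => (h (i, j)).1) z i j, sn_prj _ hM (fun i j => (h (i, j)).2) z i j⟩
  · obtain ⟨x₀, h₀, h₁⟩ := hG.surj _ (null_θz z₀) _ (cons_prj z₀ x)
    refine ⟨fun z => S.I (ddL S (θz z) (jfL S M₁ M₂ (prj z x₀))),
      fun z => prj z x - PopL S M₁ M₂ (θz z) (prj z x₀), ?_, ?_, ?_, fun z => ?_⟩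
    · exact ((pol_θz.map₂ (ddL S) ((pol_prj x₀).map (jfL S M₁ M₂))).map S.I).differentiable
    · exact (pol_prj x).sub (pol_θz.map₂ _ (pol_prj x₀))
    · change prj z₀ x - S.Pop M₁ M₂ (θz z₀) (prj z₀ x₀) = 0
      rw [prj_of_cons h₀, h₁, sub_self]
    · change G (θz z) (prj z x) = S.I (S.dd (θz z) (S.jf M₁ M₂ (prj z x₀))) +
        G (θz z) (prj z (prj z x - S.Pop M₁ M₂ (θz z) (prj z x₀)))
      rw [map_sub, prj_of_cons (cons_prj z x),
        prj_of_cons (cons_Pop S M₁ M₂ (null_θz z) (cons_prj z x₀)), map_sub,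
        hG.eq _ (null_θz z) _ (cons_prj z x₀)]
      ring

theorem entire' (hG : S.GData M₁ M₂ G) {F : ℂ → Matrix I4 I4 O} (hF : Pol F)
    (h : ∀ z, Cons (θz z) (F z)) : Differentiable ℂ fun z => G (θz z) (F z) := by
  have := hF.apply (g := fun z => (G (θz z)).comp (prj z)) (entire hG)
  simpa only [LinearMap.comp_apply, prj_of_cons (h _)] using this

theorem lin (hG : S.GData M₁ M₂ G) {e : ℂ → Fin 3 → ℂ} (he : Pol e)
    (h0 : ∀ z, ∑ a, θz z a * e z a = 0) (h1 : ∀ z a, ‖e z a‖ ≤ 1 + ‖z‖) (y : I4 → O) :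
    ∃ a b : ℂ, ∀ z, G (θz z) (tens (eU (e z)) y) = a + b * z := by
  have hc : ∀ z, Cons (θz z) (tensU (e z) y) := fun z => by
    rw [cons_iff, con_tensU, h0, zero_smul]
  obtain ⟨M, hM, h⟩ := exists_bound S.ν S.ρ y
  obtain ⟨C, hC⟩ := bound hG M
  exact affine_of_bound (entire' hG (he.map₂ tensU (Pol.const y)) hc) (C := C) fun z =>
    hC _ (null_θz z) _ (hc z) _ (by positivity) fun i j =>
      ⟨sn_tensU _ (by positivity) hM (h1 z) (fun j => (h j).1) i j,
        sn_tensU _ (by positivity) hM (h1 z) (fun j => (h j).2) i j⟩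

end

end Hol

namespace DA
variable {O : Type} [CommRing O] [Algebra ℂ O] [TopologicalSpace O] (S : DA O)

theorem liou {M₁ M₂ : Mod O} {G : (Fin 3 → ℂ) → Matrix I4 I4 O →ₗ[ℂ] ℂ}
    (hG : S.GData M₁ M₂ G) : Liou G := by
  refine ⟨fun y z => ?_, Hol.lin hG Hol.pol_e0 Hol.θz_e0 fun z a => ?_,
    Hol.lin hG Hol.pol_e1 Hol.θz_e1 fun z a => ?_⟩
  · have hc : ∀ z, Cons (θz z) (tens eP y) := fun z c => by simp [tens, eP]
    obtain ⟨M, hM, h⟩ := Hol.exists_bound S.ν S.ρ (fun ij : I4 × I4 => tens eP y ij.1 ij.2)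
    obtain ⟨C, hC⟩ := hG.bound M
    exact Hol.const_of_bound (Hol.entire' hG (Hol.Pol.const _) hc)
      (fun z => hC _ (null_θz z) _ (hc z) fun i j => h (i, j)) z 0
  · fin_cases a <;> simp [e0]
  · fin_cases a <;> simp [e1]

end DA

end Crest.Agent.R80
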