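import Crest.Agent.R80.Sym

/-! Row 80: the ODE solution operator J. -/

set_option autoImplicit false
open MeasureTheory Filter Topology Crest.AnalysisR.VecCalc3
open scoped ContDiff RealInnerProductSpace

namespace Crest.Agent.R80

theorem JOp_eq (K α : ℝ) (g : ℝ → ℂ) (t : ℝ) : J K α g t =
    (Real.exp (-(α * t + K * t ^ 2 / 2)) : ℂ) *
      ∫ s in (-α / K)..t, (Real.exp (α * s + K * s ^ 2 / 2) : ℂ) * g s := by
  rw [J, ← intervalIntegral.integral_const_mul]
  refine intervalIntegral.integral_congr fun s _ => ?_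
  rw [← mul_assoc, ← Complex.ofReal_mul, ← Real.exp_add]
  congr 3
  ring

theorem JOp_le {K : ℝ} (hK : 0 < K) (α : ℝ) {g : ℝ → ℂ} {c : ℝ} (hc : ∀ s, ‖g s‖ ≤ c) {s t : ℝ}
    (hs : s ∈ Set.uIoc (-α / K) t) :
    ‖(Real.exp (α * (s - t) + K * (s ^ 2 - t ^ 2) / 2) : ℂ) * g s‖ ≤
      Real.exp ((s - t) * (α + K * t) / 2) * c ∧ (s - t) * (α + K * t) ≤ 0 := by
  obtain ⟨a, rfl⟩ : ∃ a, α = -(K * a) := ⟨-α / K, by field_simp⟩
  rw [neg_neg, mul_div_cancel_left₀ _ hK.ne'] at hs
  have h : (s - t) * (s - a) ≤ 0 ∧ (s - t) * (t - a) ≤ 0 := by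
    rcases Set.mem_uIoc.1 hs with h | h <;> constructor <;> nlinarith [h.1, h.2]
  refine ⟨?_, by nlinarith [h.2]⟩
  rw [norm_mul, Complex.norm_real, Real.norm_of_nonneg (Real.exp_pos _).le]
  exact mul_le_mul (Real.exp_le_exp.2 (by nlinarith [h.1])) (hc s) (norm_nonneg _)
    (Real.exp_pos _).le

theorem J_hasDerivAt (K α : ℝ) {g : ℝ → ℂ} (hg : Continuous g) (t : ℝ) :
    HasDerivAt (J K α g) (g t - ((α + K * t : ℝ) : ℂ) * J K α g t) t := by
  have h1 : HasDerivAt (fun t : ℝ => Real.exp (-(α * t + K * t ^ 2 / 2)))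
      (Real.exp (-(α * t + K * t ^ 2 / 2)) * -(α + K * t)) t := by
    refine HasDerivAt.exp (HasDerivAt.neg ?_)
    refine (((hasDerivAt_id' t).const_mul α).add
      (((hasDerivAt_pow 2 t).const_mul K).div_const 2)).congr_deriv ?_
    simp; ring
  have h2 := (show Continuous fun s : ℝ => (Real.exp (α * s + K * s ^ 2 / 2) : ℂ) * g s by
    fun_prop).integral_hasStrictDerivAt (-α / K) t
  rw [funext (JOp_eq K α g)]
  refine (h1.ofReal_comp.mul h2.hasDerivAt).congr_deriv ?_
  rw [← mul_assoc (Real.exp _ : ℂ), ← Complex.ofReal_mul, ← Real.exp_add, neg_add_cancel,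
    Real.exp_zero]
  push_cast
  ring

theorem J_mul_le {K : ℝ} (hK : 0 < K) (α : ℝ) {g : ℝ → ℂ} (hg : Continuous g) {c : ℝ}
    (hc : ∀ s, ‖g s‖ ≤ c) (t : ℝ) : |α + K * t| * ‖J K α g t‖ ≤ 2 * c := by
  have hc0 := (norm_nonneg _).trans (hc 0)
  have h1 := intervalIntegral.norm_integral_le_abs_of_norm_le (μ := volume)
    (ae_restrict_of_forall_mem measurableSet_uIoc fun s hs => (JOp_le hK α hc (t := t) hs).1)
    (Continuous.intervalIntegrable (by fun_prop) _ _)
  refine (mul_le_mul_of_nonneg_left h1 (abs_nonneg _)).trans ?_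
  rw [← abs_mul, ← intervalIntegral.integral_const_mul,
    intervalIntegral.integral_eq_sub_of_hasDerivAt
      (f := fun s => 2 * c * Real.exp ((s - t) * (α + K * t) / 2)) (fun s _ => by
        refine (((((hasDerivAt_id' s).sub_const t).mul_const (α + K * t)).div_const 2).exp.const_mul
          (2 * c)).congr_deriv ?_
        ring) (Continuous.intervalIntegrable (by fun_prop) _ _)]
  have h2 : Real.exp ((-α / K - t) * (α + K * t) / 2) ≤ 1 := Real.exp_le_one_iff.2 (by
    rw [show (-α / K - t) * (α + K * t) / 2 = -((α + K * t) ^ 2 / (2 * K)) by field_simp; ring,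
      neg_nonpos]
    positivity)
  have h3 := Real.exp_pos ((-α / K - t) * (α + K * t) / 2)
  rw [sub_self, zero_mul, zero_div, Real.exp_zero, abs_le]
  constructor <;> nlinarith

theorem J_norm_le {K : ℝ} (hK : 0 < K) (α : ℝ) {g : ℝ → ℂ} (hg : Continuous g) {c : ℝ}
    (hc : ∀ s, ‖g s‖ ≤ c) (t : ℝ) : ‖J K α g t‖ ≤ 2 * c / Real.sqrt K := by
  have hc0 := (norm_nonneg _).trans (hc 0)
  have hs := Real.sqrt_pos.2 hK
  rw [le_div_iff₀' hs]
  rcases le_total √K |α + K * t| with h | h
  · exact (mul_le_mul_of_nonneg_right h (norm_nonneg _)).trans (J_mul_le hK α hg hc t)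
  have h1 : ‖J K α g t‖ ≤ c * |t - -α / K| :=
    intervalIntegral.norm_integral_le_of_norm_le_const fun s hs =>
      (JOp_le hK α hc hs).1.trans (mul_le_of_le_one_left hc0 (Real.exp_le_one_iff.2 (by
        linarith [(JOp_le hK α hc hs).2])))
  rw [show t - -α / K = (α + K * t) / K by field_simp; ring, abs_div, abs_of_pos hK] at h1
  calc √K * ‖J K α g t‖ ≤ √K * (c * (√K / K)) := by
        refine mul_le_mul_of_nonneg_left (h1.trans ?_) hs.le
        gcongr
    _ = c := by
        rw [mul_left_comm, ← mul_div_assoc, Real.mul_self_sqrt hK.le, div_self hK.ne', mul_one]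
    _ ≤ 2 * c := by linarith

theorem J_sub (K α : ℝ) {g g' : ℝ → ℂ} (hg : Continuous g) (hg' : Continuous g') (t : ℝ) :
    J K α (fun s => g s - g' s) t = J K α g t - J K α g' t := by
  simp only [J, mul_sub (_ : ℂ)]
  exact intervalIntegral.integral_sub (Continuous.intervalIntegrable (by fun_prop) _ _)
    (Continuous.intervalIntegrable (by fun_prop) _ _)

theorem J_cts (K : ℝ) {α : ℝ × ℝ → ℝ} (hα : Continuous α) {g : Sym} (hg : Cts g) :
    Cts fun t ξ => J K (α ξ) (fun s => g s ξ) t := by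
  have hf : Continuous (Function.uncurry fun (p : ℝ × (ℝ × ℝ)) (s : ℝ) =>
      (Real.exp (α p.2 * (s - p.1) + K * (s ^ 2 - p.1 ^ 2) / 2) : ℂ) * g s p.2) :=
    Continuous.mul (by fun_prop) (hg.comp (f := fun q : (ℝ × (ℝ × ℝ)) × ℝ => (q.2, q.1.2))
      (by fun_prop))
  refine ((intervalIntegral.continuous_parametric_intervalIntegral_of_continuous (μ := volume)
    (a₀ := 0) hf continuous_fst).sub
    (intervalIntegral.continuous_parametric_intervalIntegral_of_continuous (μ := volume) (a₀ := 0)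
      hf (s := fun p => -α p.2 / K) (by fun_prop))).congr fun p => ?_
  exact intervalIntegral.integral_interval_sub_left
    ((hf.uncurry_left p).intervalIntegrable _ _) ((hf.uncurry_left p).intervalIntegrable _ _)

end Crest.Agent.R80
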