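import Crest.Agent.R80.Flux
import Crest.Agent.R80.Amp3

/-! Row 80: the key identity for all solutions of the tensor transport system. -/

set_option autoImplicit false
open Filter Topology Matrix

namespace Crest.Agent.R80

namespace DA
variable {O : Type} [CommRing O] [Algebra ℂ O] [TopologicalSpace O] [IsTopologicalRing O]
  [ContinuousSMul ℂ O] (S : DA O)

omit [IsTopologicalRing O] [ContinuousSMul ℂ O] in
theorem key_jf_sum (M₁ M₂ : Mod O) (ψ : Fin 3 → Matrix I4 I4 O) :
    S.jf M₁ M₂ (∑ a, ψ a) = ∑ a, S.jf M₁ M₂ (ψ a) := by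
  simp only [jf, Fin.sum_univ_three, Matrix.add_apply]
  ring

theorem key_of (hfo : S.FO) (hso : S.SO) {M₁ M₂ : Mod O} (hid : S.ID M₁ M₂)
    (hibp : S.IBP M₁ M₂) {θ : Fin 3 → ℂ} (hθ : NNull θ) : S.KEY M₁ M₂ θ := by
  intro ψ hc hP
  obtain ⟨y, hy, hspan, hind⟩ := S.exists_amps hfo hso M₁ hθ
  have h1 : ∀ j, ∃ c : Fin 3 → O, ∀ i, ψ i j = ∑ a, c a * y a i := fun j =>
    hspan (fun i => ψ i j) (hc j)
  choose χ hχ using h1
  have hψ : ψ = ∑ a, Matrix.vecMulVec (y a) (fun j => χ j a) := by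
    ext i j
    simp only [hχ, Matrix.sum_apply, Matrix.vecMulVec_apply, mul_comm]
  have h2 : ∀ a j, S.dd θ (χ j a) = (S.A2 M₂ θ *ᵥ fun j => χ j a) j := by
    intro a j
    have := hind (fun a => S.dd θ (χ j a) - (S.A2 M₂ θ *ᵥ fun j => χ j a) j) (fun i => by
      have h := congrFun (congrFun hP i) j
      simp only [Pop, Matrix.sub_apply, Matrix.map_apply, Matrix.mul_apply, Matrix.transpose_apply,
        Matrix.zero_apply, hχ, map_sum, S.dd_mul, (hy _).2.1, Matrix.mulVec, dotProduct] at h ⊢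
      rw [← h]
      simp only [Fin.sum_univ_three, Fintype.sum_option]
      ring)
    exact sub_eq_zero.1 (congrFun this a)
  rw [hψ, key_jf_sum, map_sum, map_sum]
  exact Finset.sum_eq_zero fun a _ => S.flux_key hfo hso hid hibp hθ _ _ (hy a) (h2 a)

end DA

end Crest.Agent.R80
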