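import Crest.Agent.R80.JOp
import Crest.Agent.R80.Neu
import Crest.Agent.R80.Conv

/-! Row 80: the second-order solver on the symbol side. -/

set_option autoImplicit false
open MeasureTheory Filter Topology Crest.AnalysisR.VecCalc3
open scoped ContDiff RealInnerProductSpace

namespace Crest.Agent.R80

/-- Symbol of (∂_k + τ θ_k) a for θ = b 0 + i b 1, where `a₁` is the t-derivative of `a`. -/
noncomputable def gSym (b : Fin 3 → Fin 3 → ℝ) (τ : ℝ) (k : Fin 3) (a a₁ : Sym) : Sym := fun t ξ =>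
  (b 0 k : ℂ) * (a₁ t ξ + τ * a t ξ)
    + Complex.I * (((ξ.1 + τ) * b 1 k + ξ.2 * b 2 k : ℝ) : ℂ) * a t ξ

/-- ρ = √((τ+ξ₁)²+ξ₂²) -/
noncomputable def SOsym_rho (τ : ℝ) (ξ : ℝ × ℝ) : ℝ := Real.sqrt ((τ + ξ.1) ^ 2 + ξ.2 ^ 2)

theorem SOsym_rho_cont (τ : ℝ) : Continuous (SOsym_rho τ) := by
  unfold SOsym_rho; fun_prop

theorem SOsym_rho_nonneg (τ : ℝ) (ξ : ℝ × ℝ) : 0 ≤ SOsym_rho τ ξ := Real.sqrt_nonneg _

theorem SOsym_rho_sq (τ : ℝ) (ξ : ℝ × ℝ) : SOsym_rho τ ξ ^ 2 = (τ + ξ.1) ^ 2 + ξ.2 ^ 2 :=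
  Real.sq_sqrt (by positivity)

theorem SOsym_le_rho1 (τ : ℝ) (ξ : ℝ × ℝ) : |ξ.1 + τ| ≤ SOsym_rho τ ξ :=
  Real.abs_le_sqrt (by nlinarith [sq_nonneg ξ.2])

theorem SOsym_le_rho2 (τ : ℝ) (ξ : ℝ × ℝ) : |ξ.2| ≤ SOsym_rho τ ξ :=
  Real.abs_le_sqrt (by nlinarith [sq_nonneg (τ + ξ.1)])

theorem SOsym_rho_le {τ : ℝ} (hτ : 1 ≤ τ) (ξ : ℝ × ℝ) : SOsym_rho τ ξ ≤ 2 * τ * (1 + ‖ξ‖) := by
  have h1 : |ξ.1| ≤ ‖ξ‖ := norm_fst_le ξ
  have h2 : |ξ.2| ≤ ‖ξ‖ := norm_snd_le ξ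
  have h0 := norm_nonneg ξ
  have h3 : SOsym_rho τ ξ ≤ τ + 2 * ‖ξ‖ := by
    refine Real.sqrt_le_iff.2 ⟨by positivity, ?_⟩
    have a1 := abs_le.1 h1
    have a2 := abs_le.1 h2
    nlinarith
  nlinarith

/-- first solution operator -/
noncomputable def SOsym_V (K τ : ℝ) (g : Sym) : Sym := fun t ξ =>
  J K (τ - SOsym_rho τ ξ) (fun s => g s ξ) t

/-- second solution operator -/
noncomputable def SOsym_W (K τ : ℝ) (g : Sym) : Sym := fun t ξ =>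
  J K (τ + SOsym_rho τ ξ) (fun s => SOsym_V K τ g s ξ) t

/-- coefficient of `V` -/
noncomputable def SOsym_p (b : Fin 3 → Fin 3 → ℝ) : Option (Fin 3) → ℂ
  | some k => (b 0 k : ℂ)
  | none => 0

/-- coefficient of `W` -/
noncomputable def SOsym_m (b : Fin 3 → Fin 3 → ℝ) : Option (Fin 3) → ℝ → ℝ × ℝ → ℂ
  | some k => fun τ ξ => -((b 0 k * SOsym_rho τ ξ : ℝ) : ℂ)
      + Complex.I * (((ξ.1 + τ) * b 1 k + ξ.2 * b 2 k : ℝ) : ℂ)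
  | none => fun _ _ => 1

/-- the operators of the Neumann series -/
noncomputable def SOsym_T (b : Fin 3 → Fin 3 → ℝ) (K τ : ℝ) (o : Option (Fin 3)) (g : Sym) : Sym :=
  fun t ξ => SOsym_p b o * SOsym_V K τ g t ξ + SOsym_m b o τ ξ * SOsym_W K τ g t ξ

theorem SOsym_cts_t {g : Sym} (hg : Cts g) (ξ : ℝ × ℝ) : Continuous fun s => g s ξ :=
  hg.comp (f := fun s : ℝ => (s, ξ)) (by fun_prop)

theorem SOsym_V_cts (K τ : ℝ) {g : Sym} (hg : Cts g) : Cts (SOsym_V K τ g) :=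
  J_cts K (α := fun ξ => τ - SOsym_rho τ ξ) (continuous_const.sub (SOsym_rho_cont τ)) hg

theorem SOsym_W_cts (K τ : ℝ) {g : Sym} (hg : Cts g) : Cts (SOsym_W K τ g) :=
  J_cts K (α := fun ξ => τ + SOsym_rho τ ξ) (continuous_const.add (SOsym_rho_cont τ))
    (SOsym_V_cts K τ hg)

theorem SOsym_m_cont (b : Fin 3 → Fin 3 → ℝ) (o : Option (Fin 3)) (τ : ℝ) :
    Continuous (SOsym_m b o τ) := by
  have := SOsym_rho_cont τ
  cases o with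
  | none => exact continuous_const
  | some k => simp only [SOsym_m]; fun_prop

theorem SOsym_p_le {b : Fin 3 → Fin 3 → ℝ} (hb : ∀ k i, |b k i| ≤ 1) (o : Option (Fin 3)) :
    ‖SOsym_p b o‖ ≤ 1 := by
  cases o with
  | none => simp [SOsym_p]
  | some k => simpa [SOsym_p] using hb 0 k

theorem SOsym_m_le {b : Fin 3 → Fin 3 → ℝ} (hb : ∀ k i, |b k i| ≤ 1) (o : Option (Fin 3)) (τ : ℝ)
    (ξ : ℝ × ℝ) : ‖SOsym_m b o τ ξ‖ ≤ 3 * (SOsym_rho τ ξ + 1) := by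
  have h0 := SOsym_rho_nonneg τ ξ
  cases o with
  | none => simp only [SOsym_m, norm_one]; linarith
  | some k =>
    simp only [SOsym_m]
    refine (norm_add_le _ _).trans ?_
    rw [norm_neg, norm_mul, Complex.norm_I, one_mul, Complex.norm_real, Complex.norm_real,
      Real.norm_eq_abs, Real.norm_eq_abs, abs_mul, abs_of_nonneg h0]
    have h1 : |b 0 k| * SOsym_rho τ ξ ≤ SOsym_rho τ ξ := mul_le_of_le_one_left h0 (hb 0 k)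
    have h2 : |(ξ.1 + τ) * b 1 k| ≤ SOsym_rho τ ξ := by
      rw [abs_mul]
      exact (mul_le_of_le_one_right (abs_nonneg _) (hb 1 k)).trans (SOsym_le_rho1 τ ξ)
    have h3 : |ξ.2 * b 2 k| ≤ SOsym_rho τ ξ := by
      rw [abs_mul]
      exact (mul_le_of_le_one_right (abs_nonneg _) (hb 2 k)).trans (SOsym_le_rho2 τ ξ)
    linarith [abs_add_le ((ξ.1 + τ) * b 1 k) (ξ.2 * b 2 k)]

theorem SOsym_T_cts (b : Fin 3 → Fin 3 → ℝ) (K τ : ℝ) (o : Option (Fin 3)) {g : Sym} (hg : Cts g) :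
    Cts (SOsym_T b K τ o g) :=
  (continuous_const.mul (SOsym_V_cts K τ hg)).add
    (((SOsym_m_cont b o τ).comp continuous_snd).mul (SOsym_W_cts K τ hg))

theorem SOsym_V_sub (K τ : ℝ) {g g' : Sym} (hg : Cts g) (hg' : Cts g') (t : ℝ) (ξ : ℝ × ℝ) :
    SOsym_V K τ (fun t ξ => g t ξ - g' t ξ) t ξ = SOsym_V K τ g t ξ - SOsym_V K τ g' t ξ :=
  J_sub K _ (SOsym_cts_t hg ξ) (SOsym_cts_t hg' ξ) t

theorem SOsym_W_sub (K τ : ℝ) {g g' : Sym} (hg : Cts g) (hg' : Cts g') (t : ℝ) (ξ : ℝ × ℝ) :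
    SOsym_W K τ (fun t ξ => g t ξ - g' t ξ) t ξ = SOsym_W K τ g t ξ - SOsym_W K τ g' t ξ := by
  unfold SOsym_W
  simp only [SOsym_V_sub K τ hg hg']
  exact J_sub K _ (SOsym_cts_t (SOsym_V_cts K τ hg) ξ) (SOsym_cts_t (SOsym_V_cts K τ hg') ξ) t

theorem SOsym_T_sub (b : Fin 3 → Fin 3 → ℝ) (K τ : ℝ) (o : Option (Fin 3)) {g g' : Sym}
    (hg : Cts g) (hg' : Cts g') (t : ℝ) (ξ : ℝ × ℝ) :
    SOsym_T b K τ o (fun t ξ => g t ξ - g' t ξ) t ξ =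
      SOsym_T b K τ o g t ξ - SOsym_T b K τ o g' t ξ := by
  unfold SOsym_T
  rw [SOsym_V_sub K τ hg hg', SOsym_W_sub K τ hg hg']
  ring

theorem SOsym_V_le {K : ℝ} (hK : 0 < K) (τ : ℝ) {g : Sym} (hg : Cts g) {ξ : ℝ × ℝ} {e : ℝ}
    (he : ∀ t, ‖g t ξ‖ ≤ e) (t : ℝ) : ‖SOsym_V K τ g t ξ‖ ≤ 2 * e / Real.sqrt K :=
  J_norm_le hK _ (SOsym_cts_t hg ξ) he t

theorem SOsym_W_le {K : ℝ} (hK : 0 < K) (τ : ℝ) {g : Sym} (hg : Cts g) {ξ : ℝ × ℝ} {e : ℝ}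
    (he : ∀ t, ‖g t ξ‖ ≤ e) (t : ℝ) :
    ‖SOsym_W K τ g t ξ‖ ≤ 2 * (2 * e / Real.sqrt K) / Real.sqrt K :=
  J_norm_le hK _ (SOsym_cts_t (SOsym_V_cts K τ hg) ξ) (SOsym_V_le hK τ hg he) t

theorem SOsym_T_le {b : Fin 3 → Fin 3 → ℝ} (hb : ∀ k i, |b k i| ≤ 1) {K τ R' : ℝ} (hK : 0 < K)
    (hτ : K * R' + 1 ≤ τ) (o : Option (Fin 3)) {g : Sym} (hg : Cts g) (ξ : ℝ × ℝ) (e : ℝ)
    (he : ∀ t, ‖g t ξ‖ ≤ e) {t : ℝ} (ht : |t| ≤ R') :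
    ‖SOsym_T b K τ o g t ξ‖ ≤ 14 / Real.sqrt K * e := by
  have h1 := SOsym_V_le hK τ hg he t
  have h2 : |τ + SOsym_rho τ ξ + K * t| * ‖SOsym_W K τ g t ξ‖ ≤ 2 * (2 * e / Real.sqrt K) :=
    J_mul_le hK _ (SOsym_cts_t (SOsym_V_cts K τ hg) ξ) (SOsym_V_le hK τ hg he) t
  have h3 : SOsym_rho τ ξ + 1 ≤ |τ + SOsym_rho τ ξ + K * t| := by
    refine le_trans ?_ (le_abs_self _)
    have := mul_le_mul_of_nonneg_left (abs_le.1 ht).1 hK.le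
    linarith
  have h4 := (mul_le_mul_of_nonneg_right h3 (norm_nonneg (SOsym_W K τ g t ξ))).trans h2
  have h5 : ‖SOsym_p b o * SOsym_V K τ g t ξ‖ ≤ 2 * e / Real.sqrt K := by
    rw [norm_mul]
    exact (mul_le_of_le_one_left (norm_nonneg _) (SOsym_p_le hb o)).trans h1
  have h6 : ‖SOsym_m b o τ ξ * SOsym_W K τ g t ξ‖ ≤
      3 * ((SOsym_rho τ ξ + 1) * ‖SOsym_W K τ g t ξ‖) := by
    rw [norm_mul, ← mul_assoc]
    exact mul_le_mul_of_nonneg_right (SOsym_m_le hb o τ ξ) (norm_nonneg _)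
  have h7 : 14 / Real.sqrt K * e = 7 * (2 * e / Real.sqrt K) := by ring
  unfold SOsym_T
  refine (norm_add_le _ _).trans ?_
  linarith

theorem SOsym_rap {T : Set ℝ} {g F : ℝ → Sym} (Cs : ℕ → ℝ) (c : ℝ)
    (hg : ∀ τ ∈ T, ∀ (s : ℕ) t ξ, (1 + ‖ξ‖) ^ s * ‖g τ t ξ‖ ≤ Cs s) (hF : ∀ τ ∈ T, Cts (F τ))
    (h : ∀ τ ∈ T, ∀ ξ (e : ℝ), (∀ t, ‖g τ t ξ‖ ≤ e) → ∀ t, ‖F τ t ξ‖ ≤ c * e) : Rap T 0 F := by
  refine ⟨hF, fun s R => ⟨c * Cs s, fun τ hτ t ξ _ => ?_⟩⟩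
  have h0 : 0 < (1 + ‖ξ‖) ^ s := by positivity
  have h1 := h τ hτ ξ (Cs s / (1 + ‖ξ‖) ^ s)
    (fun t => by rw [le_div_iff₀ h0, mul_comm]; exact hg τ hτ s t ξ) t
  rw [pow_zero, mul_one]
  refine (mul_le_mul_of_nonneg_left h1 h0.le).trans_eq ?_
  field_simp

theorem SOsym_V_deriv (K τ : ℝ) {g : Sym} (hg : Cts g) (t : ℝ) (ξ : ℝ × ℝ) :
    HasDerivAt (fun r => SOsym_V K τ g r ξ)
      (g t ξ - ((τ - SOsym_rho τ ξ + K * t : ℝ) : ℂ) * SOsym_V K τ g t ξ) t :=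
  J_hasDerivAt K _ (SOsym_cts_t hg ξ) t

theorem SOsym_W_deriv (K τ : ℝ) {g : Sym} (hg : Cts g) (t : ℝ) (ξ : ℝ × ℝ) :
    HasDerivAt (fun r => SOsym_W K τ g r ξ)
      (SOsym_V K τ g t ξ - ((τ + SOsym_rho τ ξ + K * t : ℝ) : ℂ) * SOsym_W K τ g t ξ) t :=
  J_hasDerivAt K _ (SOsym_cts_t (SOsym_V_cts K τ hg) ξ) t

/-- one step of the regularity bootstrap -/
theorem SOsym_step {T : Set ℝ} (hT : ∀ τ ∈ T, 1 ≤ τ) {K : ℝ} (hK : 0 < K) {g : ℝ → Sym}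
    (Cs : ℕ → ℝ) (hc : ∀ τ ∈ T, Cts (g τ))
    (hg : ∀ τ ∈ T, ∀ (s : ℕ) t ξ, (1 + ‖ξ‖) ^ s * ‖g τ t ξ‖ ≤ Cs s) {n : ℕ} (h : Tw T n 1 g) :
    Tw T (n + 1) 0 (fun τ => SOsym_V K τ (g τ)) ∧ Tw T (n + 1) 0 (fun τ => SOsym_W K τ (g τ)) := by
  have rV : Rap T 0 fun τ => SOsym_V K τ (g τ) :=
    SOsym_rap Cs (2 / Real.sqrt K) hg (fun τ hτ => SOsym_V_cts K τ (hc τ hτ))
      fun τ hτ ξ e he t => (SOsym_V_le hK τ (hc τ hτ) he t).trans_eq (by ring)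
  have rW : Rap T 0 fun τ => SOsym_W K τ (g τ) :=
    SOsym_rap Cs (2 * (2 / Real.sqrt K) / Real.sqrt K) hg (fun τ hτ => SOsym_W_cts K τ (hc τ hτ))
      fun τ hτ ξ e he t => (SOsym_W_le hK τ (hc τ hτ) he t).trans_eq (by ring)
  have hb : ∀ τ ∈ T, ∀ ξ : ℝ × ℝ, τ + SOsym_rho τ ξ ≤ 3 * τ * (1 + ‖ξ‖) := by
    intro τ hτ ξ
    have h1 := SOsym_rho_le (hT τ hτ) ξ
    have h2 := hT τ hτ
    have h3 := norm_nonneg ξ
    nlinarith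
  have hV : Tw T (n + 1) 0 fun τ => SOsym_V K τ (g τ) := by
    refine Tw.ode hT (fun τ ξ => τ - SOsym_rho τ ξ)
      (fun τ _ => continuous_const.sub (SOsym_rho_cont τ)) 3 K (fun τ hτ ξ => ?_) rV
      (fun τ hτ t ξ => SOsym_V_deriv K τ (hc τ hτ) t ξ) h
    have h1 := hb τ hτ ξ
    have h2 := hT τ hτ
    have h3 := SOsym_rho_nonneg τ ξ
    rw [abs_le]; constructor <;> linarith
  refine ⟨hV, ?_⟩
  refine Tw.ode hT (fun τ ξ => τ + SOsym_rho τ ξ)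
    (fun τ _ => continuous_const.add (SOsym_rho_cont τ)) 3 K (fun τ hτ ξ => ?_) rW
    (fun τ hτ t ξ => SOsym_W_deriv K τ (hc τ hτ) t ξ)
    ((hV.of_le (Nat.le_succ n)).mono hT (Nat.zero_le _))
  have h1 := hb τ hτ ξ
  have h2 := hT τ hτ
  have h3 := SOsym_rho_nonneg τ ξ
  rw [abs_le]; constructor <;> linarith

theorem SOsym_T_tw {T : Set ℝ} (hT : ∀ τ ∈ T, 1 ≤ τ) {b : Fin 3 → Fin 3 → ℝ}
    (hb : ∀ k i, |b k i| ≤ 1) {K : ℝ} {g : ℝ → Sym} {n : ℕ}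
    (hV : Tw T n 0 (fun τ => SOsym_V K τ (g τ))) (hW : Tw T n 0 (fun τ => SOsym_W K τ (g τ)))
    (o : Option (Fin 3)) : Tw T n 1 fun τ => SOsym_T b K τ o (g τ) := by
  have h1 : Tw T n 1 fun τ t ξ => SOsym_p b o * SOsym_V K τ (g τ) t ξ :=
    (hV.const_mul _).mono hT (Nat.zero_le _)
  have h2 : Tw T n (0 + 1) fun τ t ξ => SOsym_m b o τ ξ * SOsym_W K τ (g τ) t ξ := by
    refine hW.mul_xi (SOsym_m b o) (fun τ _ => SOsym_m_cont b o τ) 1 9 fun τ hτ ξ => ?_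
    have a1 := SOsym_m_le hb o τ ξ
    have a2 := SOsym_rho_le (hT τ hτ) ξ
    have a3 := hT τ hτ
    have a4 := norm_nonneg ξ
    rw [pow_one, pow_one]
    nlinarith
  exact h1.add h2

/-- E t = exp (K t² / 2) -/
noncomputable def SOsym_E (K t : ℝ) : ℂ := Complex.exp ((K * t ^ 2 / 2 : ℝ) : ℂ)

theorem SOsym_E_contDiff (K : ℝ) : ContDiff ℝ ∞ (SOsym_E K) := by
  unfold SOsym_E
  have h : ContDiff ℝ ∞ fun t : ℝ => K * t ^ 2 / 2 := by fun_prop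
  exact Complex.contDiff_exp.comp (Complex.ofRealCLM.contDiff.comp h)

theorem SOsym_E_deriv (K t : ℝ) : HasDerivAt (SOsym_E K) (((K * t : ℝ) : ℂ) * SOsym_E K t) t := by
  have h1 : HasDerivAt (fun t : ℝ => K * t ^ 2 / 2) (K * t) t := by
    refine (((hasDerivAt_pow 2 t).const_mul K).div_const 2).congr_deriv ?_
    simp; ring
  have h2 := h1.ofReal_comp.cexp
  rw [mul_comm] at h2
  exact h2

theorem SOsym_E_mul (K t : ℝ) : SOsym_E K t * SOsym_E (-K) t = 1 := by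
  unfold SOsym_E
  rw [← Complex.exp_add, ← Complex.ofReal_add,
    show K * t ^ 2 / 2 + -K * t ^ 2 / 2 = 0 by ring, Complex.ofReal_zero, Complex.exp_zero]

theorem SOsym_chi (R : ℝ) : ∃ χ : ℝ → ℂ, ContDiff ℝ ∞ χ ∧ (∀ t, |t| ≤ R → χ t = 1) ∧
    ∀ t, |R| + 2 < |t| → χ t = 0 := by
  let f : ContDiffBump (0 : ℝ) := ⟨|R| + 1, |R| + 2, by positivity, by linarith⟩
  refine ⟨fun t => (f t : ℂ), Complex.ofRealCLM.contDiff.comp f.contDiff, fun t ht => ?_,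
    fun t ht => ?_⟩
  · simp only
    rw [f.one_of_mem_closedBall, Complex.ofReal_one]
    rw [mem_closedBall_zero_iff, Real.norm_eq_abs]
    change |t| ≤ |R| + 1
    linarith [le_abs_self R]
  · simp only
    rw [f.zero_of_le_dist, Complex.ofReal_zero]
    rw [dist_zero_right, Real.norm_eq_abs]
    exact ht.le

theorem SOsym_unif {σ : Type} [Finite σ] {P : σ → ℝ → Prop} (hP : ∀ i x y, x ≤ y → P i x → P i y)
    (h : ∀ i, ∃ C, P i C) : ∃ C, 0 < C ∧ ∀ i, P i C := by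
  choose C hC using h
  obtain ⟨D, hD⟩ := (Set.finite_range C).bddAbove
  exact ⟨max D 1, lt_max_of_lt_right one_pos,
    fun i => hP i _ _ ((hD ⟨i, rfl⟩).trans (le_max_left _ _)) (hC i)⟩

theorem soSym (ι : Type) [Fintype ι] (b : Fin 3 → Fin 3 → ℝ) (hb : ∀ k i, |b k i| ≤ 1) (R : ℝ)
    (β : Fin 3 → ι → ι → Sym) (γ : ι → ι → Sym) (hβ : ∀ k i j, Nice (β k i j))
    (hγ : ∀ i j, Nice (γ i j)) :
    ∃ τ₀ : ℝ, 1 ≤ τ₀ ∧ ∀ φ : ι → Sym, (∀ i, Nice (φ i)) →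
      ∃ a a₁ a₂ : ι → ℝ → Sym, (∀ i n, Tw (Set.Ici τ₀) n 0 (a i)) ∧
        (∀ i, ∀ τ ∈ Set.Ici τ₀, ∀ t ξ, HasDerivAt (fun r => a i τ r ξ) (a₁ i τ t ξ) t ∧
          HasDerivAt (fun r => a₁ i τ r ξ) (a₂ i τ t ξ) t) ∧
        ∀ i, ∀ τ ∈ Set.Ici τ₀, ∀ t ξ, |t| ≤ R →
          a₂ i τ t ξ + 2 * τ * a₁ i τ t ξ
            - ((ξ.1 ^ 2 + ξ.2 ^ 2 + 2 * τ * ξ.1 : ℝ) : ℂ) * a i τ t ξ
            + ∑ k, ∑ j, conv (β k i j) (gSym b τ k (a j τ) (a₁ j τ)) t ξ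
            + ∑ j, conv (γ i j) (a j τ) t ξ = φ i t ξ := by
  classical
  obtain ⟨χ, hχ, hχ1, hχ0⟩ := SOsym_chi R
  set R' := |R| + 2 with hR'
  let β₀ : Option (Fin 3) → ι → ι → Sym := fun o => match o with
    | some k => β k
    | none => γ
  have hβ₀ : ∀ o i j, Nice (β₀ o i j) := fun o => match o with
    | some k => hβ k
    | none => hγ
  let B : Option (Fin 3) → ι → ι → Sym := fun o i j t η => χ t * β₀ o i j t η
  have hBr : ∀ o i j (s : ℕ), ∃ C : ℝ, ∀ t η, (1 + ‖η‖) ^ s * ‖B o i j t η‖ ≤ C :=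
    fun o i j s => (hβ₀ o i j).cut hχ.continuous hχ0 s
  obtain ⟨M, hM, hBM⟩ := SOsym_unif (σ := Option (Fin 3) × ι × ι)
    (P := fun x C => ∀ t η, (1 + ‖η‖) ^ 6 * ‖B x.1 x.2.1 x.2.2 t η‖ ≤ C)
    (fun x a b hab h t η => (h t η).trans hab) fun x => hBr x.1 x.2.1 x.2.2 6
  set D : ℝ := 4 * c3 * 14 * M * Fintype.card (Option (Fin 3)) * Fintype.card ι with hD
  have hD0 : 0 ≤ D := by have := c3_nonneg; positivity
  set K : ℝ := (D + 1) ^ 2 with hKdef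
  have hK : 0 < K := by positivity
  have hsq : Real.sqrt K = D + 1 := Real.sqrt_sq (by linarith)
  have hsmall : 4 * c3 * (14 / Real.sqrt K) * M * Fintype.card (Option (Fin 3)) * Fintype.card ι
      ≤ 1 := by
    have : 4 * c3 * (14 / Real.sqrt K) * M * Fintype.card (Option (Fin 3)) * Fintype.card ι
      = D / (D + 1) := by rw [hsq, hD]; ring
    rw [this, div_le_one (by linarith)]
    linarith
  have hτ₀ : 1 ≤ K * R' + 1 := by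
    have : 0 ≤ K * R' := by positivity
    linarith
  refine ⟨K * R' + 1, hτ₀, fun φ hφ => ?_⟩
  set T : Set ℝ := Set.Ici (K * R' + 1) with hTdef
  have hT : ∀ τ ∈ T, 1 ≤ τ := fun τ hτ => hτ₀.trans hτ
  have hmem : K * R' + 1 ∈ T := Set.self_mem_Ici
  have hBtw : ∀ o i j n, Tw T n 0 fun _ => B o i j := fun o i j n =>
    ((hβ₀ o i j).tw hT n).mul_t hT χ hχ
  let χ' : ℝ → ℂ := fun t => χ t * SOsym_E (-K) t
  have hχ' : ContDiff ℝ ∞ χ' := hχ.mul (SOsym_E_contDiff _)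
  let φ' : ι → Sym := fun i t ξ => χ' t * φ i t ξ
  have hφtw : ∀ i n, Tw T n 0 fun _ => φ' i := fun i n => ((hφ i).tw hT n).mul_t hT χ' hχ'
  have hφr : ∀ i (s : ℕ), ∃ C : ℝ, ∀ t ξ, (1 + ‖ξ‖) ^ s * ‖φ' i t ξ‖ ≤ C := fun i s =>
    (hφ i).cut hχ'.continuous (R := R') (fun t ht => by simp only [χ', hχ0 t ht, zero_mul]) s
  obtain ⟨c, -, hc⟩ := SOsym_unif (σ := ι)
    (P := fun i C => ∀ t ξ, (1 + ‖ξ‖) ^ 3 * ‖φ' i t ξ‖ ≤ C)
    (fun x a b hab h t η => (h t η).trans hab) fun i => hφr i 3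
  obtain ⟨Cs, hCs⟩ := neu {t | |t| ≤ R'} B φ' M c (14 / Real.sqrt K) hM (by positivity) hsmall
    (fun o i j => (hBtw o i j 0).rap.1 _ hmem)
    (fun o i j t ht η => by simp only [B, hχ0 t (not_le.1 ht), zero_mul])
    (fun o i j => hBM (o, i, j)) hBr (fun i => (hφtw i 0).rap.1 _ hmem) hc hφr
  have hex : ∀ τ : ℝ, ∃ g : ι → Sym, τ ∈ T → (∀ i, Cts (g i)) ∧
      (∀ i t ξ, g i t ξ + ∑ o, ∑ j, conv (B o i j) (SOsym_T b K τ o (g j)) t ξ = φ' i t ξ) ∧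
      ∀ (s : ℕ) i t ξ, (1 + ‖ξ‖) ^ s * ‖g i t ξ‖ ≤ Cs s := by
    intro τ
    by_cases hτ : τ ∈ T
    · obtain ⟨g, h1, h2, -, h3⟩ := hCs (SOsym_T b K τ) (fun o g hg => SOsym_T_cts b K τ o hg)
        (fun o g g' hg hg' => SOsym_T_sub b K τ o hg hg')
        (fun o g hg ξ e he t ht => SOsym_T_le hb hK hτ o hg ξ e he ht)
      exact ⟨g, fun _ => ⟨h1, h2, h3⟩⟩
    · exact ⟨fun _ _ _ => 0, fun h => absurd h hτ⟩
  choose g hg using hex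
  have hgc : ∀ i, ∀ τ ∈ T, Cts (g τ i) := fun i τ hτ => (hg τ hτ).1 i
  have hgb : ∀ i, ∀ τ ∈ T, ∀ (s : ℕ) t ξ, (1 + ‖ξ‖) ^ s * ‖g τ i t ξ‖ ≤ Cs s :=
    fun i τ hτ s => (hg τ hτ).2.2 s i
  have htw : ∀ n i, Tw T n 1 fun τ => g τ i := by
    intro n
    induction n with
    | zero =>
      intro i
      have h0 : Tw T 0 0 fun τ => g τ i :=
        SOsym_rap Cs 1 (hgb i) (hgc i) fun τ _ ξ e he t => by rw [one_mul]; exact he t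
      exact h0.mono hT (Nat.zero_le _)
    | succ n ih =>
      intro i
      have h1 : ∀ o j, Tw T (n + 1) 1 fun τ => conv (B o i j) (SOsym_T b K τ o (g τ j)) := by
        intro o j
        obtain ⟨hV, hW⟩ := SOsym_step hT hK Cs (hgc j) (hgb j) (ih j)
        exact Tw.conv hT (hBtw o i j (n + 1)) (SOsym_T_tw hT hb hV hW o)
      have h2 : Tw T (n + 1) 1 fun τ t ξ =>
          φ' i t ξ - ∑ o, ∑ j, conv (B o i j) (SOsym_T b K τ o (g τ j)) t ξ :=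
        ((hφtw i (n + 1)).mono hT (Nat.zero_le _)).sub
          (Tw.sum Finset.univ fun o _ => Tw.sum Finset.univ fun j _ => h1 o j)
      exact h2.congr fun τ hτ t ξ => by rw [← (hg τ hτ).2.1 i t ξ]; ring
  refine ⟨fun i τ t ξ => SOsym_E K t * SOsym_W K τ (g τ i) t ξ,
    fun i τ t ξ => SOsym_E K t * (SOsym_V K τ (g τ i) t ξ
      - ((τ + SOsym_rho τ ξ : ℝ) : ℂ) * SOsym_W K τ (g τ i) t ξ),
    fun i τ t ξ => SOsym_E K t * (g τ i t ξ - 2 * τ * SOsym_V K τ (g τ i) t ξ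
      + ((τ + SOsym_rho τ ξ : ℝ) : ℂ) ^ 2 * SOsym_W K τ (g τ i) t ξ),
    fun i n => ?_, fun i τ hτ t ξ => ⟨?_, ?_⟩, fun i τ hτ t ξ ht => ?_⟩
  · exact ((SOsym_step hT hK Cs (hgc i) (hgb i) (htw n i)).2.of_le (Nat.le_succ n)).mul_t hT _
      (SOsym_E_contDiff K)
  · refine ((SOsym_E_deriv K t).mul (SOsym_W_deriv K τ (hgc i τ hτ) t ξ)).congr_deriv ?_
    push_cast; ring
  · refine ((SOsym_E_deriv K t).mul ((SOsym_V_deriv K τ (hgc i τ hτ) t ξ).sub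
      ((SOsym_W_deriv K τ (hgc i τ hτ) t ξ).const_mul
        ((τ + SOsym_rho τ ξ : ℝ) : ℂ)))).congr_deriv ?_
    simp only [Pi.sub_apply]
    push_cast; ring
  · have e0 := (hg τ hτ).2.1 i t ξ
    have e1 : ∀ k j, conv (β k i j) (gSym b τ k
        (fun t ξ => SOsym_E K t * SOsym_W K τ (g τ j) t ξ)
        (fun t ξ => SOsym_E K t * (SOsym_V K τ (g τ j) t ξ
          - ((τ + SOsym_rho τ ξ : ℝ) : ℂ) * SOsym_W K τ (g τ j) t ξ))) t ξ =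
        SOsym_E K t * conv (B (some k) i j) (SOsym_T b K τ (some k) (g τ j)) t ξ := by
      intro k j
      unfold conv
      rw [← integral_const_mul]
      refine integral_congr_ae (Eventually.of_forall fun η => ?_)
      simp only [B, β₀, hχ1 t ht, gSym, SOsym_T, SOsym_p, SOsym_m]
      push_cast; ring
    have e2 : ∀ j, conv (γ i j) (fun t ξ => SOsym_E K t * SOsym_W K τ (g τ j) t ξ) t ξ =
        SOsym_E K t * conv (B none i j) (SOsym_T b K τ none (g τ j)) t ξ := by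
      intro j
      unfold conv
      rw [← integral_const_mul]
      refine integral_congr_ae (Eventually.of_forall fun η => ?_)
      simp only [B, β₀, hχ1 t ht, SOsym_T, SOsym_p, SOsym_m]
      ring
    have e3 : ((SOsym_rho τ ξ : ℝ) : ℂ) ^ 2 = (τ + ξ.1) ^ 2 + ξ.2 ^ 2 := by
      exact_mod_cast congrArg (fun x : ℝ => (x : ℂ)) (SOsym_rho_sq τ ξ)
    have e4 : SOsym_E K t * φ' i t ξ = φ i t ξ := by
      simp only [φ', χ', hχ1 t ht, one_mul]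
      rw [← mul_assoc, SOsym_E_mul, one_mul]
    rw [Fintype.sum_option] at e0
    simp only [e1, e2, ← Finset.mul_sum]
    rw [← e4, ← e0]
    push_cast
    linear_combination (SOsym_E K t * SOsym_W K τ (g τ i) t ξ) * e3

end Crest.Agent.R80
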