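import Crest.Agent.R80.Da
import Crest.Agent.R80.SOsym
import Crest.Agent.R80.SynL
import Crest.Agent.R80.Rep
import Crest.Agent.R80.Frame
import Crest.Agent.R80.FOfinAux

/-! Row 80: the second-order solver in `Ob D`. -/

set_option autoImplicit false
open MeasureTheory Filter Topology Crest.AnalysisR.VecCalc3
open scoped ContDiff RealInnerProductSpace

namespace Crest.Agent.R80

theorem SOfin_small {C ε : ℝ} (hε : 0 < ε) {m N : ℕ} (hm : m + 1 ≤ N) :
    ∀ᶠ τ : ℝ in atTop, ‖((τ : ℂ) ^ N)⁻¹‖ * (C * τ ^ (0 + m)) ≤ ε := by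
  filter_upwards [eventually_ge_atTop 1, eventually_ge_atTop (|C| / ε)] with τ h1 h2
  have h0 : 0 < τ := by linarith
  rw [norm_inv, norm_pow, Complex.norm_real, Real.norm_of_nonneg h0.le, zero_add,
    inv_mul_le_iff₀ (by positivity)]
  rw [div_le_iff₀ hε] at h2
  calc C * τ ^ m ≤ τ * ε * τ ^ m :=
        mul_le_mul_of_nonneg_right ((le_abs_self C).trans h2) (by positivity)
    _ = τ ^ (m + 1) * ε := by ring
    _ ≤ τ ^ N * ε := mul_le_mul_of_nonneg_right (pow_le_pow_right₀ h1 hm) hε.le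

open FOfin in
theorem Dom.so (D : Dom) : D.da.SO := by
  intro ι _ _ A V θ hθ W hW
  obtain ⟨R, hR0, hR⟩ := exists_radius D
  obtain ⟨b, hb⟩ := hθ.exists_frame
  rw [nhds_pi, mem_pi] at hW
  obtain ⟨s, -, w, hw, hsw⟩ := hW
  choose n ε hε hn using fun i => Ob.nhds_zero_basis (hw i)
  choose β hβ _ using fun k i j => exists_rp b (le_refl (Ob.nu D (A k i j)))
  choose γ hγ _ using fun i j => exists_rp b (le_refl (Ob.nu D (V i j)))
  obtain ⟨τ₀, hτ₀, hsol⟩ := soSym ι (fun k i => b k i)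
    (fun k i => by
      have h1 := PiLp.norm_apply_le (b k) i
      rwa [b.orthonormal.1 k] at h1)
    R β γ (fun k i j => (hβ k i j).1) fun i j => (hγ i j).1
  refine ⟨Finset.univ.sup n + 1, fun f => ?_⟩
  choose φ hφ _ using fun i => exists_rp b (le_refl (Ob.nu D (f i)))
  obtain ⟨a, a₁, a₂, ha, hd, he⟩ := hsol φ fun i => (hφ i).1
  have hT : ∀ τ ∈ Set.Ici τ₀, 1 ≤ τ := fun τ hτ => hτ₀.trans hτ
  choose C hC using fun i α => pdl_syn_bound b hT (ha i) α R
  have hev : ∀ᶠ τ : ℝ in atTop, ∀ i, ∀ α ∈ {α : List (Fin 3) | α.length ≤ n i},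
      ‖((τ : ℂ) ^ (Finset.univ.sup n + 1))⁻¹‖ * (C i α * τ ^ (0 + α.length)) ≤ ε i := by
    rw [eventually_all]
    intro i
    rw [eventually_all_finite (List.finite_length_le _ _)]
    intro α hα
    exact SOfin_small (hε i)
      (Nat.succ_le_succ (le_trans hα (Finset.le_sup (f := n) (Finset.mem_univ i))))
  filter_upwards [hev, eventually_ge_atTop τ₀] with τ hτ hτ'
  have hN : ∀ i, Nice (a i τ) := fun i => nice_of_tw (T := Set.Ici τ₀) hτ' (ha i)
  have h₁ := fun i t ξ => (hd i τ hτ' t ξ).1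
  have h₂ := fun i t ξ => (hd i τ hτ' t ξ).2
  refine ⟨fun i => Ob.mk D _ (contDiff_syn b (hN i)), funext fun i => ?_, hsw fun i _ => ?_⟩
  · have hg : ∀ k j, Rp b (D.da.d k (Ob.mk D _ (contDiff_syn b (hN j))) +
        (((τ : ℂ) • θ) k) • Ob.mk D _ (contDiff_syn b (hN j)))
        (gSym (fun k i => b k i) τ k (a j τ) (a₁ j τ)) := fun k j =>
      (((rp_mk (hN j)).d (h₁ j) k).add ((rp_mk (hN j)).smul _)).congr fun t ξ => by
        simp only [dSym, gSym, Pi.smul_apply, smul_eq_mul, hb]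
        push_cast
        ring
    unfold DA.opL
    rw [DA.dd_smul]
    refine (((((rp_mk (hN i)).lap (h₁ i) (h₂ i)).add
      (((rp_mk (hN i)).dd hb (h₁ i)).smul τ).two_mul).add
      (Rp.sum Finset.univ fun k _ => Rp.sum Finset.univ fun j _ => (hβ k i j).mul (hg k j))).add
      (Rp.sum Finset.univ fun j _ => (hγ i j).mul (rp_mk (hN j)))).eq (hφ i) (hR b)
      fun t ξ ht => ?_
    rw [← he i τ hτ' t ξ ht]
    push_cast
    ring
  · refine hn i _ fun α hα => ?_
    rw [Pi.smul_apply, Ob.dl_smul, Ob.dl_mk]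
    refine Ob.sup_le _ (hε i).le fun x => le_trans ?_ (hτ i α hα)
    rw [Ob.val_smul, Ob.val_mk, norm_mul]
    exact mul_le_mul_of_nonneg_left (hC i α τ hτ' x (hR0 x)) (norm_nonneg _)

end Crest.Agent.R80
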