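import Crest.Agent.R80.Half
import Crest.Prelude.Def_VecCalc3
import Crest.Prelude.Def_PlanarDomain

/-! Row 80: smooth extension from the closure of a smooth domain. -/

set_option autoImplicit false
open MeasureTheory Filter Topology Crest.AnalysisR.VecCalc3
open scoped ContDiff RealInnerProductSpace

namespace Crest.Agent.R80

section
variable {E : Type*} [NormedAddCommGroup E] [NormedSpace ℝ E]

theorem seeley_exists_v {L : E →L[ℝ] ℝ} (hL : L ≠ 0) : ∃ v, L v = 1 := by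
  obtain ⟨w, hw⟩ : ∃ w, L w ≠ 0 := by
    by_contra h
    push Not at h
    exact hL (ContinuousLinearMap.ext h)
  exact ⟨(L w)⁻¹ • w, by rw [map_smul, smul_eq_mul, inv_mul_cancel₀ hw]⟩

theorem seeley_closure {ρ : E → ℝ} (hρ : ContDiff ℝ ∞ ρ) (hd : ∀ x, ρ x = 0 → fderiv ℝ ρ x ≠ 0) :
    closure {x | ρ x < 0} = {x | ρ x ≤ 0} := by
  refine Set.Subset.antisymm (closure_minimal (fun x (hx : ρ x < 0) => hx.le)
    (isClosed_le hρ.continuous continuous_const)) fun x hx => ?_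
  rcases lt_or_eq_of_le (show ρ x ≤ 0 from hx) with h | h
  · exact subset_closure h
  obtain ⟨v, hv⟩ := seeley_exists_v (hd x h)
  have h1 : HasDerivAt (fun s : ℝ => x + s • (-v)) (-v) 0 := by
    simpa using ((hasDerivAt_id (0 : ℝ)).smul_const (-v)).const_add x
  have h2 : HasFDerivAt ρ (fderiv ℝ ρ x) (x + (0 : ℝ) • (-v)) := by
    simpa using (hρ.differentiable (by simp) x).hasFDerivAt
  have h3 : HasDerivAt (fun s : ℝ => ρ (x + s • (-v))) (-1) 0 := by
    have := h2.comp_hasDerivAt (0 : ℝ) h1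
    rw [map_neg, hv] at this
    exact this
  have h4 := (hasDerivAt_iff_tendsto_slope_zero.1 h3).mono_left
    (nhdsWithin_mono _ (fun s (hs : s ∈ Set.Ioi (0 : ℝ)) => ne_of_gt hs))
  have h5 : ∀ᶠ s : ℝ in 𝓝[>] 0, x + s • (-v) ∈ {x | ρ x < 0} := by
    filter_upwards [h4.eventually (eventually_lt_nhds (by norm_num : (-1 : ℝ) < 0)),
      self_mem_nhdsWithin] with s hs hs0
    simp only [zero_add, zero_smul, add_zero, h, sub_zero, smul_eq_mul] at hs
    exact neg_of_mul_neg_right hs (inv_pos.2 hs0).le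
  have h6 : Tendsto (fun s : ℝ => x + s • (-v)) (𝓝[>] 0) (𝓝 x) := by
    have := h1.continuousAt.tendsto
    simp only [zero_smul, add_zero] at this
    exact this.mono_left nhdsWithin_le_nhds
  exact mem_closure_of_tendsto h6 h5

/-- local extension at a boundary point -/
theorem seeley_local [FiniteDimensional ℝ E] {ρ : E → ℝ} (hρ : ContDiff ℝ ∞ ρ) {x₀ : E}
    (hd : fderiv ℝ ρ x₀ ≠ 0) {f : E → ℝ} (hf : ContDiffOn ℝ ∞ f {x | ρ x ≤ 0}) :
    ∃ U ∈ 𝓝 x₀, ∃ g : E → ℝ, ContDiff ℝ ∞ g ∧ ∀ y ∈ U, ρ y ≤ 0 → g y = f y := by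
  have := FiniteDimensional.complete ℝ E
  set ℓ : E →L[ℝ] ℝ := -fderiv ℝ ρ x₀ with hℓ
  obtain ⟨v, hv⟩ := seeley_exists_v (L := ℓ) (neg_ne_zero.2 hd)
  set Φ : E → E := fun y => y - (ρ y + ℓ y) • v with hΦ
  have hΦs : ContDiff ℝ ∞ Φ := contDiff_id.sub ((hρ.add ℓ.contDiff).smul contDiff_const)
  have hℓΦ : ∀ y, ℓ (Φ y) = -ρ y := fun y => by
    simp only [hΦ, map_sub, map_smul, hv, smul_eq_mul]; ring
  have hΦ' : HasFDerivAt Φ ((ContinuousLinearEquiv.refl ℝ E : E ≃L[ℝ] E) : E →L[ℝ] E) x₀ := by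
    have h1 := (hasFDerivAt_id x₀).sub
      (((hρ.differentiable (by simp) x₀).hasFDerivAt.add ℓ.hasFDerivAt).smul_const v)
    refine h1.congr_fderiv ?_
    ext w
    simp [hℓ]
  set e := hΦs.contDiffAt.toOpenPartialHomeomorph Φ hΦ' (by simp) with he
  have hec : (e : E → E) = Φ := rfl
  have hx₀ : x₀ ∈ e.source := hΦs.contDiffAt.mem_toOpenPartialHomeomorph_source hΦ' (by simp)
  set W : Set E := fderiv ℝ Φ ⁻¹' Set.range ((↑) : (E ≃L[ℝ] E) → E →L[ℝ] E) with hW
  have hWo : IsOpen W :=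
    ContinuousLinearEquiv.isOpen.preimage (hΦs.continuous_fderiv (by simp))
  set V : Set E := e.target ∩ e.symm ⁻¹' W with hV
  have hVo : IsOpen V := e.isOpen_inter_preimage_symm hWo
  have hV0 : Φ x₀ ∈ V := by
    refine ⟨e.map_source hx₀, ?_⟩
    change e.symm (e x₀) ∈ W
    rw [e.left_inv hx₀]
    exact ⟨_, hΦ'.fderiv.symm⟩
  have hsymm : ∀ y ∈ V, ContDiffAt ℝ ∞ e.symm y := by
    rintro y ⟨hy, L, hL⟩
    refine e.contDiffAt_symm (f₀' := L) hy ?_ hΦs.contDiffAt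
    rw [hL]
    exact (hΦs.differentiable (by simp) _).hasFDerivAt
  obtain ⟨r, hr, hrV⟩ := Metric.nhds_basis_closedBall.mem_iff.1 (hVo.mem_nhds hV0)
  let χ : ContDiffBump (Φ x₀) := ⟨r / 2, r, by positivity, by linarith⟩
  have hft : ContDiffOn ℝ ∞ (fun y => χ y * f (e.symm y)) {y | 0 ≤ ℓ y} := by
    intro y hy
    by_cases hyV : y ∈ V
    · refine χ.contDiff.contDiffAt.contDiffWithinAt.mul ?_
      have hm : ∀ z ∈ V, 0 ≤ ℓ z → ρ (e.symm z) ≤ 0 := fun z hz hz' => by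
        have h1 := hℓΦ (e.symm z)
        rw [← hec, e.right_inv hz.1] at h1
        linarith
      have h1 : ContDiffWithinAt ℝ ∞ (fun z => f (e.symm z)) ({y | 0 ≤ ℓ y} ∩ V) y :=
        ContDiffWithinAt.comp (g := f) y (hf _ (hm y hyV hy)) (hsymm y hyV).contDiffWithinAt
          fun z hz => hm z hz.2 hz.1
      exact (contDiffWithinAt_inter (hVo.mem_nhds hyV)).1 h1
    · have h1 : y ∉ tsupport χ := by
        rw [χ.tsupport_eq]
        exact fun h => hyV (hrV h)
      have h2 : (fun y => χ y * f (e.symm y)) =ᶠ[𝓝 y] fun _ => 0 := by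
        filter_upwards [notMem_tsupport_iff_eventuallyEq.1 h1] with z hz
        simp [hz]
      exact (contDiffAt_const.congr_of_eventuallyEq h2).contDiffWithinAt
  obtain ⟨F, hF, hFe⟩ := half_ext ℓ v hv _ hft (‖Φ x₀‖ + r) (by
    intro y _ hy
    have : χ y = 0 := χ.zero_of_le_dist (by
      change r ≤ dist y (Φ x₀)
      rw [dist_eq_norm]
      linarith [norm_sub_norm_le y (Φ x₀)])
    simp [this])
  refine ⟨e.source ∩ Φ ⁻¹' Metric.closedBall (Φ x₀) (r / 2), inter_mem (e.open_source.mem_nhds hx₀)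
    (hΦs.continuous.continuousAt.preimage_mem_nhds (Metric.closedBall_mem_nhds _ (by positivity))),
    fun y => F (Φ y), hF.comp hΦs, fun y hy hρy => ?_⟩
  change F (Φ y) = f y
  rw [hFe _ (by rw [hℓΦ]; linarith), χ.one_of_mem_closedBall hy.2, one_mul]
  exact congrArg f (e.left_inv hy.1)

end

theorem seeley (Ω : Set R3) (hbdry : Crest.AnalysisR.PDE.HasSmoothBoundary Ω) (f : R3 → ℝ)
    (hf : ContDiffOn ℝ ∞ f (closure Ω)) :
    ∃ F : R3 → ℝ, ContDiff ℝ ∞ F ∧ ∀ x ∈ closure Ω, F x = f x := by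
  classical
  obtain ⟨ρ, hρ, rfl, hd⟩ := hbdry
  rw [seeley_closure hρ hd] at hf ⊢
  obtain ⟨g, hg⟩ := exists_contMDiffMap_forall_mem_convex_of_local (n := ⊤) (modelWithCornersSelf ℝ R3)
    (t := fun y : R3 => if ρ y ≤ 0 then {f y} else Set.univ)
    (fun y => by split_ifs; exacts [convex_singleton _, convex_univ]) (fun x => by
      rcases lt_trichotomy (ρ x) 0 with h | h | h
      · refine ⟨{y | ρ y < 0}, (isOpen_lt hρ.continuous continuous_const).mem_nhds h, f,
          contMDiffOn_iff_contDiffOn.2 (hf.mono fun y (hy : ρ y < 0) => hy.le), fun y hy => ?_⟩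
        rw [if_pos (le_of_lt hy)]; rfl
      · obtain ⟨U, hU, g, hg, hgf⟩ := seeley_local hρ (hd x h) hf
        refine ⟨U, hU, g, contMDiffOn_iff_contDiffOn.2 hg.contDiffOn, fun y hy => ?_⟩
        split_ifs with h'
        · exact hgf y hy h'
        · trivial
      · refine ⟨{y | 0 < ρ y}, (isOpen_lt continuous_const hρ.continuous).mem_nhds h, fun _ => 0,
          contMDiffOn_const, fun y hy => ?_⟩
        rw [if_neg (not_le.2 hy)]; trivial)
  refine ⟨g, contMDiff_iff_contDiff.1 g.contMDiff, fun x hx => ?_⟩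
  have := hg x
  rwa [if_pos (show ρ x ≤ 0 from hx)] at this

end Crest.Agent.R80
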