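import Crest.Agent.R80.Key
import Crest.Agent.R80.GFun
import Crest.Agent.R80.Hol
import Crest.Agent.R80.Final
import Crest.Agent.R80.FOfin
import Crest.Agent.R80.SOfin
import Crest.Agent.R80.Bridge2
import Crest.Agent.R80.Bdry
import Crest.Agent.R80.Seeley

/-! Row 80: assembly. -/

set_option autoImplicit false
open MeasureTheory Crest.AnalysisR.VecCalc3 Crest.AnalysisR.PDE.Elasticity
open scoped ContDiff

namespace Crest.Agent.R80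

theorem DA.uniq {O : Type} [CommRing O] [Algebra ℂ O] [TopologicalSpace O] [IsTopologicalRing O]
    [ContinuousSMul ℂ O] (S : DA O) (hfo : S.FO) (hso : S.SO) {M₁ M₂ : Mod O} (hid : S.ID M₁ M₂)
    (hibp : S.IBP M₁ M₂) : M₁.mu = M₂.mu ∧ M₁.lam = M₂.lam := by
  obtain ⟨G, hG⟩ := S.exists_G hfo fun θ hθ => S.key_of hfo hso hid hibp hθ
  obtain ⟨h1, h2⟩ := S.final hfo hibp hG (S.liou hG)
  have h3 : M₁.σ = M₂.σ := by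
    have e1 := M₁.σσ'
    have e2 := M₂.σσ'
    rw [h2] at e1
    linear_combination M₂.σ * e1 - M₁.σ * e2
  simp [Mod.mu, Mod.lam, h1, h3]

theorem sbd_congr {Ω : Set R3} (hopen : IsOpen Ω) {l₁ m₁ l₂ m₂ l₁' m₁' l₂' m₂' : R3 → ℝ}
    (h : ∀ x ∈ Ω, l₁' x = l₁ x ∧ m₁' x = m₁ x ∧ l₂' x = l₂ x ∧ m₂' x = m₂ x)
    (hd : SameBoundaryData Ω l₁ m₁ l₂ m₂) : SameBoundaryData Ω l₁' m₁' l₂' m₂' := by
  have e1 : ∀ u, elasticEnergy Ω l₁' m₁' u = elasticEnergy Ω l₁ m₁ u := fun u =>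
    setIntegral_congr_fun hopen.measurableSet fun x hx => by
      simp [energyDensity, (h x hx).1, (h x hx).2.1]
  have e2 : ∀ u, elasticEnergy Ω l₂' m₂' u = elasticEnergy Ω l₂ m₂ u := fun u =>
    setIntegral_congr_fun hopen.measurableSet fun x hx => by
      simp [energyDensity, (h x hx).2.2.1, (h x hx).2.2.2]
  intro φ hφ
  simpa only [e1, e2] using hd φ hφ

theorem main (Ω : Set R3) (hopen : IsOpen Ω) (hbdd : Bornology.IsBounded Ω)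
    (hbdry : Crest.AnalysisR.PDE.HasSmoothBoundary Ω) (lam₁ mu₁ lam₂ mu₂ : R3 → ℝ)
    (hl₁ : ContDiffOn ℝ ∞ lam₁ (closure Ω)) (hm₁ : ContDiffOn ℝ ∞ mu₁ (closure Ω))
    (hl₂ : ContDiffOn ℝ ∞ lam₂ (closure Ω)) (hm₂ : ContDiffOn ℝ ∞ mu₂ (closure Ω))
    (hpos : ∀ x ∈ closure Ω, 0 < mu₁ x ∧ 0 < 3 * lam₁ x + 2 * mu₁ x ∧ 0 < mu₂ x ∧
      0 < 3 * lam₂ x + 2 * mu₂ x)
    (hdata : SameBoundaryData Ω lam₁ mu₁ lam₂ mu₂) :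
    ∀ x ∈ Ω, lam₁ x = lam₂ x ∧ mu₁ x = mu₂ x := by
  obtain ⟨l₁, hL₁, e₁⟩ := seeley Ω hbdry lam₁ hl₁
  obtain ⟨m₁, hM₁, f₁⟩ := seeley Ω hbdry mu₁ hm₁
  obtain ⟨l₂, hL₂, e₂⟩ := seeley Ω hbdry lam₂ hl₂
  obtain ⟨m₂, hM₂, f₂⟩ := seeley Ω hbdry mu₂ hm₂
  have hp : ∀ x ∈ closure Ω, 0 < m₁ x ∧ 0 < 3 * l₁ x + 2 * m₁ x ∧ 0 < m₂ x ∧
      0 < 3 * l₂ x + 2 * m₂ x := fun x hx => by
    rw [e₁ x hx, e₂ x hx, f₁ x hx, f₂ x hx]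
    exact hpos x hx
  have hd : SameBoundaryData Ω l₁ m₁ l₂ m₂ := sbd_congr hopen (fun x hx =>
    ⟨e₁ x (subset_closure hx), f₁ x (subset_closure hx), e₂ x (subset_closure hx),
      f₂ x (subset_closure hx)⟩) hdata
  let D : Dom := ⟨Ω, hopen, hbdd⟩
  obtain ⟨M₁, h₁⟩ := exists_mod D l₁ m₁ hL₁ hM₁ fun x hx => ⟨(hp x hx).1, (hp x hx).2.1⟩
  obtain ⟨M₂, h₂⟩ := exists_mod D l₂ m₂ hL₂ hM₂ fun x hx => (hp x hx).2.2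
  have hb := bdry_mu Ω hopen hbdd hbdry l₁ m₁ l₂ m₂ hL₁.continuous hM₁.continuous hL₂.continuous
    hM₂.continuous hp hd
  have hid := bridge_ID D M₁ M₂ l₁ m₁ l₂ m₂ hL₁ hM₁ hL₂ hM₂
    (fun x hx => ⟨(hp x (subset_closure hx)).1, (hp x (subset_closure hx)).2.1⟩) hd h₁ h₂
  have hibp := bridge_IBP D M₁ M₂ l₁ m₁ l₂ m₂ hM₁.continuous hM₂.continuous h₁ h₂ hb
  obtain ⟨k1, k2⟩ := D.da.uniq D.fo D.so hid hibp
  intro x hx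
  have hx' := subset_closure hx
  obtain ⟨-, a1, a2⟩ := h₁ ⟨x, hx⟩
  obtain ⟨-, b1, b2⟩ := h₂ ⟨x, hx⟩
  rw [k1, b1] at a1
  rw [k2, b2] at a2
  rw [← e₁ x hx', ← e₂ x hx', ← f₁ x hx', ← f₂ x hx']
  exact ⟨(by exact_mod_cast a2.symm), (by exact_mod_cast a1.symm)⟩

end Crest.Agent.R80
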