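import Mathlib

/-! Row 80: the moment sequences of Seeley's extension operator. -/

set_option autoImplicit false
open MeasureTheory Filter Topology
open scoped ContDiff RealInnerProductSpace

namespace Crest.Agent.R80

/-- the coefficients of `∏ (1 - x / 2 ^ j)` -/
noncomputable def momC : ℕ → ℝ
  | 0 => 1
  | k + 1 => -(1 / 2) ^ k * momC k / (1 - (1 / 2) ^ (k + 1))

theorem momC_zero : momC 0 = 1 := rfl

theorem momC_succ (k : ℕ) : momC (k + 1) = -(1 / 2) ^ k * momC k / (1 - (1 / 2) ^ (k + 1)) := rfl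

theorem mom_den (k : ℕ) : (1 / 2 : ℝ) ≤ 1 - (1 / 2) ^ (k + 1) := by
  have : (1 / 2 : ℝ) ^ k ≤ 1 := pow_le_one₀ (by norm_num) (by norm_num)
  rw [pow_succ]
  linarith

theorem momC_rec (k : ℕ) : momC (k + 1) * (1 - (1 / 2) ^ (k + 1)) = -(1 / 2) ^ k * momC k := by
  have := mom_den k
  rw [momC_succ, div_mul_cancel₀ _ (by linarith)]

theorem momC_abs (k : ℕ) : |momC (k + 1)| ≤ 2 * (1 / 2) ^ k * |momC k| := by
  have h1 := mom_den k
  have h2 := congrArg abs (momC_rec k)
  rw [abs_mul, abs_mul, abs_neg, abs_of_nonneg (by linarith : (0 : ℝ) ≤ 1 - (1 / 2) ^ (k + 1)),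
    abs_of_nonneg (by positivity : (0 : ℝ) ≤ (1 / 2) ^ k)] at h2
  nlinarith [abs_nonneg (momC (k + 1))]

theorem mom_summable {x : ℝ} (hx : 0 ≤ x) : Summable fun k => |momC k| * x ^ k := by
  refine summable_of_ratio_norm_eventually_le (r := 1 / 2) (by norm_num) ?_
  have h1 : Tendsto (fun k : ℕ => 2 * (1 / 2 : ℝ) ^ k * x) atTop (𝓝 (2 * 0 * x)) :=
    ((tendsto_pow_atTop_nhds_zero_of_lt_one (by norm_num) (by norm_num)).const_mul 2).mul_const x
  rw [mul_zero, zero_mul] at h1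
  filter_upwards [h1.eventually (gt_mem_nhds (by norm_num : (0 : ℝ) < 1 / 2))] with k hk
  rw [Real.norm_of_nonneg (by positivity), Real.norm_of_nonneg (by positivity)]
  calc |momC (k + 1)| * x ^ (k + 1) ≤ (2 * (1 / 2) ^ k * |momC k|) * x ^ (k + 1) :=
        mul_le_mul_of_nonneg_right (momC_abs k) (by positivity)
    _ = (2 * (1 / 2) ^ k * x) * (|momC k| * x ^ k) := by ring
    _ ≤ _ := mul_le_mul_of_nonneg_right hk.le (by positivity)

theorem mom_summable' {x : ℝ} (hx : 0 ≤ x) : Summable fun k => momC k * x ^ k := by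
  refine Summable.of_norm ((mom_summable hx).congr fun k => ?_)
  rw [Real.norm_eq_abs, abs_mul, abs_of_nonneg (pow_nonneg hx k)]

theorem mom_fe {x : ℝ} (hx : 0 ≤ x) :
    ∑' k, momC k * x ^ k = (1 - x) * ∑' k, momC k * (x / 2) ^ k := by
  have h1 := mom_summable' hx
  have h2 := mom_summable' (x := x / 2) (by positivity)
  have h3 := (h1.sub h2).tsum_eq_zero_add
  rw [h1.tsum_sub h2] at h3
  have h4 : ∀ k, momC (k + 1) * x ^ (k + 1) - momC (k + 1) * (x / 2) ^ (k + 1)
      = -x * (momC k * (x / 2) ^ k) := fun k => by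
    have e : ∀ m : ℕ, (x / 2) ^ m = (1 / 2) ^ m * x ^ m := fun m => by
      rw [← mul_pow]; congr 1; ring
    rw [e, e]
    linear_combination x ^ (k + 1) * momC_rec k
  simp only [h4, tsum_mul_left, pow_zero, sub_self, zero_add] at h3
  linarith

theorem mom_pow (j : ℕ) : ∑' k, momC k * ((2 : ℝ) ^ j) ^ k = 0 := by
  induction j with
  | zero => rw [mom_fe (by positivity), pow_zero, sub_self, zero_mul]
  | succ j ih =>
    rw [mom_fe (by positivity), show (2 : ℝ) ^ (j + 1) / 2 = 2 ^ j by ring, ih, mul_zero]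

theorem mom_hasSum (j : ℕ) : HasSum (fun k => momC k * (3 - 2 * (2 : ℝ) ^ k) ^ j) 0 := by
  have h : ∀ i : ℕ, HasSum (fun k => momC k * ((2 : ℝ) ^ i) ^ k) 0 := fun i => by
    have := (mom_summable' (x := 2 ^ i) (by positivity)).hasSum
    rwa [mom_pow] at this
  have h2 := hasSum_sum (s := Finset.range (j + 1))
    fun i _ => (h i).mul_left ((-2) ^ i * 3 ^ (j - i) * (j.choose i : ℝ))
  simp only [mul_zero, Finset.sum_const_zero] at h2
  refine h2.congr_fun fun k => ?_
  rw [show (3 - 2 * (2 : ℝ) ^ k) = (-2 * 2 ^ k) + 3 by ring, add_pow, Finset.mul_sum]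
  refine Finset.sum_congr rfl fun i _ => ?_
  rw [mul_pow, ← pow_mul, ← pow_mul, mul_comm k i]
  ring

theorem exists_moments : ∃ a b : ℕ → ℝ, (∀ k, 1 ≤ b k) ∧
    (∀ j : ℕ, Summable fun k => |a k| * b k ^ j) ∧ ∀ j : ℕ, ∑' k, a k * (-b k) ^ j = 1 := by
  have hb : ∀ k : ℕ, (1 : ℝ) ≤ 2 * 2 ^ (k + 1) - 3 := fun k => by
    have : (1 : ℝ) ≤ 2 ^ k := one_le_pow₀ (by norm_num)
    rw [pow_succ]
    linarith
  refine ⟨fun k => -momC (k + 1), fun k => 2 * 2 ^ (k + 1) - 3, hb, fun j => ?_, fun j => ?_⟩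
  · have h1 := ((summable_nat_add_iff 1).2 (mom_summable (x := 2 ^ j) (by positivity))).mul_left
      (2 ^ j)
    refine Summable.of_nonneg_of_le
      (fun k => mul_nonneg (abs_nonneg _) (pow_nonneg (by linarith [hb k]) _)) (fun k => ?_) h1
    rw [abs_neg, ← pow_mul, mul_comm j, pow_mul, mul_left_comm, ← mul_pow]
    exact mul_le_mul_of_nonneg_left
      (pow_le_pow_left₀ (by linarith [hb k]) (by linarith) _) (abs_nonneg _)
  · have h1 := mom_hasSum j
    have h2 := h1.summable.tsum_eq_zero_add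
    rw [h1.tsum_eq, momC_zero] at h2
    simp only [neg_sub, neg_mul, tsum_neg]
    norm_num at h2 ⊢
    linarith

end Crest.Agent.R80
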