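import Crest.Agent.R80.Sym

/-! Row 80: every smooth function has a Fourier representation on a bounded set. -/

set_option autoImplicit false
open MeasureTheory Crest.AnalysisR.VecCalc3
open scoped ContDiff RealInnerProductSpace

namespace Crest.Agent.R80

open scoped FourierTransform in
theorem frep_exists (Ω : Set R3) (hb : Bornology.IsBounded Ω) (F : R3 → ℂ)
    (hF : ContDiff ℝ ∞ F) : ∃ (G : R3 → ℂ) (M : ℝ), FRep Ω F G M := by
  obtain ⟨r, hr0, hr⟩ := hb.subset_closedBall_lt 0 (0 : R3)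
  let χ : ContDiffBump (0 : R3) := ⟨r, r + 1, hr0, by linarith⟩
  let F1 : R3 → ℂ := fun y => (χ y : ℂ) * F ((2 * Real.pi) • y)
  have hsm : ContDiff ℝ ∞ F1 := by
    refine ContDiff.mul ?_ (hF.comp (contDiff_id.const_smul (2 * Real.pi)))
    exact Complex.ofRealCLM.contDiff.comp χ.contDiff
  have hcs : HasCompactSupport F1 := by
    refine HasCompactSupport.mul_right ?_
    exact χ.hasCompactSupport.comp_left (g := fun t : ℝ => (t : ℂ)) (by simp)
  let f : SchwartzMap R3 ℂ := hcs.toSchwartzMap hsm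
  let g : SchwartzMap R3 ℂ := 𝓕 f
  have hdec : ∀ s : ℕ, ∃ C : ℝ, ∀ η, (1 + ‖η‖) ^ s * ‖g η‖ ≤ C := by
    intro s
    refine ⟨2 ^ s * (Finset.Iic (s, 0)).sup (fun m => SchwartzMap.seminorm ℝ m.1 m.2) g,
      fun η => ?_⟩
    have := SchwartzMap.one_add_le_sup_seminorm_apply (𝕜 := ℝ) (m := (s, 0)) (k := s) (n := 0)
      le_rfl le_rfl g η
    simpa using this
  obtain ⟨M, hM⟩ := hdec 8
  refine ⟨g, M, g.continuous, hdec, hM, fun x hx => ?_⟩
  have hπ : (0 : ℝ) < 2 * Real.pi := by positivity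
  have hπ1 : (1 : ℝ) ≤ 2 * Real.pi := by linarith [Real.pi_gt_three]
  set y : R3 := (2 * Real.pi)⁻¹ • x with hy
  have hyx : (2 * Real.pi) • y = x := by
    rw [hy, smul_smul, mul_inv_cancel₀ hπ.ne', one_smul]
  have hxr : ‖x‖ ≤ r := by simpa using hr hx
  have hyr : y ∈ Metric.closedBall (0 : R3) χ.rIn := by
    have h1 : ‖y‖ ≤ ‖x‖ := by
      rw [hy, norm_smul, Real.norm_eq_abs, abs_of_pos (inv_pos.2 hπ)]
      exact mul_le_of_le_one_left (norm_nonneg _) (inv_le_one_of_one_le₀ hπ1)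
    simpa [χ] using h1.trans hxr
  have h1 : F1 y = F x := by
    simp only [F1, χ.one_of_mem_closedBall hyr, hyx]
    simp
  have h2 : (𝓕⁻ (g : R3 → ℂ)) y = F1 y := by
    have : (𝓕⁻ (g : R3 → ℂ)) = (f : R3 → ℂ) := by
      have h3 := f.continuous.fourierInv_fourier_eq f.integrable (𝓕 f).integrable
      exact h3
    rw [this]; rfl
  rw [← h1, ← h2, Real.fourierInv_eq']
  refine integral_congr_ae (Filter.Eventually.of_forall fun η => ?_)
  have h4 : 2 * Real.pi * ⟪η, y⟫ = ⟪η, x⟫ := by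
    rw [hy, real_inner_smul_right, ← mul_assoc, mul_inv_cancel₀ hπ.ne', one_mul]
  simp only [h4, smul_eq_mul]
  ring_nf

end Crest.Agent.R80
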