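import Crest.Agent.R80.Basic
import Crest.Agent.R80.NBex

/-!
Row 80. The concrete differential algebra `Ob D`: restrictions to the bounded open set `D.Ω` of
smooth complex functions on ℝ³, with the topology of uniform convergence of all derivatives.
-/

set_option autoImplicit false
open MeasureTheory Filter Topology Crest.AnalysisR.VecCalc3
open scoped ContDiff RealInnerProductSpace BoundedContinuousFunction

namespace Crest.Agent.R80

/-- A bounded open subset of ℝ³. -/
structure Dom where
  Ω : Set R3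
  op : IsOpen Ω
  bdd : Bornology.IsBounded Ω

/-- Restrictions of smooth functions. -/
def Osub (D : Dom) : Subalgebra ℂ (D.Ω → ℂ) where
  carrier := {f | ∃ F : R3 → ℂ, ContDiff ℝ ∞ F ∧ ∀ x : D.Ω, F x = f x}
  mul_mem' := by
    rintro f g ⟨F, hF, h1⟩ ⟨G, hG, h2⟩
    exact ⟨fun x => F x * G x, hF.mul hG, fun x => by simp [h1, h2]⟩
  add_mem' := by
    rintro f g ⟨F, hF, h1⟩ ⟨G, hG, h2⟩
    exact ⟨fun x => F x + G x, hF.add hG, fun x => by simp [h1, h2]⟩
  algebraMap_mem' := fun c => ⟨fun _ => c, contDiff_const, fun x => by simp⟩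

/-- The algebra of restrictions of smooth functions to `D.Ω`. -/
def Ob (D : Dom) : Type := Osub D

namespace Ob
variable {D : Dom}

noncomputable instance : CommRing (Ob D) := inferInstanceAs (CommRing (Osub D))
noncomputable instance : Algebra ℂ (Ob D) := inferInstanceAs (Algebra ℂ (Osub D))

/-- The values of `f` on Ω. -/
def val (f : Ob D) (x : D.Ω) : ℂ := (f : Osub D).1 x

@[ext] theorem ext {f g : Ob D} (h : ∀ x, f.val x = g.val x) : f = g :=
  Subtype.ext (funext h)

@[simp] theorem val_add (f g : Ob D) (x : D.Ω) : (f + g).val x = f.val x + g.val x := rfl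
@[simp] theorem val_mul (f g : Ob D) (x : D.Ω) : (f * g).val x = f.val x * g.val x := rfl
@[simp] theorem val_sub (f g : Ob D) (x : D.Ω) : (f - g).val x = f.val x - g.val x := rfl
@[simp] theorem val_neg (f : Ob D) (x : D.Ω) : (-f).val x = -f.val x := rfl
@[simp] theorem val_zero (x : D.Ω) : (0 : Ob D).val x = 0 := rfl
@[simp] theorem val_one (x : D.Ω) : (1 : Ob D).val x = 1 := rfl
@[simp] theorem val_smul (c : ℂ) (f : Ob D) (x : D.Ω) : (c • f).val x = c * f.val x := rfl

/-- Evaluation at a point as an algebra homomorphism. -/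
noncomputable def valHom (x : D.Ω) : Ob D →ₐ[ℂ] ℂ where
  toFun f := f.val x
  map_one' := rfl
  map_mul' _ _ := rfl
  map_zero' := rfl
  map_add' _ _ := rfl
  commutes' _ := rfl

@[simp] theorem val_sum {ι : Type*} (s : Finset ι) (f : ι → Ob D) (x : D.Ω) :
    (∑ i ∈ s, f i).val x = ∑ i ∈ s, (f i).val x := map_sum (valHom x) f s

@[simp] theorem val_ofNat (n : ℕ) [n.AtLeastTwo] (x : D.Ω) :
    (ofNat(n) : Ob D).val x = ofNat(n) := map_ofNat (valHom x) n

/-- The restriction of a smooth function. -/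
def mk (D : Dom) (F : R3 → ℂ) (hF : ContDiff ℝ ∞ F) : Ob D :=
  (⟨fun x => F x, F, hF, fun _ => rfl⟩ : Osub D)

@[simp] theorem val_mk (F : R3 → ℂ) (hF : ContDiff ℝ ∞ F) (x : D.Ω) : (mk D F hF).val x = F x := rfl

/-- A smooth representative. -/
noncomputable def rep (f : Ob D) : R3 → ℂ := Classical.choose (f : Osub D).2

theorem rep_smooth (f : Ob D) : ContDiff ℝ ∞ f.rep := (Classical.choose_spec (f : Osub D).2).1

theorem rep_val (f : Ob D) (x : D.Ω) : f.rep x = f.val x :=
  (Classical.choose_spec (f : Osub D).2).2 x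

theorem rep_of_mem (f : Ob D) {x : R3} (hx : x ∈ D.Ω) : f.rep x = f.val ⟨x, hx⟩ :=
  f.rep_val ⟨x, hx⟩

theorem mk_rep (f : Ob D) : mk D f.rep f.rep_smooth = f := ext f.rep_val

theorem exists_mk (f : Ob D) : ∃ F hF, f = mk D F hF := ⟨_, _, f.mk_rep.symm⟩

theorem mk_eq_iff {F G : R3 → ℂ} (hF : ContDiff ℝ ∞ F) (hG : ContDiff ℝ ∞ G) :
    mk D F hF = mk D G hG ↔ ∀ x ∈ D.Ω, F x = G x :=
  ⟨fun h x hx => congrArg (fun f : Ob D => f.val ⟨x, hx⟩) h, fun h => ext fun x => h x x.2⟩

theorem pd_congr {F G : R3 → ℂ} (h : ∀ x ∈ D.Ω, F x = G x) (i : Fin 3) {x : R3} (hx : x ∈ D.Ω) :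
    pd i F x = pd i G x := by
  have : F =ᶠ[𝓝 x] G := Filter.eventuallyEq_of_mem (D.op.mem_nhds hx) h
  unfold pd
  rw [this.fderiv_eq]

/-- Partial derivative (as a function). -/
noncomputable def dF (i : Fin 3) (f : Ob D) : Ob D := mk D (pd i f.rep) (contDiff_pd f.rep_smooth i)

theorem dF_mk (i : Fin 3) (F : R3 → ℂ) (hF : ContDiff ℝ ∞ F) :
    dF i (mk D F hF) = mk D (pd i F) (contDiff_pd hF i) :=
  ext fun x => pd_congr (fun y hy => (mk D F hF).rep_of_mem hy) i x.2

theorem diff {F : R3 → ℂ} (hF : ContDiff ℝ ∞ F) (x : R3) : DifferentiableAt ℝ F x :=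
  hF.differentiable (by simp) x

/-- Partial derivative as a derivation. -/
noncomputable def d (D : Dom) (i : Fin 3) : Derivation ℂ (Ob D) (Ob D) :=
  Derivation.mk'
    { toFun := dF i
      map_add' := fun f g => by
        obtain ⟨F, hF, rfl⟩ := f.exists_mk
        obtain ⟨G, hG, rfl⟩ := g.exists_mk
        have : mk D F hF + mk D G hG = mk D (fun x => F x + G x) (hF.add hG) := rfl
        rw [this, dF_mk, dF_mk, dF_mk]
        ext x
        simp [pd, fderiv_fun_add (diff hF x) (diff hG x)]
      map_smul' := fun c f => by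
        obtain ⟨F, hF, rfl⟩ := f.exists_mk
        have : c • mk D F hF = mk D (fun x => c * F x) (contDiff_const.mul hF) := rfl
        rw [this, dF_mk, dF_mk]
        ext x
        simp [pd, fderiv_const_mul (diff hF x)] }
    (fun f g => by
      obtain ⟨F, hF, rfl⟩ := f.exists_mk
      obtain ⟨G, hG, rfl⟩ := g.exists_mk
      have : mk D F hF * mk D G hG = mk D (fun x => F x * G x) (hF.mul hG) := rfl
      simp only [LinearMap.coe_mk, AddHom.coe_mk]
      rw [this, dF_mk, dF_mk, dF_mk]
      ext x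
      simp [pd, fderiv_fun_mul (diff hF x) (diff hG x)])

theorem d_mk (i : Fin 3) (F : R3 → ℂ) (hF : ContDiff ℝ ∞ F) :
    d D i (mk D F hF) = mk D (pd i F) (contDiff_pd hF i) := dF_mk i F hF

theorem val_d (i : Fin 3) (f : Ob D) (x : D.Ω) : (d D i f).val x = pd i f.rep x := rfl

theorem d_comm (i j : Fin 3) (f : Ob D) : d D i (d D j f) = d D j (d D i f) := by
  obtain ⟨F, hF, rfl⟩ := f.exists_mk
  simp only [d_mk]
  ext x
  have h2 : ContDiffAt ℝ 2 F x := (hF.of_le (WithTop.coe_le_coe.2 (le_top : (2 : ℕ∞) ≤ ⊤))).contDiffAt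
  have hs := h2.isSymmSndFDerivAt (by simp)
  have hd : DifferentiableAt ℝ (fderiv ℝ F) x :=
    (hF.fderiv_right (m := ∞) (by exact_mod_cast le_rfl)).differentiable (by simp) x
  have key : ∀ a b : Fin 3, pd a (pd b F) x =
      fderiv ℝ (fderiv ℝ F) x (EuclideanSpace.single a 1) (EuclideanSpace.single b 1) := by
    intro a b
    unfold pd
    rw [fderiv_clm_apply hd (differentiableAt_const _)]
    simp
  simp only [val_mk, key]
  exact hs _ _

/-- Iterated derivative along a list. -/
noncomputable def dl : List (Fin 3) → Ob D → Ob D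
  | [], f => f
  | i :: α, f => dl α (d D i f)

theorem dl_mk (α : List (Fin 3)) (F : R3 → ℂ) (hF : ContDiff ℝ ∞ F) :
    dl α (mk D F hF) = mk D (pdl α F) (contDiff_pdl hF α) := by
  induction α generalizing F with
  | nil => rfl
  | cons i α ih => simp only [dl, pdl, d_mk, ih]

theorem dl_add (α : List (Fin 3)) (f g : Ob D) : dl α (f + g) = dl α f + dl α g := by
  induction α generalizing f g with
  | nil => rfl
  | cons i α ih => simp only [dl, map_add, ih]

theorem dl_smul (α : List (Fin 3)) (c : ℂ) (f : Ob D) : dl α (c • f) = c • dl α f := by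
  induction α generalizing f with
  | nil => rfl
  | cons i α ih => simp only [dl, Derivation.map_smul, ih]

theorem dl_neg (α : List (Fin 3)) (f : Ob D) : dl α (-f) = -dl α f := by
  induction α generalizing f with
  | nil => rfl
  | cons i α ih => simp only [dl, map_neg, ih]

theorem dl_zero (α : List (Fin 3)) : dl α (0 : Ob D) = 0 := by
  induction α with
  | nil => rfl
  | cons i α ih => simp only [dl, map_zero, ih]

theorem exists_bound {F : R3 → ℂ} (hF : Continuous F) : ∃ C, ∀ x ∈ D.Ω, ‖F x‖ ≤ C := by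
  obtain ⟨C, hC⟩ := D.bdd.isCompact_closure.exists_bound_of_continuousOn hF.continuousOn
  exact ⟨C, fun x hx => hC x (subset_closure hx)⟩

theorem continuous_val (f : Ob D) : Continuous f.val := by
  have : f.val = fun x : D.Ω => f.rep x := funext fun x => (f.rep_val x).symm
  rw [this]
  exact f.rep_smooth.continuous.comp continuous_subtype_val

/-- `f` as a bounded continuous function on Ω. -/
noncomputable def evF (f : Ob D) : D.Ω →ᵇ ℂ :=
  BoundedContinuousFunction.ofNormedAddCommGroup f.val f.continuous_val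
    (Classical.choose (exists_bound (D := D) f.rep_smooth.continuous)) fun x => by
      rw [← f.rep_val]
      exact Classical.choose_spec (exists_bound (D := D) f.rep_smooth.continuous) x x.2

/-- `f` as a bounded continuous function on Ω (algebra homomorphism). -/
noncomputable def ev : Ob D →ₐ[ℂ] (D.Ω →ᵇ ℂ) where
  toFun := evF
  map_one' := by ext x; rfl
  map_mul' _ _ := by ext x; rfl
  map_zero' := by ext x; rfl
  map_add' _ _ := by ext x; rfl
  commutes' _ := by ext x; simp [evF]; rfl

@[simp] theorem ev_apply (f : Ob D) (x : D.Ω) : ev f x = f.val x := rfl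

/-- All derivatives as bounded continuous functions. -/
noncomputable def jet (f : Ob D) (α : List (Fin 3)) : D.Ω →ᵇ ℂ := ev (dl α f)

noncomputable instance : TopologicalSpace (Ob D) := TopologicalSpace.induced jet inferInstance

theorem continuous_jet (α : List (Fin 3)) : Continuous fun f : Ob D => ev (dl α f) :=
  (continuous_apply α).comp (continuous_induced_dom (f := jet))

theorem continuous_of_jet {X : Type*} [TopologicalSpace X] {u : X → Ob D}
    (h : ∀ α, Continuous fun x => ev (dl α (u x))) : Continuous u :=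
  continuous_induced_rng.2 (continuous_pi h)

theorem continuous_d (i : Fin 3) : Continuous (d D i) :=
  continuous_of_jet fun α => continuous_jet (i :: α)

theorem continuous_jet_mul (α : List (Fin 3)) : ∀ u v : Ob D × Ob D → Ob D, Continuous u →
    Continuous v → Continuous fun p => ev (dl α (u p * v p)) := by
  induction α with
  | nil =>
    intro u v hu hv
    simp only [dl, map_mul]
    exact ((continuous_jet []).comp hu).mul ((continuous_jet []).comp hv)
  | cons i α ih =>
    intro u v hu hv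
    simp only [dl, Derivation.leibniz, smul_eq_mul, dl_add, map_add]
    exact (ih _ _ hu ((continuous_d i).comp hv)).add (ih _ _ hv ((continuous_d i).comp hu))

instance : IsTopologicalRing (Ob D) where
  continuous_add := continuous_of_jet fun α => by
    simp only [dl_add, map_add]
    exact ((continuous_jet α).comp continuous_fst).add ((continuous_jet α).comp continuous_snd)
  continuous_mul := continuous_of_jet fun α => continuous_jet_mul α _ _ continuous_fst continuous_snd
  continuous_neg := continuous_of_jet fun α => by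
    simp only [dl_neg, map_neg]
    exact (continuous_jet α).neg

instance : ContinuousSMul ℂ (Ob D) where
  continuous_smul := continuous_of_jet fun α => by
    simp only [dl_smul, map_smul]
    exact continuous_fst.smul ((continuous_jet α).comp continuous_snd)

/-- Sup norm on Ω. -/
noncomputable def sup (D : Dom) : Seminorm ℂ (Ob D) :=
  (normSeminorm ℂ (D.Ω →ᵇ ℂ)).comp (ev (D := D)).toLinearMap

theorem sup_apply (f : Ob D) : sup D f = ‖ev f‖ := rfl

theorem norm_val_le (f : Ob D) (x : D.Ω) : ‖f.val x‖ ≤ sup D f := (ev f).norm_coe_le_norm x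

theorem sup_le (f : Ob D) {C : ℝ} (hC : 0 ≤ C) (h : ∀ x, ‖f.val x‖ ≤ C) : sup D f ≤ C :=
  (BoundedContinuousFunction.norm_le hC).2 h

/-- Neighbourhoods of 0 contain a `C^n`-ball. -/
theorem nhds_zero_basis {W : Set (Ob D)} (hW : W ∈ 𝓝 (0 : Ob D)) :
    ∃ (n : ℕ) (ε : ℝ), 0 < ε ∧ ∀ f : Ob D,
      (∀ α : List (Fin 3), α.length ≤ n → sup D (dl α f) ≤ ε) → f ∈ W := by
  rw [nhds_induced, mem_comap] at hW
  obtain ⟨U, hU, hUW⟩ := hW
  rw [nhds_pi, mem_pi] at hU
  obtain ⟨s, hs, t, ht, hst⟩ := hU
  have h0 : ∀ α, jet (0 : Ob D) α = 0 := fun α => by simp [jet, dl_zero]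
  have h1 : ∀ α, ∃ ε > 0, Metric.closedBall (0 : D.Ω →ᵇ ℂ) ε ⊆ t α := fun α => by
    have := ht α
    rw [h0] at this
    exact Metric.nhds_basis_closedBall.mem_iff.1 this
  choose ε hε hεt using h1
  obtain ⟨n, hn⟩ := (hs.image List.length).bddAbove
  have hpos : ∀ᶠ δ : ℝ in 𝓝[>] 0, ∀ α ∈ s, δ ≤ ε α := by
    rw [eventually_all_finite hs]
    intro α _
    exact mem_nhdsWithin_of_mem_nhds (ge_mem_nhds (hε α))
  obtain ⟨δ, hδ, hδ0⟩ := (hpos.and self_mem_nhdsWithin).exists
  refine ⟨n, δ, hδ0, fun f hf => hUW (hst fun α hα => hεt α ?_)⟩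
  rw [Metric.mem_closedBall, dist_zero_right]
  exact (hf α (hn ⟨α, hα, rfl⟩)).trans (hδ α hα)

theorem integrableOn {F : R3 → ℂ} (hF : Continuous F) : IntegrableOn F D.Ω :=
  (hF.continuousOn.integrableOn_compact D.bdd.isCompact_closure).mono_set subset_closure

theorem integral_congr {F G : R3 → ℂ} (h : ∀ x ∈ D.Ω, F x = G x) :
    ∫ x in D.Ω, F x = ∫ x in D.Ω, G x := setIntegral_congr_fun D.op.measurableSet h

/-- The integral over Ω. -/
noncomputable def Int (D : Dom) : Ob D →ₗ[ℂ] ℂ where
  toFun f := ∫ x in D.Ω, f.rep x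
  map_add' f g := by
    rw [← integral_add (integrableOn f.rep_smooth.continuous) (integrableOn g.rep_smooth.continuous)]
    exact integral_congr fun x hx => by simp [rep_of_mem _ hx]
  map_smul' c f := by
    rw [RingHom.id_apply, smul_eq_mul, ← integral_const_mul]
    exact integral_congr fun x hx => by simp [rep_of_mem _ hx]

theorem Int_mk (F : R3 → ℂ) (hF : ContDiff ℝ ∞ F) : Int D (mk D F hF) = ∫ x in D.Ω, F x :=
  integral_congr fun _ hx => (mk D F hF).rep_of_mem hx

theorem norm_Int_le (f : Ob D) : ‖Int D f‖ ≤ (volume D.Ω).toReal * sup D f := by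
  have := norm_setIntegral_le_of_norm_le_const (μ := volume) (s := D.Ω) (f := f.rep)
    (C := sup D f) D.bdd.measure_lt_top fun x hx => by
      rw [rep_of_mem _ hx]
      exact f.norm_val_le _
  rw [mul_comm]
  exact this

theorem continuous_Int : Continuous (Int D) := by
  refine continuous_of_continuousAt_zero (Int D) ?_
  rw [ContinuousAt, map_zero]
  refine squeeze_zero_norm norm_Int_le ?_
  have h : Continuous fun f : Ob D => (volume D.Ω).toReal * sup D f :=
    continuous_const.mul (continuous_jet (D := D) []).norm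
  simpa using h.tendsto 0

/-- `f` has a Fourier representation with bound `M`. -/
def NB (f : Ob D) (M : ℝ) : Prop := ∃ G, FRep D.Ω f.rep G M

theorem NB.nonneg {f : Ob D} {M : ℝ} (h : NB f M) : 0 ≤ M := by
  obtain ⟨G, h⟩ := h
  exact le_trans (by positivity) (h.2.2.1 0)

theorem NB.mono {f : Ob D} {M M' : ℝ} (h : NB f M) (hM : M ≤ M') : NB f M' := by
  obtain ⟨G, h1, h2, h3, h4⟩ := h
  exact ⟨G, h1, h2, fun η => (h3 η).trans hM, h4⟩

theorem NB_exists (f : Ob D) : ∃ M, NB f M := by
  obtain ⟨G, M, h⟩ := frep_exists D.Ω D.bdd f.rep f.rep_smooth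
  exact ⟨M, G, h⟩

theorem integrable_frep {G : R3 → ℂ} {M : ℝ} (hG : Continuous G)
    (h : ∀ η, (1 + ‖η‖) ^ 8 * ‖G η‖ ≤ M) (x : R3) :
    Integrable fun η => G η * Complex.exp (Complex.I * ((⟪η, x⟫ : ℝ) : ℂ)) := by
  have h1 := (integrable_one_add_norm (E := R3) (μ := volume) (r := 8) (by simp; norm_num)).const_mul M
  refine h1.mono' (Continuous.aestronglyMeasurable (by fun_prop)) (Eventually.of_forall fun η => ?_)
  have h2 : (0 : ℝ) < 1 + ‖η‖ := by positivity
  rw [norm_mul, mul_comm Complex.I, Complex.norm_exp_ofReal_mul_I, mul_one, Real.rpow_neg h2.le,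
    ← div_eq_mul_inv, le_div_iff₀ (by positivity), mul_comm]
  exact_mod_cast h η

theorem NB.add {f g : Ob D} {M M' : ℝ} (h : NB f M) (h' : NB g M') : NB (f + g) (M + M') := by
  obtain ⟨G, h1, h2, h3, h4⟩ := h
  obtain ⟨G', k1, k2, k3, k4⟩ := h'
  refine ⟨fun η => G η + G' η, h1.add k1, fun s => ?_, fun η => ?_, fun x hx => ?_⟩
  · obtain ⟨C, hC⟩ := h2 s
    obtain ⟨C', hC'⟩ := k2 s
    refine ⟨C + C', fun η => le_trans ?_ (add_le_add (hC η) (hC' η))⟩
    rw [← mul_add]
    gcongr
    exact norm_add_le _ _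
  · refine le_trans ?_ (add_le_add (h3 η) (k3 η))
    rw [← mul_add]
    gcongr
    exact norm_add_le _ _
  · simp only [add_mul]
    rw [integral_add (integrable_frep h1 h3 x) (integrable_frep k1 k3 x), ← h4 x hx, ← k4 x hx]
    simp [rep_of_mem _ hx]

theorem NB.smul {f : Ob D} {M : ℝ} (h : NB f M) (c : ℂ) : NB (c • f) (‖c‖ * M) := by
  obtain ⟨G, h1, h2, h3, h4⟩ := h
  refine ⟨fun η => c * G η, continuous_const.mul h1, fun s => ?_, fun η => ?_, fun x hx => ?_⟩
  · obtain ⟨C, hC⟩ := h2 s
    refine ⟨‖c‖ * C, fun η => ?_⟩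
    rw [norm_mul, mul_left_comm]
    exact mul_le_mul_of_nonneg_left (hC η) (norm_nonneg c)
  · rw [norm_mul, mul_left_comm]
    exact mul_le_mul_of_nonneg_left (h3 η) (norm_nonneg c)
  · simp only [mul_assoc]
    rw [integral_const_mul, ← h4 x hx]
    simp [rep_of_mem _ hx]

theorem NB_bdd (f : Ob D) : BddBelow {M | NB f M} := ⟨0, fun _ h => NB.nonneg h⟩

theorem inf_le {f : Ob D} {M : ℝ} (h : NB f M) : sInf {M | NB f M} ≤ M := csInf_le (NB_bdd f) h

theorem NB_of_lt {f : Ob D} {M : ℝ} (h : sInf {M | NB f M} < M) : NB f M := by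
  obtain ⟨M', h1, h2⟩ := exists_lt_of_csInf_lt (s := {M | NB f M}) (NB_exists f) h
  exact NB.mono h1 h2.le

/-- The Fourier-side seminorm. -/
noncomputable def nu (D : Dom) : Seminorm ℂ (Ob D) :=
  Seminorm.ofSMulLE (fun f => sInf {M | NB f M})
    (by
      refine le_antisymm ?_ (le_csInf (NB_exists 0) fun _ h => NB.nonneg h)
      obtain ⟨M, h⟩ := NB_exists (0 : Ob D)
      simpa using inf_le (h.smul 0))
    (fun f g => by
      refine le_of_forall_pos_le_add fun ε hε => ?_
      have h1 : NB f (sInf {M | NB f M} + ε / 2) := NB_of_lt (by linarith)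
      have h2 : NB g (sInf {M | NB g M} + ε / 2) := NB_of_lt (by linarith)
      have := inf_le (h1.add h2)
      linarith)
    (fun c f => by
      refine le_of_forall_pos_le_add fun ε hε => ?_
      have hc : 0 < ‖c‖ + 1 := by positivity
      have h1 : NB f (sInf {M | NB f M} + ε / (‖c‖ + 1)) := NB_of_lt (by
        have : 0 < ε / (‖c‖ + 1) := by positivity
        linarith)
      refine (inf_le (h1.smul c)).trans ?_
      rw [mul_add]
      gcongr
      rw [← mul_div_assoc, div_le_iff₀ hc]
      nlinarith [norm_nonneg c])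

/-- A bound on `nu` gives a Fourier representation. -/
theorem frep_of_nu_le {f : Ob D} {M : ℝ} (h : nu D f ≤ M) : ∃ G, FRep D.Ω f.rep G (M + 1) :=
  NB_of_lt (lt_of_le_of_lt h (lt_add_one M))

end Ob

end Crest.Agent.R80
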