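import Mathlib
import Crest.Prelude.Def_VecCalc3

/-!
Row 80. Definitions for the mixed Fourier solver: symbols a(t, ξ), t ∈ ℝ, ξ ∈ ℝ², classes of
rapidly decaying symbols, convolution in ξ, synthesis, and the ODE solution operator J.
-/

set_option autoImplicit false
open MeasureTheory Crest.AnalysisR.VecCalc3
open scoped ContDiff RealInnerProductSpace

namespace Crest.Agent.R80

/-- Complex partial derivative on ℝ³. -/
noncomputable def pd (i : Fin 3) (F : R3 → ℂ) (x : R3) : ℂ :=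
  fderiv ℝ F x (EuclideanSpace.single i 1)

/-- Iterated partial derivatives along a list of coordinates. -/
noncomputable def pdl : List (Fin 3) → (R3 → ℂ) → R3 → ℂ
  | [], F => F
  | i :: α, F => pdl α (pd i F)

theorem contDiff_pd {F : R3 → ℂ} (hF : ContDiff ℝ ∞ F) (i : Fin 3) : ContDiff ℝ ∞ (pd i F) :=
  (hF.fderiv_right (m := ∞) (by exact_mod_cast le_rfl)).clm_apply contDiff_const

theorem contDiff_pdl {F : R3 → ℂ} (hF : ContDiff ℝ ∞ F) (α : List (Fin 3)) :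
    ContDiff ℝ ∞ (pdl α F) := by
  induction α generalizing F with
  | nil => exact hF
  | cons i α ih => exact ih (contDiff_pd hF i)

/-- Symbols a(t, ξ). -/
abbrev Sym := ℝ → ℝ × ℝ → ℂ

/-- Joint continuity of a symbol. -/
def Cts (a : Sym) : Prop := Continuous fun p : ℝ × (ℝ × ℝ) => a p.1 p.2

/-- Families τ ↦ F τ (τ ∈ T) of continuous symbols, rapidly decaying in ξ locally uniformly in t,
with bounds C τ^p. -/
def Rap (T : Set ℝ) (p : ℕ) (F : ℝ → Sym) : Prop :=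
  (∀ τ ∈ T, Cts (F τ)) ∧ ∀ (s : ℕ) (R : ℝ), ∃ C : ℝ, ∀ τ ∈ T, ∀ t ξ, |t| ≤ R →
    (1 + ‖ξ‖) ^ s * ‖F τ t ξ‖ ≤ C * τ ^ p

/-- `n` derivatives in t, the j-th one in `Rap T (p + j)`. -/
def Tw (T : Set ℝ) : ℕ → ℕ → (ℝ → Sym) → Prop
  | 0, p, F => Rap T p F
  | n + 1, p, F => Rap T p F ∧ ∃ F' : ℝ → Sym,
      (∀ τ ∈ T, ∀ t ξ, HasDerivAt (fun r => F τ r ξ) (F' τ t ξ) t) ∧ Tw T n (p + 1) F'

/-- A single symbol, smooth in t, with all t-derivatives rapidly decaying in ξ. -/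
def Nice (β : Sym) : Prop := ∀ n, Tw {1} n 0 fun _ => β

/-- Convolution in ξ. -/
noncomputable def conv (β a : Sym) : Sym := fun t ξ => ∫ η, β t η * a t (ξ - η)

/-- Synthesis of a function of ξ at the point y ∈ ℝ². -/
noncomputable def synS (u : ℝ × ℝ → ℂ) (y : ℝ × ℝ) : ℂ :=
  ∫ ξ, u ξ * Complex.exp (Complex.I * ((ξ.1 * y.1 + ξ.2 * y.2 : ℝ) : ℂ))

/-- Synthesis of a symbol in the frame `b`. -/
noncomputable def Syn (b : Fin 3 → R3) (a : Sym) (x : R3) : ℂ :=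
  synS (a ⟪b 0, x⟫) (⟪b 1, x⟫, ⟪b 2, x⟫)

/-- ∫ (1+|ξ|)^{-3} dξ over ℝ² (sup norm). -/
noncomputable def c3 : ℝ := ∫ ξ : ℝ × ℝ, ((1 + ‖ξ‖) ^ 3)⁻¹

/-- Solution of u' + (α + K t) u = g that vanishes at the critical point t = -α/K. -/
noncomputable def J (K α : ℝ) (g : ℝ → ℂ) (t : ℝ) : ℂ :=
  ∫ s in (-α / K)..t, (Real.exp (α * (s - t) + K * (s ^ 2 - t ^ 2) / 2) : ℂ) * g s

/-- Fourier representation of `F` on the set `Ω` by `G`, with bound `M`. -/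
def FRep (Ω : Set R3) (F G : R3 → ℂ) (M : ℝ) : Prop :=
  Continuous G ∧ (∀ s : ℕ, ∃ C : ℝ, ∀ η, (1 + ‖η‖) ^ s * ‖G η‖ ≤ C) ∧
    (∀ η, (1 + ‖η‖) ^ 8 * ‖G η‖ ≤ M) ∧
      ∀ x ∈ Ω, F x = ∫ η, G η * Complex.exp (Complex.I * ((⟪η, x⟫ : ℝ) : ℂ))

theorem integrable_w3 : Integrable fun ξ : ℝ × ℝ => ((1 + ‖ξ‖) ^ 3)⁻¹ := by
  have h := integrable_one_add_norm (E := ℝ × ℝ) (μ := volume) (r := 3) (by simp; norm_num)
  refine h.congr (Filter.Eventually.of_forall fun ξ => ?_)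
  have : (0 : ℝ) ≤ 1 + ‖ξ‖ := by positivity
  simp only
  rw [Real.rpow_neg this]
  norm_cast

theorem c3_nonneg : 0 ≤ c3 := integral_nonneg fun ξ => by positivity

end Crest.Agent.R80
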