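import Crest.Agent.R80.Sym

/-! Row 80: closure properties of the symbol classes. -/

set_option autoImplicit false
open MeasureTheory Filter Topology Crest.AnalysisR.VecCalc3
open scoped ContDiff RealInnerProductSpace

namespace Crest.Agent.R80

variable {T : Set ℝ} {n p q : ℕ} {F G : ℝ → Sym}

theorem twAlg_rap_congr (h : Rap T p F) (hFG : ∀ τ ∈ T, ∀ t ξ, F τ t ξ = G τ t ξ) :
    Rap T p G := by
  have e : ∀ τ ∈ T, F τ = G τ := fun τ hτ => funext fun t => funext fun ξ => hFG τ hτ t ξ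
  refine ⟨fun τ hτ => e τ hτ ▸ h.1 τ hτ, fun s R => ?_⟩
  obtain ⟨C, hC⟩ := h.2 s R
  exact ⟨C, fun τ hτ t ξ ht => e τ hτ ▸ hC τ hτ t ξ ht⟩

theorem twAlg_rap_mono (hT : ∀ τ ∈ T, 1 ≤ τ) (h : Rap T p F) (hpq : p ≤ q) : Rap T q F := by
  refine ⟨h.1, fun s R => ?_⟩
  obtain ⟨C, hC⟩ := h.2 s R
  refine ⟨max C 0, fun τ hτ t ξ ht => (hC τ hτ t ξ ht).trans ?_⟩
  have h1 := hT τ hτ
  exact mul_le_mul (le_max_left _ _) (pow_le_pow_right₀ h1 hpq) (by positivity) (le_max_right _ _)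

theorem twAlg_rap_zero : Rap T p fun _ _ _ => 0 :=
  ⟨fun _ _ => continuous_const, fun _ _ => ⟨0, fun _ _ _ _ _ => by simp⟩⟩

theorem twAlg_rap_add (hF : Rap T p F) (hG : Rap T p G) :
    Rap T p fun τ t ξ => F τ t ξ + G τ t ξ := by
  refine ⟨fun τ hτ => Continuous.add (hF.1 τ hτ) (hG.1 τ hτ), fun s R => ?_⟩
  obtain ⟨C, hC⟩ := hF.2 s R
  obtain ⟨D, hD⟩ := hG.2 s R
  refine ⟨C + D, fun τ hτ t ξ ht => ?_⟩
  have h1 := hC τ hτ t ξ ht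
  have h2 := hD τ hτ t ξ ht
  have h3 := mul_le_mul_of_nonneg_left (norm_add_le (F τ t ξ) (G τ t ξ))
    (show (0 : ℝ) ≤ (1 + ‖ξ‖) ^ s by positivity)
  rw [mul_add] at h3
  rw [add_mul]
  linarith

theorem twAlg_rap_mul_xi (hF : Rap T p F) (m : ℝ → ℝ × ℝ → ℂ) (hm : ∀ τ ∈ T, Continuous (m τ))
    (r : ℕ) (C : ℝ) (hb : ∀ τ ∈ T, ∀ ξ, ‖m τ ξ‖ ≤ C * τ ^ q * (1 + ‖ξ‖) ^ r) :
    Rap T (p + q) fun τ t ξ => m τ ξ * F τ t ξ := by
  refine ⟨fun τ hτ => Continuous.mul ((hm τ hτ).comp continuous_snd) (hF.1 τ hτ), fun s R => ?_⟩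
  obtain ⟨D, hD⟩ := hF.2 (s + r) R
  refine ⟨C * D, fun τ hτ t ξ ht => ?_⟩
  have h1 := hD τ hτ t ξ ht
  have h2 := hb τ hτ ξ
  have hw : (0 : ℝ) < (1 + ‖ξ‖) ^ r := by positivity
  have h0 : 0 ≤ C * τ ^ q := by
    by_contra hneg
    have := mul_neg_of_neg_of_pos (not_le.1 hneg) hw
    linarith [norm_nonneg (m τ ξ)]
  calc (1 + ‖ξ‖) ^ s * ‖m τ ξ * F τ t ξ‖ = ‖m τ ξ‖ * ((1 + ‖ξ‖) ^ s * ‖F τ t ξ‖) := by
        rw [norm_mul]; ring
    _ ≤ (C * τ ^ q * (1 + ‖ξ‖) ^ r) * ((1 + ‖ξ‖) ^ s * ‖F τ t ξ‖) :=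
        mul_le_mul_of_nonneg_right h2 (by positivity)
    _ = (C * τ ^ q) * ((1 + ‖ξ‖) ^ (s + r) * ‖F τ t ξ‖) := by ring
    _ ≤ (C * τ ^ q) * (D * τ ^ p) := mul_le_mul_of_nonneg_left h1 h0
    _ = C * D * τ ^ (p + q) := by ring

theorem twAlg_bdd {χ : ℝ → ℂ} (hχ : Continuous χ) (R : ℝ) :
    ∃ M : ℝ, 0 ≤ M ∧ ∀ t, |t| ≤ R → ‖χ t‖ ≤ M := by
  obtain ⟨M, hM⟩ := (isCompact_Icc (a := -R) (b := R)).exists_bound_of_continuousOn
    hχ.continuousOn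
  exact ⟨max M 0, le_max_right _ _, fun t ht => (hM t (abs_le.1 ht)).trans (le_max_left _ _)⟩

theorem twAlg_rap_mul_t (hF : Rap T p F) {χ : ℝ → ℂ} (hχ : Continuous χ) :
    Rap T p fun τ t ξ => χ t * F τ t ξ := by
  refine ⟨fun τ hτ => Continuous.mul (hχ.comp continuous_fst) (hF.1 τ hτ), fun s R => ?_⟩
  obtain ⟨D, hD⟩ := hF.2 s R
  obtain ⟨M, hM0, hM⟩ := twAlg_bdd hχ R
  refine ⟨M * D, fun τ hτ t ξ ht => ?_⟩
  calc (1 + ‖ξ‖) ^ s * ‖χ t * F τ t ξ‖ = ‖χ t‖ * ((1 + ‖ξ‖) ^ s * ‖F τ t ξ‖) := by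
        rw [norm_mul]; ring
    _ ≤ M * ((1 + ‖ξ‖) ^ s * ‖F τ t ξ‖) := mul_le_mul_of_nonneg_right (hM t ht) (by positivity)
    _ ≤ M * (D * τ ^ p) := mul_le_mul_of_nonneg_left (hD τ hτ t ξ ht) hM0
    _ = M * D * τ ^ p := by ring

theorem Tw.rap (h : Tw T n p F) : Rap T p F := by
  cases n with
  | zero => exact h
  | succ n => exact h.1

theorem Tw.of_le {m : ℕ} (h : Tw T m p F) (hm : n ≤ m) : Tw T n p F := by
  induction n generalizing m p F with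
  | zero => exact h.rap
  | succ n ih =>
    obtain ⟨m, rfl⟩ : ∃ k, m = k + 1 := ⟨m - 1, by omega⟩
    obtain ⟨h1, F', h2, h3⟩ := h
    exact ⟨h1, F', h2, ih h3 (by omega)⟩

theorem Tw.congr (h : Tw T n p F) (hFG : ∀ τ ∈ T, ∀ t ξ, F τ t ξ = G τ t ξ) : Tw T n p G := by
  cases n with
  | zero => exact twAlg_rap_congr h hFG
  | succ n =>
    obtain ⟨h1, F', h2, h3⟩ := h
    refine ⟨twAlg_rap_congr h1 hFG, F', fun τ hτ t ξ => ?_, h3⟩
    have e : (fun r => G τ r ξ) = fun r => F τ r ξ := funext fun r => (hFG τ hτ r ξ).symm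
    rw [e]
    exact h2 τ hτ t ξ

theorem Tw.mono (hT : ∀ τ ∈ T, 1 ≤ τ) (h : Tw T n p F) (hpq : p ≤ q) : Tw T n q F := by
  induction n generalizing p q F with
  | zero => exact twAlg_rap_mono hT h hpq
  | succ n ih =>
    obtain ⟨h1, F', h2, h3⟩ := h
    exact ⟨twAlg_rap_mono hT h1 hpq, F', h2, ih h3 (by omega)⟩

theorem Tw.deriv (h : Tw T (n + 1) p F)
    (hd : ∀ τ ∈ T, ∀ t ξ, HasDerivAt (fun r => F τ r ξ) (G τ t ξ) t) : Tw T n (p + 1) G := by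
  obtain ⟨_, F', h2, h3⟩ := h
  exact h3.congr fun τ hτ t ξ => (h2 τ hτ t ξ).unique (hd τ hτ t ξ)

theorem Tw.zero : Tw T n p fun _ _ _ => 0 := by
  induction n generalizing p with
  | zero => exact twAlg_rap_zero
  | succ n ih => exact ⟨twAlg_rap_zero, fun _ _ _ => 0, fun _ _ t _ => hasDerivAt_const t _, ih⟩

theorem Tw.add (hF : Tw T n p F) (hG : Tw T n p G) :
    Tw T n p fun τ t ξ => F τ t ξ + G τ t ξ := by
  induction n generalizing p F G with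
  | zero => exact twAlg_rap_add hF hG
  | succ n ih =>
    obtain ⟨h1, F', h2, h3⟩ := hF
    obtain ⟨g1, G', g2, g3⟩ := hG
    exact ⟨twAlg_rap_add h1 g1, fun τ t ξ => F' τ t ξ + G' τ t ξ,
      fun τ hτ t ξ => (h2 τ hτ t ξ).add (g2 τ hτ t ξ), ih h3 g3⟩

theorem Tw.const_mul (c : ℂ) (hF : Tw T n p F) : Tw T n p fun τ t ξ => c * F τ t ξ := by
  induction n generalizing p F with
  | zero => exact twAlg_rap_mul_t (χ := fun _ => c) hF continuous_const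
  | succ n ih =>
    obtain ⟨h1, F', h2, h3⟩ := hF
    exact ⟨twAlg_rap_mul_t (χ := fun _ => c) h1 continuous_const, fun τ t ξ => c * F' τ t ξ,
      fun τ hτ t ξ => (h2 τ hτ t ξ).const_mul c, ih h3⟩

theorem Tw.sub (hF : Tw T n p F) (hG : Tw T n p G) :
    Tw T n p fun τ t ξ => F τ t ξ - G τ t ξ := by
  refine (hF.add (hG.const_mul (-1))).congr fun τ _ t ξ => ?_
  ring

theorem Tw.sum {ι : Type*} (s : Finset ι) {H : ι → ℝ → Sym} (h : ∀ i ∈ s, Tw T n p (H i)) :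
    Tw T n p fun τ t ξ => ∑ i ∈ s, H i τ t ξ := by
  classical
  induction s using Finset.induction_on with
  | empty => exact Tw.zero.congr fun τ _ t ξ => by simp
  | insert a s ha ih =>
    refine ((h a (Finset.mem_insert_self _ _)).add
      (ih fun i hi => h i (Finset.mem_insert_of_mem hi))).congr fun τ _ t ξ => ?_
    rw [Finset.sum_insert ha]

theorem Tw.mul_xi (hF : Tw T n p F) (m : ℝ → ℝ × ℝ → ℂ) (hm : ∀ τ ∈ T, Continuous (m τ))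
    (r : ℕ) (C : ℝ) (hb : ∀ τ ∈ T, ∀ ξ, ‖m τ ξ‖ ≤ C * τ ^ q * (1 + ‖ξ‖) ^ r) :
    Tw T n (p + q) fun τ t ξ => m τ ξ * F τ t ξ := by
  induction n generalizing p F with
  | zero => exact twAlg_rap_mul_xi hF m hm r C hb
  | succ n ih =>
    obtain ⟨h1, F', h2, h3⟩ := hF
    refine ⟨twAlg_rap_mul_xi h1 m hm r C hb, fun τ t ξ => m τ ξ * F' τ t ξ,
      fun τ hτ t ξ => (h2 τ hτ t ξ).const_mul _, ?_⟩
    have := ih h3
    rwa [show p + 1 + q = p + q + 1 by omega] at this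

theorem Tw.mul_t (hT : ∀ τ ∈ T, 1 ≤ τ) (hF : Tw T n p F) (χ : ℝ → ℂ) (hχ : ContDiff ℝ ∞ χ) :
    Tw T n p fun τ t ξ => χ t * F τ t ξ := by
  induction n generalizing p F χ with
  | zero => exact twAlg_rap_mul_t hF hχ.continuous
  | succ n ih =>
    have hF0 : Tw T n p F := hF.of_le (Nat.le_succ n)
    obtain ⟨h1, F', h2, h3⟩ := hF
    obtain ⟨hd, hχ'⟩ := contDiff_infty_iff_deriv.1 hχ
    refine ⟨twAlg_rap_mul_t h1 hχ.continuous,
      fun τ t ξ => _root_.deriv χ t * F τ t ξ + χ t * F' τ t ξ,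
      fun τ hτ t ξ => (hd t).hasDerivAt.mul (h2 τ hτ t ξ), ?_⟩
    exact ((ih hF0 _ hχ').mono hT (Nat.le_succ p)).add (ih h3 _ hχ)

theorem Tw.ode (hT : ∀ τ ∈ T, 1 ≤ τ) (α : ℝ → ℝ × ℝ → ℝ) (hα : ∀ τ ∈ T, Continuous (α τ))
    (C K : ℝ) (hb : ∀ τ ∈ T, ∀ ξ, |α τ ξ| ≤ C * τ * (1 + ‖ξ‖)) (hF : Rap T p F)
    (hd : ∀ τ ∈ T, ∀ t ξ, HasDerivAt (fun r => F τ r ξ)
      (G τ t ξ - ((α τ ξ + K * t : ℝ) : ℂ) * F τ t ξ) t)
    (hG : Tw T n (p + 1) G) : Tw T (n + 1) p F := by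
  have step : ∀ k, k ≤ n → Tw T k p F → Tw T (k + 1) p F := by
    intro k hk h
    refine ⟨hF, _, hd, ?_⟩
    have h1 : Tw T k (p + 1) fun τ t ξ => ((α τ ξ : ℝ) : ℂ) * F τ t ξ := by
      refine h.mul_xi (q := 1) (fun τ ξ => ((α τ ξ : ℝ) : ℂ))
        (fun τ hτ => Complex.continuous_ofReal.comp (hα τ hτ)) 1 C fun τ hτ ξ => ?_
      simpa using hb τ hτ ξ
    have hK : ContDiff ℝ ∞ fun t : ℝ => ((K * t : ℝ) : ℂ) :=
      Complex.ofRealCLM.contDiff.comp (contDiff_const.mul contDiff_id)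
    have h2 : Tw T k (p + 1) fun τ t ξ => ((K * t : ℝ) : ℂ) * F τ t ξ :=
      (h.mul_t hT _ hK).mono hT (Nat.le_succ p)
    refine (((hG.of_le hk).sub h1).sub h2).congr fun τ _ t ξ => ?_
    push_cast
    ring
  have all : ∀ k, k ≤ n + 1 → Tw T k p F := by
    intro k
    induction k with
    | zero => exact fun _ => hF
    | succ k ih => exact fun hk => step k (by omega) (ih (by omega))
  exact all _ le_rfl

theorem twAlg_from_one (hT : ∀ τ ∈ T, 1 ≤ τ) {β : Sym} (h : Tw {1} n p fun _ => β) :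
    Tw T n q fun _ => β := by
  have hr : ∀ {p q : ℕ} {β : Sym}, Rap {1} p (fun _ => β) → Rap T q fun _ => β := by
    intro p q β h
    refine ⟨fun _ _ => h.1 1 rfl, fun s R => ?_⟩
    obtain ⟨C, hC⟩ := h.2 s R
    refine ⟨max C 0, fun τ hτ t ξ ht => ?_⟩
    have h1 := hC 1 rfl t ξ ht
    rw [one_pow, mul_one] at h1
    exact (h1.trans (le_max_left _ _)).trans
      (le_mul_of_one_le_right (le_max_right _ _) (one_le_pow₀ (hT τ hτ)))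
  induction n generalizing p q β with
  | zero => exact hr h
  | succ n ih =>
    obtain ⟨h1, F', h2, h3⟩ := h
    refine ⟨hr h1, fun _ => F' 1, fun _ _ t ξ => h2 1 rfl t ξ, ih (p := p + 1) ?_⟩
    refine h3.congr fun τ hτ t ξ => ?_
    rw [Set.mem_singleton_iff.1 hτ]

theorem twAlg_to_one {τ : ℝ} (hτ : τ ∈ T) (h : Tw T n p F) : Tw {1} n q fun _ => F τ := by
  have hr : ∀ {p q : ℕ} {F : ℝ → Sym}, Rap T p F → Rap {1} q fun _ => F τ := by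
    intro p q F h
    refine ⟨fun _ _ => h.1 τ hτ, fun s R => ?_⟩
    obtain ⟨C, hC⟩ := h.2 s R
    refine ⟨C * τ ^ p, fun σ hσ t ξ ht => ?_⟩
    rw [Set.mem_singleton_iff.1 hσ, one_pow, mul_one]
    exact hC τ hτ t ξ ht
  induction n generalizing p q F with
  | zero => exact hr h
  | succ n ih =>
    obtain ⟨h1, F', h2, h3⟩ := h
    exact ⟨hr h1, fun _ => F' τ, fun _ _ t ξ => h2 τ hτ t ξ, ih h3⟩

theorem Nice.tw (hT : ∀ τ ∈ T, 1 ≤ τ) {β : Sym} (h : Nice β) (n : ℕ) : Tw T n 0 fun _ => β := by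
  exact twAlg_from_one hT (h n)

theorem nice_of_tw {τ : ℝ} (hτ : τ ∈ T) (h : ∀ n, Tw T n p F) : Nice (F τ) := by
  exact fun n => twAlg_to_one hτ (h n)

theorem Nice.cut {β : Sym} (h : Nice β) {χ : ℝ → ℂ} (hχ : Continuous χ) {R : ℝ}
    (h0 : ∀ t, R < |t| → χ t = 0) (s : ℕ) :
    ∃ C : ℝ, ∀ t ξ, (1 + ‖ξ‖) ^ s * ‖χ t * β t ξ‖ ≤ C := by
  obtain ⟨D, hD⟩ := (twAlg_rap_mul_t (h 0).rap hχ).2 s R
  refine ⟨max D 0, fun t ξ => ?_⟩
  by_cases ht : |t| ≤ R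
  · have := hD 1 rfl t ξ ht
    rw [pow_zero, mul_one] at this
    exact this.trans (le_max_left _ _)
  · rw [h0 t (not_le.1 ht)]
    simp

theorem Rap.integrable (h : Rap T p F) {τ : ℝ} (hτ : τ ∈ T) (t : ℝ) : Integrable (F τ t) := by
  obtain ⟨C, hC⟩ := h.2 3 |t|
  have hc : Continuous (F τ t) :=
    (h.1 τ hτ).comp (continuous_const.prodMk continuous_id)
  refine (integrable_w3.const_mul (C * τ ^ p)).mono' hc.aestronglyMeasurable
    (Filter.Eventually.of_forall fun ξ => ?_)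
  have hw : (0 : ℝ) < (1 + ‖ξ‖) ^ 3 := by positivity
  rw [← div_eq_mul_inv, le_div_iff₀ hw, mul_comm]
  exact hC τ hτ t ξ le_rfl

end Crest.Agent.R80
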